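import Vale.Agent.P073.H989.GensA
import Vale.Agent.P073.H194.MeshDefs
import Mathlib.Topology.ContinuousMap.CompactlySupported

/-!
# P073, block B06 (GENS), part B: the edge sums over dyadic cubes tend to the integral,
in the mean over the origin
-/

namespace Vale.Agent.P073.H989

open MeasureTheory Set Filter Topology Metric Vale.Agent.P073.St
open Vale.Agent.P073.AB (edge eInt pt Idx)
open Vale.Agent.P073.SQ (ev)
open Vale.Agent.P073.H194 (cSum eIn)
open P073.Net (dyc dyo)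
open scoped ENNReal NNReal

theorem tsub_ofReal_le (a b : ℝ) : ENNReal.ofReal a - ENNReal.ofReal b ≤ ‖a - b‖ₑ := by
  rw [tsub_le_iff_left, Real.enorm_eq_ofReal_abs]
  calc ENNReal.ofReal a ≤ ENNReal.ofReal (b + |a - b|) :=
        ENNReal.ofReal_le_ofReal (by linarith [le_abs_self (a - b)])
    _ ≤ _ := ENNReal.ofReal_add_le

theorem tendsto_TS {H : V → ℝ≥0∞} (hH : Measurable H) (hi : ∫⁻ x, H x ≠ ⊤) (m₀ : ℕ)
    (z₀ : Fin 3 → ℤ) (j : Fin 3) {B : Set V} (hB : volume B ≠ ⊤) :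
    Tendsto (fun m => ∫⁻ v in B, (TS m₀ z₀ m j H v - ∫⁻ x in dyc v m₀ z₀, H x)) atTop (𝓝 0) := by
  rw [ENNReal.tendsto_nhds_zero]
  intro ε hε
  set A : ℝ≥0∞ := ENNReal.ofReal (8 * (1 / 2 ^ m₀) ^ 3) with hA
  set A' : ℝ≥0∞ := ENNReal.ofReal ((1 / 2 ^ m₀) ^ 3) with hA'
  have hAt : A ≠ ⊤ := ENNReal.ofReal_ne_top
  have hAt' : A' ≠ ⊤ := ENNReal.ofReal_ne_top
  have hε2 : ε / 2 ≠ 0 := (ENNReal.half_pos hε.ne').ne'
  have hε4 : ε / 2 / 2 ≠ 0 := (ENNReal.half_pos hε2).ne'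
  obtain ⟨δ, hδ0, hδ⟩ := ENNReal.exists_nnreal_pos_mul_lt (a := A' + A) (b := ε / 2)
    (ENNReal.add_ne_top.2 ⟨hAt', hAt⟩) hε2
  obtain ⟨ω, hω0, hω⟩ := ENNReal.exists_nnreal_pos_mul_lt (a := A * volume B) (b := ε / 2 / 2)
    (ENNReal.mul_ne_top hAt hB) hε4
  have hGi := integrable_toReal_of_lintegral_ne_top hH.aemeasurable hi
  obtain ⟨φ, hφs, hφi, hφc, -⟩ := hGi.exists_hasCompactSupport_lintegral_sub_le
    (ε := (δ : ℝ≥0∞)) (by exact_mod_cast hδ0.ne')
  have hfin : ∀ᵐ x : V, H x < ⊤ := ae_lt_top hH hi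
  set φe : V → ℝ≥0∞ := fun x => ENNReal.ofReal (φ x) with hφe
  have hφm : Measurable φe := hφc.measurable.ennreal_ofReal
  set r1 : V → ℝ≥0∞ := fun x => H x - φe x with hr1
  set r2 : V → ℝ≥0∞ := fun x => φe x - H x with hr2
  have hr1m : Measurable r1 := hH.sub hφm
  have hr2m : Measurable r2 := hφm.sub hH
  have hr1i : ∫⁻ x, r1 x ≤ δ := by
    refine (lintegral_mono_ae ?_).trans hφi
    filter_upwards [hfin] with x hx
    have : H x = ENNReal.ofReal (H x).toReal := (ENNReal.ofReal_toReal hx.ne).symm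
    simp only [hr1, hφe]
    conv_lhs => rw [this]
    exact tsub_ofReal_le _ _
  have hr2i : ∫⁻ x, r2 x ≤ δ := by
    refine (lintegral_mono_ae ?_).trans hφi
    filter_upwards [hfin] with x hx
    have : H x = ENNReal.ofReal (H x).toReal := (ENNReal.ofReal_toReal hx.ne).symm
    simp only [hr2, hφe]
    conv_lhs => rw [this]
    refine (tsub_ofReal_le _ _).trans (le_of_eq ?_)
    rw [← enorm_neg, neg_sub]
  obtain ⟨C, hC⟩ := hφs.exists_bound_of_continuous hφc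
  have hC' : ∀ x, φ x ≤ C := fun x => (le_abs_self _).trans (hC x)
  -- uniform continuity
  have huc := hφc.uniformContinuous_of_tendsto_cocompact (HasCompactSupport.is_zero_at_infty hφs)
  rw [Metric.uniformContinuous_iff] at huc
  obtain ⟨s, hs, huc⟩ := huc ω (by exact_mod_cast hω0)
  have hpow : Tendsto (fun m : ℕ => (1 / 2 ^ m : ℝ)) atTop (𝓝 0) := by
    have h := tendsto_pow_atTop_nhds_zero_of_lt_one (show (0:ℝ) ≤ 1 / 2 by norm_num)
      (show (1 / 2 : ℝ) < 1 by norm_num)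
    refine h.congr fun m => ?_
    rw [one_div_pow]
  have hψ : Tendsto (fun m : ℕ => ENNReal.ofReal C * ENNReal.ofReal
      ((1 / 2 ^ m₀ + 1 / 2 ^ m) ^ 3 - (1 / 2 ^ m₀) ^ 3) * volume B) atTop (𝓝 0) := by
    have h1 : Tendsto (fun m : ℕ => ((1 / 2 ^ m₀ + 1 / 2 ^ m) ^ 3 - (1 / 2 ^ m₀) ^ 3 : ℝ)) atTop
        (𝓝 ((1 / 2 ^ m₀ + 0) ^ 3 - (1 / 2 ^ m₀) ^ 3)) :=
      ((tendsto_const_nhds.add hpow).pow 3).sub tendsto_const_nhds
    rw [add_zero, sub_self] at h1
    have h2 := ENNReal.tendsto_ofReal h1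
    rw [ENNReal.ofReal_zero] at h2
    have h3 := ENNReal.Tendsto.const_mul (a := ENNReal.ofReal C) h2 (Or.inr ENNReal.ofReal_ne_top)
    rw [mul_zero] at h3
    have h4 := ENNReal.Tendsto.mul_const (b := volume B) h3 (Or.inr hB)
    rwa [zero_mul] at h4
  have hψ' := (ENNReal.tendsto_nhds_zero.1 hψ) (ε / 2 / 2) (pos_iff_ne_zero.2 hε4)
  filter_upwards [hpow.eventually (gt_mem_nhds hs), hψ', eventually_ge_atTop m₀] with m hm1 hm2 hm3
  set c : ℝ≥0∞ := A * ENNReal.ofReal ω + ENNReal.ofReal C * ENNReal.ofReal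
      ((1 / 2 ^ m₀ + 1 / 2 ^ m) ^ 3 - (1 / 2 ^ m₀) ^ 3) with hc
  have hpt : ∀ v : V, TS m₀ z₀ m j H v - ∫⁻ x in dyc v m₀ z₀, H x ≤
      c + ((∫⁻ x in dyc v m₀ z₀, r2 x) + TS m₀ z₀ m j r1 v) := by
    intro v
    rw [tsub_le_iff_left]
    calc TS m₀ z₀ m j H v ≤ TS m₀ z₀ m j (fun x => φe x + r1 x) v :=
          TS_mono (fun x => le_add_tsub) _ _ _ _ _
      _ ≤ TS m₀ z₀ m j φe v + TS m₀ z₀ m j r1 v := TS_add_le hφm _ _ _ _ _
      _ ≤ ((∫⁻ y in dyc v m₀ z₀, φe y) + c) + TS m₀ z₀ m j r1 v := by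
          gcongr
          refine TS_le_of_cont hC' hm3 ω.2 ?_ z₀ j v
          intro x y hxy
          have := huc (a := x) (b := y) (by rw [dist_eq_norm]; linarith)
          rw [Real.dist_eq] at this
          have := (le_abs_self _).trans this.le
          show φ x ≤ φ y + (ω : ℝ)
          linarith
      _ ≤ (((∫⁻ y in dyc v m₀ z₀, H y) + ∫⁻ y in dyc v m₀ z₀, r2 y) + c) +
            TS m₀ z₀ m j r1 v := by
          gcongr
          rw [← lintegral_add_left hH]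
          exact lintegral_mono fun y => le_add_tsub
      _ = _ := by ring
  calc ∫⁻ v in B, (TS m₀ z₀ m j H v - ∫⁻ x in dyc v m₀ z₀, H x)
      ≤ ∫⁻ v in B, (c + ((∫⁻ x in dyc v m₀ z₀, r2 x) + TS m₀ z₀ m j r1 v)) := lintegral_mono hpt
    _ = c * volume B + ((∫⁻ v in B, ∫⁻ x in dyc v m₀ z₀, r2 x) + ∫⁻ v in B, TS m₀ z₀ m j r1 v) := by
        rw [lintegral_add_left measurable_const, setLIntegral_const,
          lintegral_add_left (measurable_lintegral_dyc hr2m _ _)]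
    _ ≤ c * volume B + (A' * δ + A * δ) := by
        gcongr
        · refine (setLIntegral_le_lintegral _ _).trans ((lintegral_dyc_le hr2m m₀ z₀).trans ?_)
          gcongr
        · refine (setLIntegral_le_lintegral _ _).trans
            ((lintegral_TS_le hr1m.aemeasurable hm3 z₀ j).trans ?_)
          gcongr
    _ ≤ (ε / 2 / 2 + ε / 2 / 2) + ε / 2 := by
        have h1 : c * volume B ≤ ε / 2 / 2 + ε / 2 / 2 := by
          rw [hc, add_mul]
          refine add_le_add ?_ hm2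
          refine le_trans (le_of_eq ?_) hω.le
          rw [ENNReal.ofReal_coe_nnreal]
          ring
        have h2 : A' * δ + A * δ ≤ ε / 2 := by
          rw [← add_mul, mul_comm]
          exact hδ.le
        exact add_le_add h1 h2
    _ = ε := by rw [ENNReal.add_halves, ENNReal.add_halves]

theorem eIn_subset_zs {q : Idx} {n : ℕ} (k : Fin 3) : eIn q n k ⊆ zs q.1 q.2 n := by
  intro w hw
  unfold eIn at hw
  unfold zs
  rw [Fintype.mem_piFinset] at hw ⊢
  intro i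
  have := hw i
  split_ifs at this
  · exact Finset.Ico_subset_Icc_self this
  · exact this

theorem eInt_eq_sgI (v : V) (n : ℕ) (w : Fin 3 → ℤ) (k : Fin 3) (H : V → ℝ≥0∞) :
    ENNReal.ofReal ((1 / 2 ^ n) ^ 2) * eInt v ((n, w), k) H =
      ENNReal.ofReal ((1 / 2 ^ n) ^ 3) * sgI n w k H v := by
  unfold eInt sgI
  rw [← mul_assoc, ← ENNReal.ofReal_mul (by positivity), ← pow_succ,
    setLIntegral_congr (Ioc_ae_eq_Icc (a := (0:ℝ)) (b := 1))]
  rfl

theorem cSum_le_TS (v : V) (q : Idx) (n : ℕ) (k : Fin 3) (H : V → ℝ≥0∞) :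
    cSum v q n k H ≤ TS q.1 q.2 n k H v := by
  unfold cSum TS
  simp only [eInt_eq_sgI]
  exact Finset.sum_le_sum_of_subset (eIn_subset_zs k)

/-- the functional for the clause `cube` of `Gen` -/
noncomputable def cubeY (H : V → ℝ≥0∞) (q : Idx) (k : Fin 3) (n : ℕ) (v : V) : ℝ≥0∞ :=
  cSum v q n k H - ∫⁻ x in dyc v q.1 q.2, H x

theorem aemeasurable_cubeY {H : V → ℝ≥0∞} (hH : Measurable H) (q : Idx) (k : Fin 3) (n : ℕ) :
    AEMeasurable (cubeY H q k n) (volume : Measure V) := by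
  unfold cubeY cSum
  simp only [eInt_eq_sgI]
  refine AEMeasurable.sub ?_ (measurable_lintegral_dyc hH _ _).aemeasurable
  exact Finset.aemeasurable_fun_sum _ fun w _ =>
    (aemeasurable_sgI hH.aemeasurable n w k).const_mul _

/-- **The clause `cube`, in the mean over the origin.** -/
theorem tendsto_cubeY {H : V → ℝ≥0∞} (hH : Measurable H) (hi : ∫⁻ x, H x ≠ ⊤) (q : Idx)
    (k : Fin 3) {B : Set V} (hB : volume B ≠ ⊤) :
    Tendsto (fun n => ∫⁻ v in B, cubeY H q k n v) atTop (𝓝 0) := by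
  refine tendsto_of_tendsto_of_tendsto_of_le_of_le tendsto_const_nhds
    (tendsto_TS hH hi q.1 q.2 k hB) (fun n => zero_le) fun n => ?_
  exact lintegral_mono fun v => tsub_le_tsub_right (cSum_le_TS v q n k H) _

/-- the clause `cube` from the functional -/
theorem cube_of_tendsto {H : V → ℝ≥0∞} {q : Idx} {k : Fin 3} {nn : ℕ → ℕ} {v : V}
    (h : Tendsto (fun l => cubeY H q k (nn l) v) atTop (𝓝 0)) {δ : ℝ≥0∞} (hδ : δ ≠ 0) :
    ∀ᶠ l in atTop, cSum v q (nn l) k H ≤ (∫⁻ x in dyc v q.1 q.2, H x) + δ := by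
  filter_upwards [ENNReal.tendsto_nhds_zero.1 h δ (pos_iff_ne_zero.2 hδ)] with l hl
  exact tsub_le_iff_left.1 hl

end Vale.Agent.P073.H989
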