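import Vale.Agent.P073.H989.GenO
import Vale.Agent.P073.H235.Red3
import Vale.Agent.P073.H655.Lin
import Vale.Agent.P073.MM.H694.Lin

/-!
# P073: reduction to maps whose derivative matrices are generic
-/

namespace Vale.Agent.P073.H989

open MeasureTheory Set Filter Topology Metric Vale.Agent.P073.St
open Vale.Agent.P073.AB (cl err FinDist)
open Vale.Agent.P073.SQ (ev)
open Vale.Agent.P073.H655 (domain_lin homeo_lin exists_equiv diffeo_symm ap_eq_cl)
open scoped ENNReal ContDiff

variable {p : ℝ} {Ω Λ : Set V} {f : V → V} {F : V → Mat}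

/-- almost all invertible derivative matrices are generic -/
def Generic (Ω : Set V) (F : V → Mat) : Prop :=
  ∀ᵐ x ∂(volume.restrict Ω), NonSing (F x) → ∃ α > 0, AGen α (F x)

/-- the error after a linear change of the target -/
theorem err_lin {A : Mat} (T : V ≃L[ℝ] V) (hT : ∀ v, T v = ap A v) (hp : 0 ≤ p)
    (hΩ : IsOpen Ω) {P : V → V} (hP : St.IsDiffeo Ω (T '' Λ) P) :
    err p Ω f F (T.symm ∘ P) ≤ ENNReal.ofReal ((‖(T.symm : V →L[ℝ] V)‖ + 1) ^ p) *
      err p Ω (fun x => T (f x)) (fun x => mm A (F x)) P := by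
  set C : ℝ := ‖(T.symm : V →L[ℝ] V)‖ + 1 with hC
  have hC0 : 0 < C := by positivity
  have hTC : ∀ v, ‖T.symm v‖ ≤ C * ‖v‖ := fun v => by
    have h1 := (T.symm : V →L[ℝ] V).le_opNorm v
    refine h1.trans (mul_le_mul_of_nonneg_right ?_ (norm_nonneg _))
    linarith
  have hCp : 0 < C ^ p := by positivity
  have hrp : ∀ v : V, ENNReal.ofReal (‖T.symm v‖ ^ p) ≤
      ENNReal.ofReal (C ^ p) * ENNReal.ofReal (‖v‖ ^ p) := by
    intro v
    rw [← ENNReal.ofReal_mul hCp.le, ← Real.mul_rpow hC0.le (norm_nonneg _)]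
    exact ENNReal.ofReal_le_ofReal (Real.rpow_le_rpow (norm_nonneg _) (hTC v) hp)
  have hcl : ∀ (M : Mat) (v : V), T (cl M v) = cl (mm A M) v := by
    intro M v
    rw [hT]
    funext i
    simp only [ap, mm, PK.cl_apply, Finset.mul_sum, Finset.sum_mul]
    rw [Finset.sum_comm]
    simp only [mul_assoc]
  unfold err
  rw [mul_add, Finset.mul_sum]
  refine add_le_add ?_ (Finset.sum_le_sum fun j _ => ?_)
  · rw [← lintegral_const_mul' _ _ ENNReal.ofReal_ne_top]
    refine lintegral_mono fun x => ?_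
    have e1 : (T.symm ∘ P) x - f x = T.symm (P x - T (f x)) := by
      rw [map_sub, T.symm_apply_apply]
      rfl
    rw [e1]
    exact hrp _
  · rw [← lintegral_const_mul' _ _ ENNReal.ofReal_ne_top]
    refine setLIntegral_mono' hΩ.measurableSet fun x hx => ?_
    have hd : DifferentiableAt ℝ P x :=
      ((AB.diffeo_smooth hP).contDiffAt (hΩ.mem_nhds hx)).differentiableAt (by simp)
    have e0 : fderiv ℝ (T.symm ∘ P) x = (T.symm : V →L[ℝ] V).comp (fderiv ℝ P x) :=
      ((T.symm : V →L[ℝ] V).hasFDerivAt.comp x hd.hasFDerivAt).fderiv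
    have e1 : fderiv ℝ (T.symm ∘ P) x (ev j) - cl (F x) (ev j) =
        T.symm (fderiv ℝ P x (ev j) - cl (mm A (F x)) (ev j)) := by
      rw [e0, map_sub, ← hcl, T.symm_apply_apply]
      rfl
    rw [e1]
    exact hrp _

theorem aemeasurable_F (hF : St.IsSobolev p Ω f F) : AEMeasurable F (volume.restrict Ω) :=
  aemeasurable_pi_iff.2 fun i => aemeasurable_pi_iff.2 fun j =>
    (hF.2.1 i j).aestronglyMeasurable.aemeasurable

theorem nonSing_mm {A M : Mat} (hA : NonSing A) (hM : NonSing M) : NonSing (mm A M) := by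
  intro v hv
  refine hM v (hA _ ?_)
  rw [← hv]
  funext i
  simp only [ap, mm, Finset.mul_sum, Finset.sum_mul]
  rw [Finset.sum_comm]
  simp only [mul_assoc]

theorem finDist_lin {A : Mat} (hA : NonSing A) (h : FinDist Ω F) :
    FinDist Ω fun x => mm A (F x) := by
  unfold FinDist at h ⊢
  filter_upwards [h] with x hx hxΩ
  rcases hx hxΩ with h1 | h1
  · left
    intro i j
    simp [mm, h1]
  · right
    exact nonSing_mm hA h1

theorem nonSing_of_gprod {A L : Mat} (hg : gprod (mm A L) ≠ 0) : NonSing A := by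
  obtain ⟨α, hα, h⟩ := exists_aGen hg
  have h1 := h (fun i => Sum.inr i) Sum.inr_injective
  have h2 : det3 (mm A L 0) (mm A L 1) (mm A L 2) ≠ 0 := by
    intro h0
    simp only [six, Sum.elim_inr] at h1
    rw [h0, abs_zero] at h1
    linarith
  rw [nonSing_iff_det, det3_eq A]
  rw [det3_eq (mm A L)] at h2
  have h3 : Matrix.of (mm A L) = Matrix.of A * Matrix.of L := by
    ext i j
    rw [Matrix.mul_apply]
    rfl
  rw [h3, Matrix.det_mul] at h2
  exact left_ne_zero_of_mul h2

/-- an invertible matrix near a given one, which makes almost all derivative matrices generic -/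
theorem exists_linear_generic (hF : St.IsSobolev p Ω f F) (O₁ : Mat) {ε : ℝ} (hε : 0 < ε) :
    ∃ O : Mat, ‖O - O₁‖ < ε ∧ NonSing O ∧ Generic Ω fun x => mm O (F x) := by
  -- one more point, with the identity as its matrix
  have hone : NonSing (fun i j => if i = j then (1 : ℝ) else 0) := by
    intro v hv
    funext i
    have := congrFun hv i
    simpa [ap] using this
  have h1 := ae_generic (aemeasurable_F hF)
  have h2 := ae_gprod_ne hone
  have h3 : (ball O₁ ε ∩ {O : Mat | (∀ᵐ x ∂(volume.restrict Ω), NonSing (F x) →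
      gprod (mm O (F x)) ≠ 0) ∧ gprod (mm O fun i j => if i = j then (1 : ℝ) else 0) ≠ 0}).Nonempty := by
    by_contra hcon
    rw [not_nonempty_iff_eq_empty] at hcon
    have h3 : ball O₁ ε ⊆ {O : Mat | (∀ᵐ x ∂(volume.restrict Ω), NonSing (F x) →
        gprod (mm O (F x)) ≠ 0) ∧ gprod (mm O fun i j => if i = j then (1 : ℝ) else 0) ≠ 0}ᶜ := by
      intro O hO hO2
      have : O ∈ (∅ : Set Mat) := hcon ▸ ⟨hO, hO2⟩
      exact this
    have h4 : volume (ball O₁ ε) = 0 := measure_mono_null h3 (h1.and h2)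
    exact (measure_ball_pos volume O₁ hε).ne' h4
  obtain ⟨O, hO1, hO2, hO3⟩ := h3
  refine ⟨O, by simpa [dist_eq_norm] using hO1, nonSing_of_gprod hO3, ?_⟩
  filter_upwards [hO2] with x hx h3
  refine exists_aGen (hx ?_)
  -- `F x` is invertible when the product is
  rw [nonSing_iff_det, det3_eq (F x)]
  rw [nonSing_iff_det, det3_eq (mm O (F x))] at h3
  have h4 : Matrix.of (mm O (F x)) = Matrix.of O * Matrix.of (F x) := by
    ext i j
    rw [Matrix.mul_apply]
    rfl
  rw [h4, Matrix.det_mul] at h3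
  exact right_ne_zero_of_mul h3

/-- finite distortion, error form, generic derivatives -/
def M1PG (p : ℝ) : Prop :=
  ∀ (Ω Λ : Set V) (f : V → V) (F : V → Mat), St.IsBoundedDomain Ω → St.IsBoundedDomain Λ →
    St.IsHomeo Ω Λ f → St.IsSobolev p Ω f F → FinDist Ω F → Generic Ω F →
    ∀ ε > 0, ∃ g : V → V, St.IsDiffeo Ω Λ g ∧ err p Ω f F g ≤ ENNReal.ofReal ε

/-- **reduction to generic derivatives** -/
theorem m1P_of_generic (hp : 1 ≤ p) (h : M1PG p) : H235.M1P p := by
  intro Ω Λ f F hΩ hΛ hf hF hD ε hε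
  have hp0 : 0 ≤ p := by linarith
  obtain ⟨O, -, hO, hg⟩ := exists_linear_generic hF (fun i j => if i = j then (1 : ℝ) else 0)
    one_pos
  obtain ⟨T, hT⟩ := exists_equiv hO
  have hf' := homeo_lin T hf
  have hF' : St.IsSobolev p Ω (fun x => T (f x)) (fun x => mm O (F x)) := by
    have h1 := MM.H694.sobolev_lin hp (PK.volume_ne_top_of_domain hΩ) hF O
    simpa only [hT] using h1
  set C : ℝ := (‖(T.symm : V →L[ℝ] V)‖ + 1) ^ p with hC
  have hC0 : 0 < C := by positivity
  obtain ⟨P, hP, hPe⟩ := h Ω (T '' Λ) _ _ hΩ (domain_lin T hΛ) hf' hF' (finDist_lin hO hD) hg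
    (ε / C) (div_pos hε hC0)
  refine ⟨T.symm ∘ P, AB.isDiffeo_comp hP (diffeo_symm T), ?_⟩
  refine (err_lin T hT hp0 hΩ.1 hP).trans ?_
  calc ENNReal.ofReal C * err p Ω (fun x => T (f x)) (fun x => mm O (F x)) P
      ≤ ENNReal.ofReal C * ENNReal.ofReal (ε / C) := by gcongr
    _ = ENNReal.ofReal ε := by
        rw [← ENNReal.ofReal_mul hC0.le]
        congr 1
        field_simp

/-- finite distortion, face form, generic derivatives -/
def FDFaceG (p : ℝ) : Prop :=
  ∀ (Ω Λ : Set V) (f : V → V) (F : V → Mat), St.IsBoundedDomain Ω → St.IsBoundedDomain Λ →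
    St.IsHomeo Ω Λ f → St.IsSobolev p Ω f F → FinDist Ω F → Generic Ω F →
    ∀ ε > 0, H73.ConFace p ε Ω Λ f F

/-- **reduction to generic derivatives, face form** -/
theorem m1P_of_faceG (hp : 1 ≤ p) (hp3 : p < 3) (h : FDFaceG p) : H235.M1P p := by
  refine m1P_of_generic hp ?_
  intro Ω Λ f F hΩ hΛ hf hF hD hG ε hε
  exact H73.exists_small_err3 hp hp3 hΩ hΛ hf
    (fun _ hε => H73.goodFace_of_conFace hp hΩ hΛ (h Ω Λ f F hΩ hΛ hf hF hD hG) hε) hε

end Vale.Agent.P073.H989
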