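import Vale.Agent.P073.AB.FinalA

/-!
# P073, block B09: closeness which tends to zero at the boundary

`Bz R f φ ε`: `φ` is `ε`-close to `f` on `R`, and `φ - f` tends to zero at the boundary of `R`.
-/

open Set Metric Topology Filter

namespace Vale.Agent.P073.H989

open Vale.Agent.P073.St (V Mat)

/-- `φ` is `ε`-close to `f` on `R`, and `φ - f` tends to zero at the boundary -/
def Bz (R : Set V) (f φ : V → V) (ε : ℝ) : Prop :=
  (∀ x ∈ R, ‖φ x - f x‖ ≤ ε) ∧ ∀ η > 0, ∃ K ⊆ R, IsCompact K ∧ ∀ x ∈ R \ K, ‖φ x - f x‖ ≤ η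

variable {R : Set V} {f φ ψ : V → V} {ε ε' : ℝ}

theorem Bz.mono (h : Bz R f φ ε) (he : ε ≤ ε') : Bz R f φ ε' :=
  ⟨fun x hx => (h.1 x hx).trans he, h.2⟩

theorem bz_refl (h0 : 0 ≤ ε) : Bz R f f ε :=
  ⟨fun x _ => by simpa using h0, fun η hη => ⟨∅, empty_subset _, isCompact_empty,
    fun x _ => by simpa using hη.le⟩⟩

theorem Bz.symm (h : Bz R f φ ε) : Bz R φ f ε :=
  ⟨fun x hx => by rw [norm_sub_rev]; exact h.1 x hx, fun η hη => by
    obtain ⟨K, h1, h2, h3⟩ := h.2 η hη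
    exact ⟨K, h1, h2, fun x hx => by rw [norm_sub_rev]; exact h3 x hx⟩⟩

theorem Bz.trans (h : Bz R f φ ε) (h' : Bz R φ ψ ε') : Bz R f ψ (ε + ε') := by
  refine ⟨fun x hx => ?_, fun η hη => ?_⟩
  · have h1 := h.1 x hx
    have h2 := h'.1 x hx
    have h3 : ψ x - f x = (φ x - f x) + (ψ x - φ x) := by abel
    rw [h3]
    exact (norm_add_le _ _).trans (add_le_add h1 h2)
  · obtain ⟨K, k1, k2, k3⟩ := h.2 (η / 2) (by positivity)
    obtain ⟨K', l1, l2, l3⟩ := h'.2 (η / 2) (by positivity)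
    refine ⟨K ∪ K', union_subset k1 l1, k2.union l2, fun x hx => ?_⟩
    have h1 := k3 x ⟨hx.1, fun hk => hx.2 (Or.inl hk)⟩
    have h2 := l3 x ⟨hx.1, fun hk => hx.2 (Or.inr hk)⟩
    have h3 : ψ x - f x = (φ x - f x) + (ψ x - φ x) := by abel
    rw [h3]
    refine (norm_add_le _ _).trans ?_
    linarith

theorem Bz.congr (h : Bz R f φ ε) {g χ : V → V} (hg : EqOn g f R) (hχ : EqOn χ φ R) :
    Bz R g χ ε := by
  refine ⟨fun x hx => ?_, fun η hη => ?_⟩
  · rw [hg hx, hχ hx]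
    exact h.1 x hx
  · obtain ⟨K, k1, k2, k3⟩ := h.2 η hη
    refine ⟨K, k1, k2, fun x hx => ?_⟩
    rw [hg hx.1, hχ hx.1]
    exact k3 x hx

/-- the difference tends to zero at all points outside of `R` -/
theorem Bz.tendsto (h : Bz R f φ ε) {x : V} (hx : x ∉ R) :
    Tendsto (fun y => φ y - f y) (𝓝[R] x) (𝓝 0) := by
  rw [tendsto_zero_iff_norm_tendsto_zero]
  refine tendsto_order.2 ⟨fun a ha => Eventually.of_forall fun y => ha.trans_le (norm_nonneg _),
    fun a ha => ?_⟩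
  obtain ⟨K, k1, k2, k3⟩ := h.2 (a / 2) (by positivity)
  have hK : Kᶜ ∈ 𝓝 x := k2.isClosed.isOpen_compl.mem_nhds fun hk => hx (k1 hk)
  filter_upwards [self_mem_nhdsWithin, mem_nhdsWithin_of_mem_nhds hK] with y hy hyK
  have := k3 y ⟨hy, hyK⟩
  linarith

theorem Bz.tendsto_frontier (h : Bz R f φ ε) (hR : IsOpen R) :
    ∀ x ∈ frontier R, Tendsto (fun y => φ y - f y) (𝓝[R] x) (𝓝 0) := fun x hx => by
  refine h.tendsto fun hxR => ?_
  rw [hR.frontier_eq] at hx
  exact hx.2 hxR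

/-- the map which is `φ` in `R` and `f` outside is continuous -/
theorem Bz.continuousOn {Ω : Set V} {g : V → V} (h : Bz R f φ ε) (hR : IsOpen R)
    (hf : ContinuousOn f Ω) (hφ : ContinuousOn φ R) (h1 : EqOn g φ R) (h2 : EqOn g f (Ω \ R)) :
    ContinuousOn g Ω := by
  intro x hx
  by_cases hxR : x ∈ R
  · exact ((hφ.continuousAt (hR.mem_nhds hxR)).congr
      (Filter.eventuallyEq_of_mem (hR.mem_nhds hxR) h1).symm).continuousWithinAt
  · have e1 : g x = f x := h2 ⟨hx, hxR⟩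
    have e2 : Tendsto (fun y => g y - f y) (𝓝[Ω] x) (𝓝 0) := by
      have hsub : 𝓝[Ω] x ≤ 𝓝[R] x ⊔ 𝓝[Ω \ R] x := by
        rw [← nhdsWithin_union]
        refine nhdsWithin_mono x fun y hy => ?_
        by_cases hyR : y ∈ R
        · exact Or.inl hyR
        · exact Or.inr ⟨hy, hyR⟩
      refine Tendsto.mono_left (tendsto_sup.2 ⟨?_, ?_⟩) hsub
      · refine (h.tendsto hxR).congr' ?_
        filter_upwards [self_mem_nhdsWithin] with y hy
        rw [h1 hy]
      · refine (tendsto_const_nhds (x := (0:V))).congr' ?_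
        filter_upwards [self_mem_nhdsWithin] with y hy
        rw [h2 hy, sub_self]
    have e3 : Tendsto (fun y => (g y - f y) + f y) (𝓝[Ω] x) (𝓝 (0 + f x)) := e2.add (hf x hx)
    simp only [sub_add_cancel, zero_add] at e3
    show Tendsto g (𝓝[Ω] x) (𝓝 (g x))
    rw [e1]
    exact e3

/-- a bound by the distance to the boundary is enough -/
theorem bz_of_infDist (hb : Bornology.IsBounded R) {c : ℝ} (hc : 0 < c)
    (h : ∀ x ∈ R, ‖φ x - f x‖ ≤ c * infDist x Rᶜ) (hε : ∀ x ∈ R, ‖φ x - f x‖ ≤ ε) :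
    Bz R f φ ε := by
  refine ⟨hε, fun η hη => ?_⟩
  refine ⟨closure R ∩ {x | η / c ≤ infDist x Rᶜ}, ?_, ?_, ?_⟩
  · rintro x ⟨-, hx⟩
    by_contra hcon
    have h1 : infDist x Rᶜ = 0 := infDist_zero_of_mem hcon
    have h2 : 0 < η / c := by positivity
    have h3 : η / c ≤ infDist x Rᶜ := hx
    linarith
  · exact hb.isCompact_closure.inter_right
      (isClosed_le continuous_const (continuous_infDist_pt _))
  · rintro x ⟨hx, hxK⟩
    have h1 : infDist x Rᶜ < η / c := by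
      by_contra hcon
      exact hxK ⟨subset_closure hx, not_lt.1 hcon⟩
    refine (h x hx).trans ?_
    rw [lt_div_iff₀ hc] at h1
    linarith

end Vale.Agent.P073.H989
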