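import Vale.Agent.P073.H989.Thin2b

/-!
# P073, [THIN2]: `LocJ` from the set `T`, and the centres for the exponent two
-/

namespace Vale.Agent.P073.H989

open MeasureTheory Set Filter Topology Metric Vale.Agent.P073.St Vale.Agent.P073.AB
open _root_.P073.Net (dyc dyo IsTile SizeFn)
open Vale.Agent.P073.H73 (Bix ctr)
open Vale.Agent.P073.H194 (fs Gs fs_in fs_out Gs_in Gs_out Oc isClosed_Oc wH zo so co OT cubes_OT
  GoodC isCompact_boxR)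
open Vale.Agent.P073.H333 (lay gap core out base Mid)
open Vale.Agent.P073.H471 (wgt wt Cw Cw_ne_top measurable_wt)
open Vale.Agent.P073.H83 (CellsG gB gB_J grho tauC exists_centres sizeFn_grho cell_sub_boxR)
open Vale.Agent.P073.H234 (TSet P2Cells)
open scoped ENNReal

/-- a lattice point near a point of a cube, in the cube -/
theorem exists_near_pt {v : V} {n N : ℕ} (hN : n ≤ N) {z : Fin 3 → ℤ} {x : V}
    (hx : x ∈ dyc v n z) : ∃ a : Fin 3 → ℤ, pt v N a ∈ dyc v n z ∧ ‖x - pt v N a‖ ≤ 1 / 2 ^ N := by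
  have hp : (0:ℝ) < 2 ^ N := by positivity
  refine ⟨fun i => ⌊2 ^ N * (x i - v i)⌋, ?_, ?_⟩
  · intro i
    have h1 := hx i
    have h2 : (2 ^ (N - n) * z i : ℤ) ≤ ⌊2 ^ N * (x i - v i)⌋ := by
      rw [Int.le_floor]
      push_cast
      have e : (2:ℝ) ^ (N - n) * z i = 2 ^ N * (z i / 2 ^ n) := by
        have : (2:ℝ) ^ N = 2 ^ (N - n) * 2 ^ n := by rw [← pow_add, Nat.sub_add_cancel hN]
        rw [this]
        field_simp
      rw [e]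
      have : (z i : ℝ) / 2 ^ n ≤ x i - v i := by linarith [h1.1]
      gcongr
    have h3 : (⌊2 ^ N * (x i - v i)⌋ : ℝ) ≤ 2 ^ N * (x i - v i) := Int.floor_le _
    have h4 : ((2 ^ (N - n) * z i : ℤ) : ℝ) ≤ (⌊2 ^ N * (x i - v i)⌋ : ℝ) := by exact_mod_cast h2
    push_cast at h4
    show v i + z i / 2 ^ n ≤ v i + (⌊2 ^ N * (x i - v i)⌋ : ℝ) / 2 ^ N ∧
      v i + (⌊2 ^ N * (x i - v i)⌋ : ℝ) / 2 ^ N ≤ v i + (z i + 1) / 2 ^ n
    constructor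
    · have : (z i : ℝ) / 2 ^ n ≤ (⌊2 ^ N * (x i - v i)⌋ : ℝ) / 2 ^ N := by
        rw [le_div_iff₀ hp]
        refine le_trans (le_of_eq ?_) h4
        have : (2:ℝ) ^ N = 2 ^ (N - n) * 2 ^ n := by rw [← pow_add, Nat.sub_add_cancel hN]
        rw [this]
        field_simp
      linarith
    · have : (⌊2 ^ N * (x i - v i)⌋ : ℝ) / 2 ^ N ≤ x i - v i := by
        rw [div_le_iff₀ hp]
        linarith
      linarith [h1.2]
  · refine (pi_norm_le_iff_of_nonneg (by positivity)).2 fun i => ?_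
    have h3 : (⌊2 ^ N * (x i - v i)⌋ : ℝ) ≤ 2 ^ N * (x i - v i) := Int.floor_le _
    have h4 : 2 ^ N * (x i - v i) < ⌊2 ^ N * (x i - v i)⌋ + 1 := Int.lt_floor_add_one _
    have e : (x - pt v N (fun i => ⌊2 ^ N * (x i - v i)⌋)) i =
        (2 ^ N * (x i - v i) - ⌊2 ^ N * (x i - v i)⌋) / 2 ^ N := by
      simp only [Pi.sub_apply, pt]
      field_simp
      ring
    rw [e, Real.norm_eq_abs, abs_div, abs_of_pos hp]
    gcongr
    rw [abs_le]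
    constructor <;> linarith

variable {p θ M κT t₀ δ₀ ε₁ θ' M' κ c₀ : ℝ} {ε : ℝ≥0∞} {j m n m₁ : ℕ} {Ω Λ : Set V} {f : V → V}
  {F : V → Mat} {T : Set V} {v : V}

/-- **`LocJ`**: the cells of generation `n` in the big cubes -/
theorem locJ_of (HT : TSet θ M κT t₀ δ₀ ε₁ Ω f F T) (hκT : κT ≤ θ / 2) (hθ : 0 < θ)
    (ht₀ : 0 < t₀) (C : P2Cells p ε θ' M' κ c₀ t₀ δ₀ j Ω Λ f F T v m) (hκ : 0 ≤ κ)
    (hθM : θ ≤ M') (hmn : m ≤ n) (hnj : n ≤ m + j) {J : Finset (Fin 3 → ℤ)}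
    {A : (Fin 3 → ℤ) → V → V}
    (hJ : ∀ z ∈ J, ∃ Z ∈ C.J, dyc v n z ⊆ dyc v m Z ∧ A z = C.A Z)
    (h1 : 32 * (1 / 2 ^ m₁) ≤ θ * (1 / 2 ^ n)) (h2 : 32 * (M' + κ) * (1 / 2 ^ (m + j)) ≤
      θ * (1 / 2 ^ n)) : LocJ v n m₁ J A := by
  intro z hz z' hz' x hx x' hx' hxx
  obtain ⟨Z, hZ, hsub, hA⟩ := hJ z hz
  obtain ⟨Z', hZ', hsub', hA'⟩ := hJ z' hz'
  rw [hA, hA'] at hxx
  obtain ⟨a, ha, hxa⟩ := exists_near_pt hnj hx
  obtain ⟨a', ha', hxa'⟩ := exists_near_pt hnj hx'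
  obtain ⟨haT, hfa, -⟩ := C.vert Z hZ a (hsub ha)
  obtain ⟨haT', hfa', -⟩ := C.vert Z' hZ' a' (hsub' ha')
  set P := pt v (m + j) a with hP
  set P' := pt v (m + j) a' with hP'
  have hM' : 0 < M' := hθ.trans_le hθM
  set ℓ : ℝ := 1 / 2 ^ (m + j) with hℓ
  have hℓ0 : 0 < ℓ := by positivity
  set s : ℝ := 1 / 2 ^ n with hs
  have hs0 : 0 < s := by positivity
  have e1 : κ / 2 ^ (m + j) = κ * ℓ := by rw [hℓ]; ring
  rw [e1] at hfa hfa'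
  have b1 : ‖C.A Z P - C.A Z x‖ ≤ M' * ℓ := by
    rw [C.aff Z hZ]
    refine (C.above Z hZ _).trans ?_
    rw [norm_sub_rev]
    gcongr
  have b2 : ‖C.A Z' P' - C.A Z' x'‖ ≤ M' * ℓ := by
    rw [C.aff Z' hZ']
    refine (C.above Z' hZ' _).trans ?_
    rw [norm_sub_rev]
    gcongr
  have hE : ‖f P - f P'‖ ≤ 2 / 2 ^ m₁ + 2 * (κ + M') * ℓ := by
    have e : f P - f P' = (f P - C.A Z P) + (C.A Z P - C.A Z x) + (C.A Z x - C.A Z' x') +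
        (C.A Z' x' - C.A Z' P') + (C.A Z' P' - f P') := by abel
    rw [e]
    have g1 := norm_add_le ((f P - C.A Z P) + (C.A Z P - C.A Z x) + (C.A Z x - C.A Z' x') +
        (C.A Z' x' - C.A Z' P')) (C.A Z' P' - f P')
    have g2 := norm_add_le ((f P - C.A Z P) + (C.A Z P - C.A Z x) + (C.A Z x - C.A Z' x'))
        (C.A Z' x' - C.A Z' P')
    have g3 := norm_add_le ((f P - C.A Z P) + (C.A Z P - C.A Z x)) (C.A Z x - C.A Z' x')
    have g4 := norm_add_le (f P - C.A Z P) (C.A Z P - C.A Z x)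
    rw [norm_sub_rev (C.A Z' P') (f P')] at g1
    rw [norm_sub_rev (C.A Z' x') (C.A Z' P')] at g2
    linarith
  have hE2 : ‖f P - f P'‖ ≤ θ * s / 8 := by
    refine hE.trans ?_
    have e2 : (2:ℝ) / 2 ^ m₁ = 2 * (1 / 2 ^ m₁) := by ring
    rw [e2]
    linarith
  have hδ : θ / 2 * (s / 2) ≤ δ₀ := by
    refine le_trans ?_ C.fine
    have h3 : s ≤ 1 / 2 ^ m := by
      rw [hs]
      apply one_div_le_one_div_of_le (by positivity)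
      exact pow_le_pow_right₀ (by norm_num) hmn
    calc θ / 2 * (s / 2) ≤ M' / 2 * ((1 / 2 ^ m) / 2) := by gcongr
      _ = (M' / 4) / 2 ^ m := by ring
      _ ≤ 64 * (M' + 1) / 2 ^ m := by gcongr; linarith
  have hPP : ‖P - P'‖ < s / 2 := by
    by_contra hcon
    rw [not_lt] at hcon
    have h3 := H732.vertex_sep HT hκT hθ ht₀ hδ haT haT' hcon
    have : 0 < θ * s := by positivity
    linarith
  have hℓs : 32 * ℓ ≤ s := by
    have h3 : 32 * M' * ℓ ≤ M' * s := by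
      calc 32 * M' * ℓ ≤ 32 * (M' + κ) * ℓ := by gcongr; linarith
        _ ≤ θ * s := h2
        _ ≤ M' * s := by gcongr
    have h4 : M' * (32 * ℓ) ≤ M' * s := by linarith
    exact le_of_mul_le_mul_left h4 hM'
  have e : x - x' = (x - P) + (P - P') + (P' - x') := by abel
  rw [e]
  have g1 := norm_add_le ((x - P) + (P - P')) (P' - x')
  have g2 := norm_add_le (x - P) (P - P')
  rw [norm_sub_rev P' x'] at g1
  linarith

/-- **the centres for the exponent two**: `a₁ ≤ 1 / 288000` is an absolute number -/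
theorem exists_ctrs2 {θ₁ M₁ κ₁ : ℝ} {k₁ k₀ : ℕ} {g : V → V} {J : Finset (Fin 3 → ℤ)}
    {A : (Fin 3 → ℤ) → V → V} {L : (Fin 3 → ℤ) → V →L[ℝ] V} {G : V → ℝ≥0∞}
    (H : CellsG θ₁ M₁ κ₁ m₁ n k₁ Ω Λ g v J A L) (hloc : LocJ v n m₁ J A)
    (hF : H669.Fine Ω v n k₁ k₀ J) (hp : 0 ≤ p) (hm₁ : 2 ≤ m₁) {a₁ : ℝ}
    (ha0 : 0 ≤ a₁) (ha1 : a₁ ≤ 1 / 288000) (hk : 288000 * (M₁ / 2 ^ (n + k₁)) ≤ 1 / 2 ^ m₁)
    (mt m' : ℕ) (hG : Measurable G) {N : Set V} (hN : volume N = 0)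
    (ν' : Measure V) [SFinite ν'] {g' : V → V} (hg' : AEMeasurable g' ν') :
    ∃ c : ℕ → (Fin 3 → ℤ) → V, Mid (grho 0 v n k₁ m₁ mt m' J A Λ) c ∧
      (∀ m zz, IsTile (grho 0 v n k₁ m₁ mt m' J A Λ) 0 m zz → ∀ z ∈ J, ∀ x ∈ dyc v n z,
        x ∉ boxR v n k₁ z → a₁ / 2 ^ m₁ ≤ ‖c m zz - A z x‖) ∧
      (∀ m zz, IsTile (grho 0 v n k₁ m₁ mt m' J A Λ) 0 m zz → c m zz ∉ N) ∧
      ∫⁻ x in ⋃ q ∈ base Ω v n k₁ k₀ J \ (lay v n k₁ k₀ J ∪ gap v n k₁ J), dyc v q.1 q.2,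
        wH p (zo (grho 0 v n k₁ m₁ mt m' J A Λ) (gB H mt))
          (so (grho 0 v n k₁ m₁ mt m' J A Λ) (gB H mt))
          (co (grho 0 v n k₁ m₁ mt m' J A Λ) (gB H mt) c) (fs v n k₁ J A g)
          (Gs p v n k₁ J A L (gB H mt) G) x ≤
        CC2 p * ((∫⁻ x in Ω \ ⋃ z ∈ J, dyc v n z, G x) + ENNReal.ofReal M₁ ^ p *
          ∑ z ∈ J, volume (boxR v n k₁ z \ ⋃ b ∈ {b | b ∈ gB H mt ∧ b.1 = z}, b.cell A)) ∧
      (∀ m zz, IsTile (grho 0 v n k₁ m₁ mt m' J A Λ) 0 m zz →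
        ∫⁻ x in g' ⁻¹' dyc 0 m zz, wt p (1 / 2 / 2 ^ m) (g' x - c m zz) ∂ν' ≤
          8 * (Cw p * ν' (g' ⁻¹' dyc 0 m zz))) := by
  have hs : (0:ℝ) < 1 / 2 ^ m₁ := by positivity
  have e1 : a₁ / 2 ^ m₁ = a₁ * (1 / 2 ^ m₁) := by ring
  have h1 : a₁ / 2 ^ m₁ ≤ 1 / 288000 * (1 / 2 ^ m₁) := by
    rw [e1]
    gcongr
  have e2 : (1:ℝ) / 2 / 2 ^ m₁ = 1 / 2 * (1 / 2 ^ m₁) := by ring
  refine exists_ctrs_of H hF hp mt m' (fun m zz ht => ?_) hG hN ν' hg'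
  refine volume_thin_le2 H hloc hm₁ (by positivity) ?_ ?_ ht
  · rw [e2]
    linarith
  · linarith

end Vale.Agent.P073.H989
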