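import Vale.Agent.P073.H989.ChainB
import Vale.Agent.P073.H523.SumLoc2

/-!
# P073, [CHAIN-B]: the local energies of the chain

* `enX_aux`: general form, for any bound of the energy of the box;
* `enX_le`: for `enX`.
-/

namespace Vale.Agent.P073.H989

open MeasureTheory Set Filter Topology Metric Vale.Agent.P073.St
open Vale.Agent.P073.AB (Idx Part cl)
open Vale.Agent.P073.H696 (HF am Boxes blk blkS deep solid part1 nSq R2)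
open Vale.Agent.P073.H239 (enP eP eB enX DomL)
open Vale.Agent.P073.H851 (M3)
open Vale.Agent.P073.H911
open P073.Net (dyc dyo)
open scoped ENNReal NNReal

variable {p Cu : ℝ} {Lc : M3 → ℝ} {δ : ℝ} {j : ℕ} {ε : ℝ} {Ω Λ : Set V} {f : V → V} {F : V → Mat}
  {v : V}

/-- the cubes of a partition have disjoint interiors -/
theorem part_disj {I : Set Idx} (hI : Part Ω v I) : ∀ q ∈ I, ∀ q' ∈ I, q ≠ q' →
    Disjoint (dyo v q.1 q.2) (dyo v q'.1 q'.2) := fun q hq q' hq' h =>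
  (hI.disj q hq q' hq' h).mono_right ((dyo_sub_hc _ _ _).trans (hc_sub_dyc _ _ _))

/-- **[CHAIN-B]**, general form. `e k`: energy of the box `k`; `δ₁ k`: bound of the solid cubes -/
theorem enX_aux (X : R2 p Cu Lc δ j ε Ω Λ f F v) (hp : 1 ≤ p) (hF : St.IsSobolev p Ω f F)
    (hH : X.H = HF p Ω F) {εB M₀ : ℝ} {c : ℝ≥0∞} {τ φ κ μ : V → ℝ} {s : V → ℕ} {nn : ℕ → ℕ}
    (B : Boxes p εB M₀ c τ φ κ μ s Ω Λ f F v nn X.K X.x)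
    {I : Set Idx} {k₁ N N' : Idx → ℕ} {r : V → ℝ} {εD : ℝ≥0∞} {tolD : Idx → ℝ≥0∞} {r₀ : ℝ}
    (hI₁ : X.I₁ = part1 v X.K X.n k₁ I) (hS : X.S = solid v X.K X.n X.I₁)
    (D : DomL Ω v X.H X.K X.n N r εD tolD r₀ I N') {C₂ : ℝ} {Eb δ₁ : Idx → ℝ}
    (hEb : ∀ k ∈ X.K, 0 ≤ Eb k ∧ 0 ≤ δ₁ k)
    (h1 : ∀ q, (∀ k ∈ X.K, ¬ dyc v q.1 q.2 ⊆ dyc v k.1 k.2) → X.Eq q ≤ C₂)
    (h2 : ∀ k ∈ X.K, ∀ q : Idx, dyc v q.1 q.2 ⊆ dyc v k.1 k.2 → X.Eq q ≤ Eb k)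
    {e : Idx → ℝ≥0∞} (he : ∀ k ∈ X.K, e k ≤ ENNReal.ofReal (δ₁ k) * volume (dyc v k.1 k.2) +
      ‖cl (F (X.x k))‖ₑ ^ p * volume (dyc v k.1 k.2))
    (hμ : ∀ k ∈ X.K, 0 ≤ κ (X.x k) ∧ 1 / 2 ^ k.1 ≤ r₀)
    {δ₂ ε₀ : ℝ} (hδ₂ : 0 ≤ δ₂)
    (htol : ∀ k ∈ X.K, ENNReal.ofReal (Eb k) * tolD k ≤
      ENNReal.ofReal δ₂ * volume (dyc v k.1 k.2))
    (hnum : ∀ k ∈ X.K, 36 * 2 ^ (p - 1) * (Eb k * (‖cl (F (X.x k))‖ ^ p *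
        (18 / 2 ^ (X.n k - k.1)) + κ (X.x k))) + 2 ^ (p - 1) * κ (X.x k) + δ₁ k + δ₂ ≤ ε₀)
    {εt : ℝ≥0∞} (ht : ∑' q : {q : Idx // q ∈ X.I₁ \ X.S},
      ENNReal.ofReal (X.Eq q.1) * (nSq v X.I₁ q.1 * X.tol q.1) ≤ εt) (A : Set V) :
    enP X A + ∑' k : {k : Idx // k ∈ X.K ∧ (dyc v k.1 k.2 ∩ A).Nonempty}, e k.1 ≤
      (ENNReal.ofReal C₂ * 36 + ENNReal.ofReal (2 ^ (p - 1))) *
        (∫⁻ y in {y | y ∈ Ω ∧ infDist y A ≤ r₀}, HF p Ω F y) +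
      (ENNReal.ofReal C₂ * εD + ENNReal.ofReal ε₀ * volume Ω + εt) := by
  have hΩ : IsOpen Ω := X.hΩ.1
  set L : ℝ≥0∞ := ∫⁻ y in {y | y ∈ Ω ∧ infDist y A ≤ r₀}, HF p Ω F y with hL
  set f₁ : Idx → ℝ≥0∞ := fun k => ENNReal.ofReal (Eb k) *
    (36 * (∫⁻ y in dyc v k.1 k.2 \ blkS v k (X.n k), HF p Ω F y) + tolD k) with hf₁
  have hP := H523.enP_le X hI₁ hS D h1 h2 ht A
  rw [hH] at hP
  have hbox : ∀ k ∈ X.K, f₁ k + e k ≤ ENNReal.ofReal (2 ^ (p - 1)) *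
      (∫⁻ y in dyc v k.1 k.2, HF p Ω F y) + ENNReal.ofReal ε₀ * volume (dyc v k.1 k.2) := by
    intro k hk
    obtain ⟨hb1, hb2, hb3, hb4, -, -⟩ := X.box k hk
    have hn : k.1 ≤ X.n k := by omega
    refine le_trans (add_le_add le_rfl (he k hk)) ?_
    exact box_one B hp hF hk hn (hEb k hk).1 (hμ k hk).1 (hEb k hk).2 hδ₂ (htol k hk) le_rfl
      (hnum k hk)
  have hB := box_loc hΩ (v := v) (K := X.K) (H := HF p Ω F) (r₀ := r₀)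
    (fun k hk => ⟨(X.box k hk).1, (hμ k hk).2⟩) X.disj hbox A
  rw [ENNReal.tsum_add] at hB
  calc enP X A + ∑' k : {k : Idx // k ∈ X.K ∧ (dyc v k.1 k.2 ∩ A).Nonempty}, e k.1
      ≤ (ENNReal.ofReal C₂ * (36 * L + εD) +
        (∑' k : {k : Idx // k ∈ X.K ∧ (dyc v k.1 k.2 ∩ A).Nonempty}, f₁ k.1) + εt) +
        ∑' k : {k : Idx // k ∈ X.K ∧ (dyc v k.1 k.2 ∩ A).Nonempty}, e k.1 := by
        refine add_le_add (hP.trans ?_) le_rfl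
        have h6 : ∫⁻ y in {y | y ∈ Ω ∧ infDist y A ≤ r₀} \ ⋃ k ∈ X.K, dyc v k.1 k.2,
            HF p Ω F y ≤ L := lintegral_mono_set sdiff_subset
        gcongr
    _ = ENNReal.ofReal C₂ * (36 * L + εD) +
        ((∑' k : {k : Idx // k ∈ X.K ∧ (dyc v k.1 k.2 ∩ A).Nonempty}, f₁ k.1) +
        ∑' k : {k : Idx // k ∈ X.K ∧ (dyc v k.1 k.2 ∩ A).Nonempty}, e k.1) + εt := by ring
    _ ≤ ENNReal.ofReal C₂ * (36 * L + εD) +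
        (ENNReal.ofReal (2 ^ (p - 1)) * L + ENNReal.ofReal ε₀ * volume Ω) + εt := by gcongr
    _ = _ := by ring

/-- the solid cubes of the box: constant `E k` -/
theorem eB_le (X : R2 p Cu Lc δ j ε Ω Λ f F v) {k : Idx} (hk : k ∈ X.K) (hE : 0 ≤ X.E k) :
    eB X k ≤ ENNReal.ofReal (X.E k * (18 / 2 ^ (X.n k - k.1) + 24 * X.c₀ k)) *
      volume (dyc v k.1 k.2) + ‖cl (F (X.x k))‖ₑ ^ p * volume (dyc v k.1 k.2) := by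
  obtain ⟨hb1, hb2, hb3, hb4, -, -⟩ := X.box k hk
  have hn : k.1 ≤ X.n k := by omega
  unfold eB
  refine add_le_add ?_ le_rfl
  calc ENNReal.ofReal (X.E k) *
      volume ((⋃ q ∈ {q | q ∈ X.S ∧ dyc v q.1 q.2 ⊆ dyc v k.1 k.2}, dyc v q.1 q.2) \
        deep v X.n (4 * X.c₀ k) k)
      ≤ ENNReal.ofReal (X.E k) *
        (ENNReal.ofReal (18 / 2 ^ (X.n k - k.1) + 6 * (4 * X.c₀ k)) *
        volume (dyc v k.1 k.2)) := by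
        gcongr
        refine (measure_mono (sdiff_subset_sdiff_left (iUnion₂_subset fun q hq => hq.2))).trans ?_
        exact volume_sdiff_deep v X.n hn (by linarith) (by linarith)
    _ = _ := by
        rw [ENNReal.ofReal_mul hE, show 6 * (4 * X.c₀ k) = 24 * X.c₀ k by ring]
        ring

/-- the solid cubes of the box which are not deep, with constants `Eq` -/
theorem eBq_le (X : R2 p Cu Lc δ j ε Ω Λ f F v) {k : Idx} (hk : k ∈ X.K) {E₀ Eb : ℝ} {rm : ℕ}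
    (hrm : 3 ≤ rm) (hE₀ : 0 ≤ E₀) (hEb : 0 ≤ Eb)
    (h2 : ∀ q : Idx, dyc v q.1 q.2 ⊆ dyc v k.1 k.2 → X.Eq q ≤ Eb)
    (h3 : ∀ q ∈ X.S, ∀ z ∈ blkM rm k (X.n k), dyc v q.1 q.2 ⊆ dyc v (X.n k) z → X.Eq q ≤ E₀) :
    ∑' q : {q : Idx // q ∈ X.S ∧ dyc v q.1 q.2 ⊆ dyc v k.1 k.2 ∧
      ¬ dyc v q.1 q.2 ⊆ deep v X.n (3 * X.c₀ k) k},
      ENNReal.ofReal (X.Eq q.1) * volume (dyc v q.1.1 q.1.2) ≤
    ENNReal.ofReal (E₀ * (18 / 2 ^ (X.n k - k.1) + 24 * X.c₀ k) +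
      Eb * (6 * rm / 2 ^ (X.n k - k.1))) * volume (dyc v k.1 k.2) := by
  obtain ⟨hb1, hb2, hb3, hb4, -, -⟩ := X.box k hk
  have hn : k.1 ≤ X.n k := by omega
  have h4 := solid_le (v := v) (S := X.S) (n := X.n) (k := k) (c := X.c₀ k) (E₀ := E₀)
    (Eb := Eb) (Eq := X.Eq) hrm
    (fun q hq q' hq' => part_disj X.st.part q (X.st.sub hq) q' (X.st.sub hq')) hn hb3
    (by linarith) (X.szS k hk) (fun q _ hqk => h2 q hqk) h3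
  refine h4.trans (le_of_eq ?_)
  congr 1
  rw [← ENNReal.ofReal_mul hE₀, ← ENNReal.ofReal_mul hEb, ← ENNReal.ofReal_add]
  · exact mul_nonneg hE₀ (by positivity)
  · exact mul_nonneg hEb (by positivity)

/-- **[CHAIN-B]** the local energies -/
theorem enX_le (X : R2 p Cu Lc δ j ε Ω Λ f F v) (hp : 1 ≤ p) (hF : St.IsSobolev p Ω f F)
    (hH : X.H = HF p Ω F) {εB M₀ : ℝ} {c : ℝ≥0∞} {τ φ κ μ : V → ℝ} {s : V → ℕ} {nn : ℕ → ℕ}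
    (B : Boxes p εB M₀ c τ φ κ μ s Ω Λ f F v nn X.K X.x)
    {I : Set Idx} {k₁ N N' : Idx → ℕ} {r : V → ℝ} {εD : ℝ≥0∞} {tolD : Idx → ℝ≥0∞} {r₀ : ℝ}
    (hI₁ : X.I₁ = part1 v X.K X.n k₁ I) (hS : X.S = solid v X.K X.n X.I₁)
    (D : DomL Ω v X.H X.K X.n N r εD tolD r₀ I N') {C₂ : ℝ} {Eb : Idx → ℝ}
    (hEb : ∀ k ∈ X.K, 0 ≤ Eb k ∧ 0 ≤ X.E k)
    (h1 : ∀ q, (∀ k ∈ X.K, ¬ dyc v q.1 q.2 ⊆ dyc v k.1 k.2) → X.Eq q ≤ C₂)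
    (h2 : ∀ k ∈ X.K, ∀ q : Idx, dyc v q.1 q.2 ⊆ dyc v k.1 k.2 → X.Eq q ≤ Eb k)
    (hμ : ∀ k ∈ X.K, 0 ≤ κ (X.x k) ∧ 1 / 2 ^ k.1 ≤ r₀)
    {δ₂ ε₀ : ℝ} (hδ₂ : 0 ≤ δ₂)
    (htol : ∀ k ∈ X.K, ENNReal.ofReal (Eb k) * tolD k ≤
      ENNReal.ofReal δ₂ * volume (dyc v k.1 k.2))
    (hnum : ∀ k ∈ X.K, 36 * 2 ^ (p - 1) * (Eb k * (‖cl (F (X.x k))‖ ^ p *
        (18 / 2 ^ (X.n k - k.1)) + κ (X.x k))) + 2 ^ (p - 1) * κ (X.x k) +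
      X.E k * (18 / 2 ^ (X.n k - k.1) + 24 * X.c₀ k) + δ₂ ≤ ε₀)
    {εt : ℝ≥0∞} (ht : ∑' q : {q : Idx // q ∈ X.I₁ \ X.S},
      ENNReal.ofReal (X.Eq q.1) * (nSq v X.I₁ q.1 * X.tol q.1) ≤ εt)
    {C ε₂ : ℝ} (hC₂ : 0 ≤ C₂) (hC : 36 * C₂ + 2 ^ (p - 1) ≤ C)
    (hε₂ : ENNReal.ofReal C₂ * εD + ENNReal.ofReal ε₀ * volume Ω + εt ≤ ENNReal.ofReal ε₂)
    (A : Set V) :
    enX X A ≤ ENNReal.ofReal C * (∫⁻ y in {y | y ∈ Ω ∧ infDist y A ≤ r₀}, HF p Ω F y) +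
      ENNReal.ofReal ε₂ := by
  have h := enX_aux X hp hF hH B hI₁ hS D
    (δ₁ := fun k => X.E k * (18 / 2 ^ (X.n k - k.1) + 24 * X.c₀ k))
    (fun k hk => ⟨(hEb k hk).1, mul_nonneg (hEb k hk).2 (by
      have := (X.box k hk).2.2.1
      positivity)⟩) h1 h2 (e := eB X) (fun k hk => eB_le X hk (hEb k hk).2) hμ hδ₂ htol
      hnum ht A
  unfold enX
  refine h.trans (add_le_add ?_ hε₂)
  gcongr
  rw [show ENNReal.ofReal C₂ * 36 = ENNReal.ofReal (36 * C₂) by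
    rw [ENNReal.ofReal_mul (by norm_num)]; norm_num [mul_comm],
    ← ENNReal.ofReal_add (by positivity) (by positivity)]
  exact ENNReal.ofReal_le_ofReal hC

end Vale.Agent.P073.H989
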