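import Vale.Agent.P073.H234.Chain
import Vale.Agent.P073.H989.ChainB2

/-!
# P073, [CHAIN-B]: the local energies from the result of the chain (`ChX`)
-/

namespace Vale.Agent.P073.H989

open MeasureTheory Set Filter Topology Metric Vale.Agent.P073.St
open Vale.Agent.P073.AB (Idx Part cl)
open Vale.Agent.P073.H696 (HF am Boxes blk blkS deep solid part1 nSq R2)
open Vale.Agent.P073.H239 (enP eP eB enX DomL)
open Vale.Agent.P073.H234.Ch (Q₀ Q₁ ChX SpecEnCh)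
open Vale.Agent.P073.H851 (M3)
open P073.Net (dyc dyo)
open scoped ENNReal NNReal

variable {p Cu : ℝ} {Lc : M3 → ℝ} {δ : ℝ} {j : ℕ} {ε' : ℝ} {Ω Λ : Set V} {f : V → V}
  {F : V → Mat} {v : V}

/-- the numbers at one point -/
theorem num_point {F : V → Mat} {E₀ Eb : V → ℝ} {y : V} {κ ε₃ p c₀ t : ℝ}
    (hE₀ : 0 ≤ E₀ y) (hEb : E₀ y ≤ Eb y) (hκ0 : 0 < κ) (ht : 0 ≤ t)
    (hc : 0 ≤ c₀) (hcQ : 24 * c₀ * Q₀ p F E₀ y ≤ ε₃) (haQ : t * Q₁ p F E₀ Eb y ≤ ε₃)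
    (hκQ : κ * Q₁ p F E₀ Eb y ≤ ε₃) :
    Eb y * (‖cl (F y)‖ ^ p * t) ≤ ε₃ ∧ Eb y * t ≤ ε₃ ∧ Eb y * κ ≤ ε₃ ∧ κ ≤ ε₃ ∧
      E₀ y * (24 * c₀) ≤ ε₃ ∧ E₀ y * t ≤ ε₃ ∧ Eb y ≤ Q₁ p F E₀ Eb y := by
  have hN : 0 ≤ ‖cl (F y)‖ ^ p := Real.rpow_nonneg (norm_nonneg _) _
  set N := ‖cl (F y)‖ ^ p with hNd
  have hQ1 : Q₁ p F E₀ Eb y = (1 + |E₀ y| + |Eb y|) * (1 + N) := rfl
  have hQ0 : Q₀ p F E₀ y = 1 + |E₀ y| + N := rfl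
  rw [abs_of_nonneg hE₀, abs_of_nonneg (hE₀.trans hEb)] at hQ1
  rw [abs_of_nonneg hE₀] at hQ0
  have hEb0 := hE₀.trans hEb
  rw [hQ1] at haQ hκQ ⊢
  rw [hQ0] at hcQ
  have a1 : Eb y * N ≤ (1 + E₀ y + Eb y) * (1 + N) := by nlinarith [mul_nonneg hE₀ hN]
  have a2 : Eb y ≤ (1 + E₀ y + Eb y) * (1 + N) := by
    nlinarith [mul_nonneg hE₀ hN, mul_nonneg hEb0 hN]
  have a3 : 1 ≤ (1 + E₀ y + Eb y) * (1 + N) := by
    nlinarith [mul_nonneg hE₀ hN, mul_nonneg hEb0 hN]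
  have a4 : E₀ y ≤ (1 + E₀ y + Eb y) * (1 + N) := hEb.trans a2
  refine ⟨?_, ?_, ?_, ?_, ?_, ?_, a2⟩
  · calc Eb y * (N * t) = t * (Eb y * N) := by ring
      _ ≤ t * ((1 + E₀ y + Eb y) * (1 + N)) := by gcongr
      _ ≤ ε₃ := haQ
  · calc Eb y * t = t * Eb y := by ring
      _ ≤ t * ((1 + E₀ y + Eb y) * (1 + N)) := by gcongr
      _ ≤ ε₃ := haQ
  · calc Eb y * κ = κ * Eb y := by ring
      _ ≤ κ * ((1 + E₀ y + Eb y) * (1 + N)) := by gcongr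
      _ ≤ ε₃ := hκQ
  · calc κ = κ * 1 := by ring
      _ ≤ κ * ((1 + E₀ y + Eb y) * (1 + N)) := by gcongr
      _ ≤ ε₃ := hκQ
  · calc E₀ y * (24 * c₀) = 24 * c₀ * E₀ y := by ring
      _ ≤ 24 * c₀ * (1 + E₀ y + N) := by
          gcongr
          linarith
      _ ≤ ε₃ := hcQ
  · calc E₀ y * t = t * E₀ y := by ring
      _ ≤ t * ((1 + E₀ y + Eb y) * (1 + N)) := by gcongr
      _ ≤ ε₃ := haQ

/-- **[CHAIN-B]** the field `en` of `ChOut` -/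
theorem enX_of_chX {X : R2 p Cu Lc δ j ε' Ω Λ f F v} {C₂ εB M₀ r₀ b ε₃ : ℝ} {c : ℝ≥0∞}
    {τ φ κ μ : V → ℝ} {s : V → ℕ} {nn : ℕ → ℕ} {c₀ : V → ℝ} {a k₁ : V → ℕ} {E₀ Eb r : V → ℝ}
    {εD : ℝ≥0∞} {tolD : Idx → ℝ≥0∞} {I : Set Idx} {N' : Idx → ℕ}
    (H : ChX X C₂ εB M₀ r₀ b ε₃ c τ φ κ μ s nn c₀ a k₁ E₀ Eb r εD tolD I N')
    (hp : 1 ≤ p) (hF : St.IsSobolev p Ω f F) {C ε₂ : ℝ}
    (hC : 36 * C₂ + 2 ^ (p - 1) ≤ C)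
    (hε₂ : ε₃ * (2 + (73 * 2 ^ (p - 1) + 3) * (volume Ω).toReal) ≤ ε₂) (A : Set V) :
    enX X A ≤ ENNReal.ofReal C * (∫⁻ y in {y | y ∈ Ω ∧ infDist y A ≤ r₀}, HF p Ω F y) +
      ENNReal.ofReal ε₂ := by
  have hvΩ : volume Ω ≠ ⊤ := PK.volume_ne_top_of_domain X.hΩ
  have hP0 : (0 : ℝ) < 2 ^ (p - 1) := by positivity
  have hε₃ := H.ε₃0
  have hE₀ : ∀ y, 0 ≤ E₀ y := fun y => (Real.rpow_nonneg (norm_nonneg _) _).trans (H.E₀Q y)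
  have hD : DomL Ω v X.H X.K X.n (fun k => k.1 + s (X.x k)) r εD tolD r₀ I N' := by
    rw [H.H]; exact H.dom
  have hnum := fun y => num_point (p := p) (F := F) (E₀ := E₀) (Eb := Eb) (y := y) (κ := κ y)
    (ε₃ := ε₃) (c₀ := c₀ y) (t := 48 / 2 ^ a y) (hE₀ y) (H.Eb0 y) (H.κQ y).1 (by positivity)
    (H.c₀1 y).1.le (H.cQ y) (H.aQ y) (H.κQ y).2
  refine enX_le X hp hF H.H H.box H.I₁ H.S hD (Eb := fun k => Eb (X.x k)) (δ₂ := ε₃)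
    (ε₀ := (73 * 2 ^ (p - 1) + 3) * ε₃) (εt := ENNReal.ofReal ε₃)
    (fun k _ => ⟨(hE₀ _).trans (H.Eb0 _), by rw [H.E]; exact hE₀ _⟩) H.Eq1 H.Eq2
    (fun k hk => ⟨(H.κQ _).1.le, (H.box.pt k hk).2.2.2.trans (H.μr _).2⟩) hε₃.le
    (fun k hk => ?_) (fun k hk => ?_) H.tolQ H.C₂0.le hC ?_ A
  · refine le_trans ?_ (H.tolDQ k hk)
    gcongr
    exact (hnum _).2.2.2.2.2.2
  · have hnk : X.n k - k.1 = a (X.x k) := by rw [H.n]; simp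
    rw [hnk, H.E, H.cc]
    set y := X.x k with hy
    obtain ⟨e1, e2, e3, e4, e5, e6, -⟩ := hnum y
    have hN : 0 ≤ ‖cl (F y)‖ ^ p := Real.rpow_nonneg (norm_nonneg _) _
    have hEb := (hE₀ y).trans (H.Eb0 y)
    have h18 : (18 : ℝ) / 2 ^ a y ≤ 48 / 2 ^ a y := by gcongr; norm_num
    have h1 : Eb y * (‖cl (F y)‖ ^ p * (18 / 2 ^ a y) + κ y) ≤ 2 * ε₃ := by
      have : Eb y * (‖cl (F y)‖ ^ p * (18 / 2 ^ a y)) ≤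
          Eb y * (‖cl (F y)‖ ^ p * (48 / 2 ^ a y)) := by gcongr
      rw [mul_add]
      linarith
    have h2 : E₀ y * (18 / 2 ^ a y + 24 * c₀ y) ≤ 2 * ε₃ := by
      have : E₀ y * (18 / 2 ^ a y) ≤ E₀ y * (48 / 2 ^ a y) :=
        mul_le_mul_of_nonneg_left h18 (hE₀ y)
      rw [mul_add]
      linarith
    calc 36 * 2 ^ (p - 1) * (Eb y * (‖cl (F y)‖ ^ p * (18 / 2 ^ a y) + κ y)) +
        2 ^ (p - 1) * κ y + E₀ y * (18 / 2 ^ a y + 24 * c₀ y) + ε₃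
        ≤ 36 * 2 ^ (p - 1) * (2 * ε₃) + 2 ^ (p - 1) * ε₃ + 2 * ε₃ + ε₃ := by gcongr
      _ = (73 * 2 ^ (p - 1) + 3) * ε₃ := by ring
  · have e1 : ENNReal.ofReal ((73 * 2 ^ (p - 1) + 3) * ε₃) * volume Ω =
        ENNReal.ofReal ((73 * 2 ^ (p - 1) + 3) * ε₃ * (volume Ω).toReal) := by
      rw [ENNReal.ofReal_mul (p := (73 * 2 ^ (p - 1) + 3) * ε₃) (by positivity),
        ENNReal.ofReal_toReal hvΩ]
    calc ENNReal.ofReal C₂ * εD + ENNReal.ofReal ((73 * 2 ^ (p - 1) + 3) * ε₃) * volume Ω +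
        ENNReal.ofReal ε₃
        ≤ ENNReal.ofReal ε₃ + ENNReal.ofReal ((73 * 2 ^ (p - 1) + 3) * ε₃ *
          (volume Ω).toReal) + ENNReal.ofReal ε₃ := by
          rw [e1]
          gcongr
          exact H.εDQ
      _ = ENNReal.ofReal (ε₃ * (2 + (73 * 2 ^ (p - 1) + 3) * (volume Ω).toReal)) := by
          rw [← ENNReal.ofReal_add hε₃.le (by positivity),
            ← ENNReal.ofReal_add (by positivity) hε₃.le]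
          congr 1
          ring
      _ ≤ _ := ENNReal.ofReal_le_ofReal hε₂

/-- **[CHAIN-B]** -/
theorem specEnCh {p : ℝ} (hp : 1 ≤ p) : SpecEnCh p := by
  intro C₂ hC₂
  refine ⟨36 * C₂ + 2 ^ (p - 1), fun Ω ε₂ hΩ hε₂ => ?_⟩
  have hP0 : (0 : ℝ) < 2 ^ (p - 1) := by positivity
  have hV : 0 < 2 + (73 * 2 ^ (p - 1) + 3) * (volume Ω).toReal := by positivity
  refine ⟨ε₂ / (2 + (73 * 2 ^ (p - 1) + 3) * (volume Ω).toReal), by positivity, ?_⟩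
  intro Cu δ Lc j ε' Λ f F v X εB M₀ r₀ b c τ φ κ μ s nn c₀ a k₁ E₀ Eb r εD tolD I N' hF H A
  exact enX_of_chX H hp hF le_rfl (div_mul_cancel₀ _ hV.ne').le A

end Vale.Agent.P073.H989
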