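import Vale.Agent.P073.H234.Cleaned

/-!
# P073, P2h, [K0]: lattice facts for the assembly at the exponent two
-/

namespace Vale.Agent.P073.H989

open MeasureTheory Set Filter Topology Metric Vale.Agent.P073.St Vale.Agent.P073.AB
open Vale.Agent.P073.SQ (ev)
open Vale.Agent.P073.AB.P86 (rel)
open _root_.P073.Net (dyc dyo)
open Vale.Agent.P073.H234
open scoped ENNReal

variable {v : V} {n N : ℕ}

theorem div_int (h : n ≤ N) (a : ℤ) : (a:ℝ) / 2 ^ n = ((2 ^ (N - n) * a : ℤ) : ℝ) / 2 ^ N := by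
  have e : (2:ℝ) ^ N = 2 ^ (N - n) * 2 ^ n := by rw [← pow_add, Nat.sub_add_cancel h]
  push_cast
  rw [e]
  field_simp

theorem div_int_le {a b : ℤ} : (a:ℝ) / 2 ^ N ≤ (b:ℝ) / 2 ^ N ↔ a ≤ b := by
  have hp : (0:ℝ) < 2 ^ N := by positivity
  rw [div_le_div_iff_of_pos_right hp]
  exact_mod_cast Iff.rfl

theorem div_int_lt {a b : ℤ} : (a:ℝ) / 2 ^ N < (b:ℝ) / 2 ^ N ↔ a < b := by
  have hp : (0:ℝ) < 2 ^ N := by positivity
  rw [div_lt_div_iff_of_pos_right hp]
  exact_mod_cast Iff.rfl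

theorem div_int1 (h : n ≤ N) (a : ℤ) :
    ((a:ℝ) + 1) / 2 ^ n = ((2 ^ (N - n) * (a + 1) : ℤ) : ℝ) / 2 ^ N := by
  rw [← div_int h]
  push_cast
  ring

theorem cast_add1 (a : ℤ) : ((a:ℝ) + 1) / 2 ^ N = ((a + 1 : ℤ) : ℝ) / 2 ^ N := by push_cast; ring

theorem lo_mem (v : V) (N : ℕ) (u : Fin 3 → ℤ) :
    (fun k => v k + (u k : ℝ) / 2 ^ N) ∈ dyc v N u := by
  intro k
  refine ⟨le_rfl, ?_⟩
  show v k + (u k : ℝ) / 2 ^ N ≤ v k + (u k + 1) / 2 ^ N
  gcongr
  linarith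

theorem hi_mem (v : V) (N : ℕ) (u : Fin 3 → ℤ) :
    (fun k => v k + ((u k : ℝ) + 1) / 2 ^ N) ∈ dyc v N u := by
  intro k
  refine ⟨?_, le_rfl⟩
  show v k + (u k : ℝ) / 2 ^ N ≤ v k + (u k + 1) / 2 ^ N
  gcongr
  linarith

/-- a small cube in a cube -/
theorem dyc_sub_iff (h : n ≤ N) {z u : Fin 3 → ℤ} : dyc v N u ⊆ dyc v n z ↔
    ∀ k, 2 ^ (N - n) * z k ≤ u k ∧ u k + 1 ≤ 2 ^ (N - n) * (z k + 1) := by
  constructor
  · intro hs k
    have h1 := (hs (lo_mem v N u) k).1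
    have h2 := (hs (hi_mem v N u) k).2
    simp only [add_le_add_iff_left] at h1 h2
    rw [div_int h, div_int_le] at h1
    rw [div_int1 h, cast_add1, div_int_le] at h2
    exact ⟨h1, h2⟩
  · intro hs x hx k
    obtain ⟨h1, h2⟩ := hs k
    have h3 := hx k
    rw [cast_add1] at h3
    rw [div_int h, div_int1 h]
    have h4 := (div_int_le (N := N)).2 h1
    have h5 := (div_int_le (N := N)).2 h2
    constructor <;> linarith [h3.1, h3.2]

theorem dyo_sub_of (h : n ≤ N) {z u : Fin 3 → ℤ} (hs : dyc v N u ⊆ dyc v n z) :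
    dyo v N u ⊆ dyo v n z := by
  intro x hx k
  obtain ⟨h1, h2⟩ := (dyc_sub_iff h).1 hs k
  have h3 := hx k
  rw [cast_add1] at h3
  rw [div_int h, div_int1 h]
  have h4 := (div_int_le (N := N)).2 h1
  have h5 := (div_int_le (N := N)).2 h2
  constructor <;> linarith [h3.1, h3.2]

/-- a small cube in an open cube -/
theorem dyc_sub_dyo_iff (h : n ≤ N) {z u : Fin 3 → ℤ} : dyc v N u ⊆ dyo v n z ↔
    ∀ k, 2 ^ (N - n) * z k + 1 ≤ u k ∧ u k + 2 ≤ 2 ^ (N - n) * (z k + 1) := by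
  constructor
  · intro hs k
    have h1 := (hs (lo_mem v N u) k).1
    have h2 := (hs (hi_mem v N u) k).2
    simp only [add_lt_add_iff_left] at h1 h2
    rw [div_int h, div_int_lt] at h1
    rw [div_int1 h, cast_add1, div_int_lt] at h2
    exact ⟨by omega, by omega⟩
  · intro hs x hx k
    obtain ⟨h1, h2⟩ := hs k
    have h3 := hx k
    rw [cast_add1] at h3
    rw [div_int h, div_int1 h]
    have h4 := (div_int_lt (N := N) (a := 2 ^ (N - n) * z k) (b := u k)).2 (by omega)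
    have h5 := (div_int_lt (N := N) (a := u k + 1) (b := 2 ^ (N - n) * (z k + 1))).2 (by omega)
    constructor <;> linarith [h3.1, h3.2]

theorem touch_iff (h : n ≤ N) {z u : Fin 3 → ℤ} : Touch v n N z u ↔
    ∀ k, 2 ^ (N - n) * z k ≤ u k + 1 ∧ u k ≤ 2 ^ (N - n) * (z k + 1) := by
  constructor
  · rintro ⟨w, hw1, hw2⟩ k
    have h1 := hw1 k
    have h2 := hw2 k
    rw [cast_add1] at h1
    rw [div_int h, div_int1 h] at h2
    constructor
    · exact (div_int_le (N := N)).1 (by linarith [h1.2, h2.1])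
    · exact (div_int_le (N := N)).1 (by linarith [h1.1, h2.2])
  · intro hs
    refine ⟨fun k => v k + ((max (u k) (2 ^ (N - n) * z k) : ℤ) : ℝ) / 2 ^ N, ?_, ?_⟩
    · intro k
      obtain ⟨h1, h2⟩ := hs k
      rw [cast_add1]
      constructor
      · have := (div_int_le (N := N)).2 (le_max_left (u k) (2 ^ (N - n) * z k))
        linarith
      · have := (div_int_le (N := N)).2 (max_le (by omega : u k ≤ u k + 1) h1)
        linarith
    · intro k
      obtain ⟨h1, h2⟩ := hs k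
      rw [div_int h, div_int1 h]
      constructor
      · have := (div_int_le (N := N)).2 (le_max_right (u k) (2 ^ (N - n) * z k))
        linarith
      · have h3 : 2 ^ (N - n) * z k ≤ 2 ^ (N - n) * (z k + 1) := by
          have : (0:ℤ) < 2 ^ (N - n) := by positivity
          nlinarith
        have := (div_int_le (N := N)).2 (max_le h2 h3)
        linarith

theorem Touch.near {z u : Fin 3 → ℤ} (h : Touch v n N z u) {x : V}
    (hx : x ∈ dyc v N u) : ∃ y ∈ dyc v n z, ‖x - y‖ ≤ 1 / 2 ^ N := by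
  obtain ⟨w, hw1, hw2⟩ := h
  exact ⟨w, hw2, dyc_dist hx hw1⟩

/-- the tiles in the cell touch it -/
theorem touch_of_sub {z u : Fin 3 → ℤ} (h : dyc v N u ⊆ dyc v n z) : Touch v n N z u :=
  ⟨_, lo_mem v N u, h (lo_mem v N u)⟩

theorem touch_of_mem {z u : Fin 3 → ℤ} {x : V} (hx : x ∈ dyc v N u) (hx' : x ∈ dyc v n z) :
    Touch v n N z u := ⟨x, hx, hx'⟩

/-- the tile of generation `N` around a smaller cube -/
theorem exists_tile {M' : ℕ} (h : N ≤ M') (w : Fin 3 → ℤ) :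
    ∃ u : Fin 3 → ℤ, dyc v M' w ⊆ dyc v N u := by
  refine ⟨fun k => w k / 2 ^ (M' - N), (dyc_sub_iff h).2 fun k => ?_⟩
  have hp : (0:ℤ) < 2 ^ (M' - N) := by positivity
  have h1 := Int.mul_ediv_add_emod (w k) (2 ^ (M' - N))
  have h2 := Int.emod_nonneg (w k) hp.ne'
  have h3 := Int.emod_lt_of_pos (w k) hp
  constructor
  · linarith
  · have : 2 ^ (M' - N) * (w k / 2 ^ (M' - N) + 1) =
        2 ^ (M' - N) * (w k / 2 ^ (M' - N)) + 2 ^ (M' - N) := by ring
    rw [this]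
    omega

variable {p : ℝ} {ε : ℝ≥0∞} {θ M κ c₀ t₀ δ₀ : ℝ} {j : ℕ} {Ω Λ : Set V} {f : V → V}
  {F : V → Mat} {T : Set V} {m : ℕ} {C : P2Cells p ε θ M κ c₀ t₀ δ₀ j Ω Λ f F T v m}
  {J' : Finset (Fin 3 → ℤ)} {π : (Fin 3 → ℤ) → Fin 3 → ℤ}

/-- the tiles which touch a good cell are in the big cube -/
theorem touch_sub (S : SubCells C n J' π) (hmn : m ≤ n) (hnN : n ≤ N) {z u : Fin 3 → ℤ}
    (hz : z ∈ J') (h : Touch v n N z u) : dyc v N u ⊆ dyc v m (π z) := by
  rw [dyc_sub_iff (hmn.trans hnN)]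
  intro k
  obtain ⟨h1, h2⟩ := (touch_iff hnN).1 h k
  obtain ⟨h3, h4⟩ := (dyc_sub_dyo_iff hmn).1 (S.sub z hz) k
  have e : (2:ℤ) ^ (N - m) = 2 ^ (N - n) * 2 ^ (n - m) := by
    rw [← pow_add]
    congr 1
    omega
  have hp : (1:ℤ) ≤ 2 ^ (N - n) := one_le_pow₀ (by norm_num)
  rw [e]
  constructor
  · nlinarith
  · nlinarith

theorem Sel.clean (S : SubCells C n J' π) (hmn : m ≤ n) (hnN : n ≤ N) {s : Idx × Fin 3}
    (h : Sel v (m + j) n N J' s) : ∃ z ∈ J', Clean v m j (π z) s := by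
  obtain ⟨h1, z, hz, u, u', hu, hu', h2, h3⟩ := h
  exact ⟨z, hz, h1, h2.trans (touch_sub S hmn hnN hz hu), h3.trans (touch_sub S hmn hnN hz hu')⟩

/-- a lattice square which meets a good cell is selected -/
theorem sel_of_mem {M' : ℕ} (h : N ≤ M') {z : Fin 3 → ℤ} (hz : z ∈ J') {s : Idx × Fin 3}
    (hs : s.1.1 = M') {x : V} (hx : x ∈ squ v s) (hxz : x ∈ dyc v n z) : Sel v M' n N J' s := by
  obtain ⟨u, hu⟩ := exists_tile (v := v) h s.1.2
  obtain ⟨u', hu'⟩ := exists_tile (v := v) h (dn s)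
  have h1 := squ_sub_up hx
  have h2 := squ_sub_dn hx
  rw [hs] at h1 h2
  exact ⟨hs, z, hz, u, u', ⟨x, hu h1, hxz⟩, ⟨x, hu' h2, hxz⟩, hu, hu'⟩

/-- squares in a square -/
theorem subsq {s t : Idx × Fin 3} (h : s.1.1 ≤ t.1.1) (hst : squ v t ⊆ squ v s) :
    t.2 = s.2 ∧ dyc v t.1.1 t.1.2 ⊆ dyc v s.1.1 s.1.2 ∧
      dyc v t.1.1 (dn t) ⊆ dyc v s.1.1 (dn s) := by
  obtain ⟨⟨N', w⟩, l⟩ := t
  obtain ⟨⟨N, z⟩, l'⟩ := s
  simp only at h
  -- the corners of `t`
  have hlo : pt v N' w ∈ squ v ((N', w), l) :=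
    pt_mem_squ ((N', w), l)
  have hhi : (fun k => if k = l then v k + (w k : ℝ) / 2 ^ N' else v k + ((w k : ℝ) + 1) / 2 ^ N') ∈
      squ v ((N', w), l) := by
    refine ⟨by simp, fun k hk => ?_⟩
    simp only at hk
    simp only [if_neg hk]
    refine ⟨?_, le_rfl⟩
    gcongr
    linarith
  have h1 := hst hlo
  have h2 := hst hhi
  have hl : l = l' := by
    by_contra hne
    have a1 := h1.1
    have a2 := h2.1
    simp only at a1 a2
    rw [if_neg (fun h => hne h.symm)] at a2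
    simp only [pt] at a1
    rw [← a2] at a1
    have hp : (0:ℝ) < 2 ^ N' := by positivity
    have : (w l' : ℝ) / 2 ^ N' < (w l' + 1) / 2 ^ N' := by gcongr; linarith
    linarith
  subst hl
  have e1 : w l = 2 ^ (N' - N) * z l := by
    have a1 := h1.1
    simp only [pt, add_right_inj] at a1
    rw [div_int h] at a1
    exact le_antisymm ((div_int_le (N := N')).1 a1.le) ((div_int_le (N := N')).1 a1.ge)
  have e2 : ∀ k, k ≠ l → 2 ^ (N' - N) * z k ≤ w k ∧ w k + 1 ≤ 2 ^ (N' - N) * (z k + 1) := by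
    intro k hk
    have a1 := (h1.2 k hk).1
    have a2 := (h2.2 k hk).2
    simp only [pt, if_neg hk, add_le_add_iff_left] at a1 a2
    rw [div_int h, div_int_le] at a1
    rw [div_int1 h, cast_add1, div_int_le] at a2
    exact ⟨a1, a2⟩
  have hp : (1:ℤ) ≤ 2 ^ (N' - N) := one_le_pow₀ (by norm_num)
  refine ⟨rfl, (dyc_sub_iff h).2 fun k => ?_, (dyc_sub_iff h).2 fun k => ?_⟩
  · by_cases hk : k = l
    · subst hk
      show 2 ^ (N' - N) * z k ≤ w k ∧ w k + 1 ≤ 2 ^ (N' - N) * (z k + 1)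
      rw [e1]
      constructor <;> nlinarith
    · exact e2 k hk
  · by_cases hk : k = l
    · subst hk
      simp only [dn, if_true]
      rw [e1]
      constructor <;> nlinarith
    · simp only [dn, if_neg hk]
      exact e2 k hk

/-- the sub-squares of a square between two touching tiles are selected -/
theorem sel_of_sub {M' : ℕ} (h : N ≤ M') {z : Fin 3 → ℤ} (hz : z ∈ J') {s t : Idx × Fin 3}
    (hs : s.1.1 = N) (ht : t.1.1 = M') (hst : squ v t ⊆ squ v s)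
    (h1 : Touch v n N z s.1.2) (h2 : Touch v n N z (dn s)) : Sel v M' n N J' t := by
  obtain ⟨-, h3, h4⟩ := subsq (by rw [hs, ht]; exact h) hst
  rw [hs, ht] at h3 h4
  exact ⟨ht, z, hz, s.1.2, dn s, h1, h2, h3, h4⟩

/-- a sub-square which contains a given point -/
theorem exists_subsq {M' : ℕ} {s : Idx × Fin 3} (h : s.1.1 ≤ M') {x : V} (hx : x ∈ squ v s) :
    ∃ t : Idx × Fin 3, t.1.1 = M' ∧ t.2 = s.2 ∧ squ v t ⊆ squ v s ∧ x ∈ squ v t := by
  obtain ⟨⟨N, z⟩, l⟩ := s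
  simp only at h
  have hp : (0:ℝ) < 2 ^ M' := by positivity
  have hp1 : (1:ℤ) ≤ 2 ^ (M' - N) := one_le_pow₀ (by norm_num)
  set w : Fin 3 → ℤ := fun k => if k = l then 2 ^ (M' - N) * z k else
    min ⌊2 ^ M' * (x k - v k)⌋ (2 ^ (M' - N) * (z k + 1) - 1) with hw
  have hwl : w l = 2 ^ (M' - N) * z l := by simp [hw]
  have hwk : ∀ k, k ≠ l → w k = min ⌊2 ^ M' * (x k - v k)⌋ (2 ^ (M' - N) * (z k + 1) - 1) :=
    fun k hk => by simp [hw, hk]
  -- the position of `x`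
  have hxk : ∀ k, k ≠ l → v k + (w k : ℝ) / 2 ^ M' ≤ x k ∧
      x k ≤ v k + ((w k : ℝ) + 1) / 2 ^ M' ∧ 2 ^ (M' - N) * z k ≤ w k ∧
      w k + 1 ≤ 2 ^ (M' - N) * (z k + 1) := by
    intro k hk
    have h1 := hx.2 k hk
    simp only at h1
    rw [div_int h, div_int1 h] at h1
    have g1 : ((2 ^ (M' - N) * z k : ℤ) : ℝ) ≤ 2 ^ M' * (x k - v k) := by
      have : ((2 ^ (M' - N) * z k : ℤ) : ℝ) / 2 ^ M' ≤ x k - v k := by linarith [h1.1]
      rw [div_le_iff₀ hp] at this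
      linarith
    have g2 : 2 ^ M' * (x k - v k) ≤ ((2 ^ (M' - N) * (z k + 1) : ℤ) : ℝ) := by
      have : x k - v k ≤ ((2 ^ (M' - N) * (z k + 1) : ℤ) : ℝ) / 2 ^ M' := by linarith [h1.2]
      rw [le_div_iff₀ hp] at this
      linarith
    have g3 : 2 ^ (M' - N) * z k ≤ ⌊2 ^ M' * (x k - v k)⌋ := Int.le_floor.2 g1
    have hb : (⌊2 ^ M' * (x k - v k)⌋ : ℝ) ≤ 2 ^ M' * (x k - v k) := Int.floor_le _
    have hb' : 2 ^ M' * (x k - v k) < ⌊2 ^ M' * (x k - v k)⌋ + 1 := Int.lt_floor_add_one _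
    rw [hwk k hk]
    have hle1 : min ⌊2 ^ M' * (x k - v k)⌋ (2 ^ (M' - N) * (z k + 1) - 1) ≤
      ⌊2 ^ M' * (x k - v k)⌋ := min_le_left _ _
    have hle2 : min ⌊2 ^ M' * (x k - v k)⌋ (2 ^ (M' - N) * (z k + 1) - 1) ≤
      2 ^ (M' - N) * (z k + 1) - 1 := min_le_right _ _
    refine ⟨?_, ?_, ?_, by omega⟩
    · have : ((min ⌊2 ^ M' * (x k - v k)⌋ (2 ^ (M' - N) * (z k + 1) - 1) : ℤ) : ℝ) / 2 ^ M' ≤
          x k - v k := by
        rw [div_le_iff₀ hp]
        have : ((min ⌊2 ^ M' * (x k - v k)⌋ (2 ^ (M' - N) * (z k + 1) - 1) : ℤ) : ℝ) ≤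
          (⌊2 ^ M' * (x k - v k)⌋ : ℝ) := by exact_mod_cast hle1
        linarith
      linarith
    · have : x k - v k ≤
          (((min ⌊2 ^ M' * (x k - v k)⌋ (2 ^ (M' - N) * (z k + 1) - 1) : ℤ) : ℝ) + 1) / 2 ^ M' := by
        rw [le_div_iff₀ hp]
        rcases le_total ⌊2 ^ M' * (x k - v k)⌋ (2 ^ (M' - N) * (z k + 1) - 1) with hc | hc
        · rw [min_eq_left hc]
          linarith
        · rw [min_eq_right hc]
          push_cast at g2 ⊢
          linarith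
      linarith
    · refine le_min g3 ?_
      nlinarith
  have hsub : squ v ((M', w), l) ⊆ squ v ((N, z), l) := by
    intro y hy
    refine ⟨?_, fun k hk => ?_⟩
    · have h1 := hy.1
      simp only at h1 ⊢
      rw [h1, hwl, div_int h (z l)]
    · simp only at hk
      have h1 := hy.2 k hk
      simp only at h1 ⊢
      obtain ⟨-, -, h2, h3⟩ := hxk k hk
      rw [cast_add1] at h1
      rw [div_int h, div_int1 h]
      have h4 := (div_int_le (N := M')).2 h2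
      have h5 := (div_int_le (N := M')).2 h3
      constructor <;> linarith [h1.1, h1.2]
  refine ⟨((M', w), l), rfl, rfl, hsub, ?_, fun k hk => ?_⟩
  · have h1 := hx.1
    simp only at h1 ⊢
    rw [h1, hwl, div_int h (z l)]
  · simp only at hk
    obtain ⟨h1, h2, -, -⟩ := hxk k hk
    exact ⟨h1, h2⟩

/-- the two open own cubes at a selected square are in open tiles which touch a good cell -/
theorem Sel.qC_sub {M' : ℕ} (h : N ≤ M') {s : Idx × Fin 3} (hs : Sel v M' n N J' s) :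
    ∃ z ∈ J', ∃ u u', Touch v n N z u ∧ Touch v n N z u' ∧ qC v s ⊆ dyo v N u ∪ dyo v N u' := by
  obtain ⟨h1, z, hz, u, u', hu, hu', h2, h3⟩ := hs
  refine ⟨z, hz, u, u', hu, hu', ?_⟩
  unfold qC
  rw [h1]
  exact union_subset_union (dyo_sub_of h h2) (dyo_sub_of h h3)

theorem Sel.qC_disjoint {M' : ℕ} (h : N ≤ M') {s : Idx × Fin 3} (hs : Sel v M' n N J' s)
    {S : Set V} (hS : ∀ u, Tch v n N J' u → Disjoint S (dyo v N u)) : Disjoint S (qC v s) := by
  obtain ⟨z, hz, u, u', hu, hu', hq⟩ := Sel.qC_sub h hs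
  refine Disjoint.mono_right hq ?_
  rw [disjoint_union_right]
  exact ⟨hS u ⟨z, hz, hu⟩, hS u' ⟨z, hz, hu'⟩⟩

/-- two neighbouring tiles which touch good cells touch a common one -/
theorem tch_common (hnN : n + 2 ≤ N) {s : Idx × Fin 3} (h1 : Tch v n N J' s.1.2)
    (h2 : Tch v n N J' (dn s)) :
    ∃ z ∈ J', Touch v n N z s.1.2 ∧ Touch v n N z (dn s) := by
  obtain ⟨z, hz, hzt⟩ := h1
  obtain ⟨z', hz', hzt'⟩ := h2
  have hle : n ≤ N := by omega
  have e : (2:ℤ) ^ (N - n) = 4 * 2 ^ (N - n - 2) := by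
    rw [show (4:ℤ) = 2 ^ 2 by norm_num, ← pow_add]
    congr 1
    omega
  have hp : (0:ℤ) < 2 ^ (N - n - 2) := by positivity
  set K : ℤ := 2 ^ (N - n - 2) with hK
  have t1 := (touch_iff hle).1 hzt
  have t2 := (touch_iff hle).1 hzt'
  by_cases hc : s.1.2 s.2 < 2 ^ (N - n) * z s.2
  · -- the cell `z'` touches both
    refine ⟨z', hz', (touch_iff hle).2 fun k => ?_, hzt'⟩
    by_cases hk : k = s.2
    · subst hk
      obtain ⟨a1, a2⟩ := t1 s.2
      obtain ⟨b1, b2⟩ := t2 s.2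
      simp only [dn, if_true] at b1 b2
      refine ⟨by omega, ?_⟩
      by_contra hcon
      rw [not_le] at hcon
      -- `u = K z - 1 = K (z' + 1) + 1`
      have c1 : s.1.2 s.2 = 2 ^ (N - n) * z s.2 - 1 := by omega
      have c2 : s.1.2 s.2 = 2 ^ (N - n) * (z' s.2 + 1) + 1 := by omega
      have c3 : 2 ^ (N - n) * (z s.2 - z' s.2 - 1) = 2 := by
        have : 2 ^ (N - n) * (z s.2 - z' s.2 - 1) =
          2 ^ (N - n) * z s.2 - 2 ^ (N - n) * (z' s.2 + 1) := by ring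
        rw [this]
        omega
      rw [e] at c3
      have c4 : (4:ℤ) ∣ 2 := ⟨K * (z s.2 - z' s.2 - 1), by rw [← c3]; ring⟩
      omega
    · have := t2 k
      simp only [dn, if_neg hk] at this
      exact this
  · refine ⟨z, hz, hzt, (touch_iff hle).2 fun k => ?_⟩
    by_cases hk : k = s.2
    · subst hk
      obtain ⟨a1, a2⟩ := t1 s.2
      simp only [dn, if_true]
      rw [not_lt] at hc
      exact ⟨by omega, by omega⟩
    · simp only [dn, if_neg hk]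
      exact t1 k

end Vale.Agent.P073.H989
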