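import Vale.Agent.P073.H989.Bz
import Vale.Agent.P073.RED.Basic933
import Vale.Agent.P073.H694.GlueB
import Vale.Agent.P073.H83.SqRel

/-!
# P073, block B09, [DIF-R]: diffeomorphic approximations on boxes

`CloseK q`: the theorem for `2 < q < 3`, with closeness which tends to zero at the boundary, for
uniformly continuous homeomorphisms.  `difApp_box`: the approximations of a Sobolev homeomorphism
on an open box whose closure is in the domain (`DifApp`); `exists_ratBox`: rational boxes.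
-/

open Set Metric Topology Filter MeasureTheory
open scoped ENNReal ContDiff

namespace Vale.Agent.P073.H989

open Vale.Agent.P073.AB (cl err)
open Vale.Agent.P073.St (V Mat)
open Vale.Agent.P073.SQ (ev)

/-- **the statement for small exponents**, for uniformly continuous homeomorphisms, with closeness
tending to zero at the boundary -/
def CloseK (q : ℝ) : Prop :=
  ∀ (Ω Λ : Set V) (f : V → V) (F : V → Mat), St.IsBoundedDomain Ω → St.IsBoundedDomain Λ →
    St.IsHomeo Ω Λ f → St.IsSobolev q Ω f F → UniformContinuousOn f Ω → ∀ ε > 0,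
    ∃ φ : V → V, St.IsDiffeo Ω Λ φ ∧ err q Ω f F φ ≤ ENNReal.ofReal ε ∧
      (∀ x ∈ Ω, ‖φ x - f x‖ ≤ ε) ∧
      ∀ η > 0, ∃ K ⊆ Ω, IsCompact K ∧ ∀ x ∈ Ω \ K, ‖φ x - f x‖ ≤ η

/-- diffeomorphic approximations of `f` on `R`: closeness which tends to zero at the boundary,
convergence of the derivatives in `L^q` -/
def DifApp (q : ℝ) (R : Set V) (f : V → V) (F : V → Mat) : Prop :=
  ∃ φ : ℕ → V → V, (∀ j, St.IsDiffeo R (f '' R) (φ j)) ∧
    (∀ j : ℕ, Bz R f (φ j) (1 / (j + 1))) ∧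
    Tendsto (fun j => ∫⁻ x in R, ‖fderiv ℝ (φ j) x - cl (F x)‖ₑ ^ q) atTop (𝓝 0)

/-! ### Restriction -/

/-- a smaller exponent -/
theorem sob_exp {p q : ℝ} {Ω : Set V} {f : V → V} {F : V → Mat} (hqp : q ≤ p)
    (hv : volume Ω ≠ ⊤) (hF : St.IsSobolev p Ω f F) : St.IsSobolev q Ω f F := by
  have : IsFiniteMeasure (volume.restrict Ω) := ⟨by
    rw [Measure.restrict_apply_univ]; exact lt_top_iff_ne_top.2 hv⟩
  exact ⟨fun i => MemLp.mono_exponent (hF.1 i) (ENNReal.ofReal_le_ofReal hqp),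
    fun i j => MemLp.mono_exponent (hF.2.1 i j) (ENNReal.ofReal_le_ofReal hqp), hF.2.2⟩

theorem homeo_sub {Ω Λ R : Set V} {f : V → V} (hf : St.IsHomeo Ω Λ f) (hR : R ⊆ Ω) :
    St.IsHomeo R (f '' R) f := by
  obtain ⟨h, ⟨h1, h2⟩, h3, h4⟩ := hf
  refine ⟨h, ⟨fun x hx => ⟨mem_image_of_mem f hx, (h1 x (hR hx)).2⟩, ?_⟩, h3.mono hR, h4.mono ?_⟩
  · rintro _ ⟨x, hx, rfl⟩
    rw [(h1 x (hR hx)).2]
    exact ⟨hx, rfl⟩
  · rintro _ ⟨x, hx, rfl⟩
    exact (h1 x (hR hx)).1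

/-- the image of an open subset is open -/
theorem isOpen_image {Ω Λ R : Set V} {f : V → V} (hΛ : IsOpen Λ) (hf : St.IsHomeo Ω Λ f)
    (hR : IsOpen R) (hRΩ : R ⊆ Ω) : IsOpen (f '' R) := by
  obtain ⟨h, ⟨h1, h2⟩, h3, h4⟩ := hf
  have e : f '' R = Λ ∩ h ⁻¹' R := by
    apply Subset.antisymm
    · rintro _ ⟨x, hx, rfl⟩
      refine ⟨(h1 x (hRΩ hx)).1, ?_⟩
      show h (f x) ∈ R
      rw [(h1 x (hRΩ hx)).2]
      exact hx
    · rintro y ⟨hy, hyR⟩
      exact ⟨h y, hyR, (h2 y hy).2⟩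
  rw [e]
  exact h4.isOpen_inter_preimage hΛ hR

theorem domain_image {Ω Λ R : Set V} {f : V → V} (hΛ : St.IsBoundedDomain Λ)
    (hf : St.IsHomeo Ω Λ f) (hR : St.IsBoundedDomain R) (hRΩ : R ⊆ Ω) : St.IsBoundedDomain (f '' R) := by
  refine ⟨isOpen_image hΛ.1 hf hR.1 hRΩ, ?_, ?_⟩
  · obtain ⟨h, -, h3, -⟩ := hf
    exact hR.2.1.image f (h3.mono hRΩ)
  · obtain ⟨C, hC⟩ := hΛ.2.2
    obtain ⟨h, ⟨h1, -⟩, -, -⟩ := hf
    refine ⟨C, ?_⟩
    rintro _ ⟨x, hx, rfl⟩
    exact hC _ (h1 x (hRΩ hx)).1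

/-! ### Energy -/

theorem lintegral_le_err {q : ℝ} (hq : 1 ≤ q) {R : Set V} {f : V → V} {F : V → Mat} {φ : V → V}
    (hm : ∀ j, AEMeasurable (fun x => ENNReal.ofReal (‖fderiv ℝ φ x (ev j) - cl (F x) (ev j)‖ ^ q))
      (volume.restrict R)) :
    ∫⁻ x in R, ‖fderiv ℝ φ x - cl (F x)‖ₑ ^ q ≤ ENNReal.ofReal (3 ^ q) * err q R f F φ := by
  have hq0 : 0 < q := by linarith
  have h1 : ∀ x, ‖fderiv ℝ φ x - cl (F x)‖ₑ ^ q ≤ ENNReal.ofReal (3 ^ q) *
      ∑ j, ENNReal.ofReal (‖fderiv ℝ φ x (ev j) - cl (F x) (ev j)‖ ^ q) := by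
    intro x
    set A : V →L[ℝ] V := fderiv ℝ φ x - cl (F x) with hA
    have h2 : ‖A‖ ≤ ∑ j, ‖A (ev j)‖ := H694.norm_le_sum_ev A
    have h3 : ∃ j, ‖A‖ ≤ 3 * ‖A (ev j)‖ := by
      by_contra hcon
      push Not at hcon
      rw [Fin.sum_univ_three] at h2
      have a0 := hcon 0
      have a1 := hcon 1
      have a2 := hcon 2
      linarith
    obtain ⟨j, hj⟩ := h3
    have h4 : ‖A‖ₑ ^ q ≤ ENNReal.ofReal (3 ^ q) * ENNReal.ofReal (‖A (ev j)‖ ^ q) := by
      rw [← ENNReal.ofReal_mul (by positivity), ← ofReal_norm,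
        ENNReal.ofReal_rpow_of_nonneg (norm_nonneg _) hq0.le,
        ← Real.mul_rpow (by norm_num) (norm_nonneg _)]
      exact ENNReal.ofReal_le_ofReal (Real.rpow_le_rpow (norm_nonneg _) hj hq0.le)
    refine h4.trans ?_
    gcongr
    exact Finset.single_le_sum
      (f := fun j => ENNReal.ofReal (‖fderiv ℝ φ x (ev j) - cl (F x) (ev j)‖ ^ q))
      (fun _ _ => zero_le) (Finset.mem_univ j)
  calc ∫⁻ x in R, ‖fderiv ℝ φ x - cl (F x)‖ₑ ^ q
      ≤ ∫⁻ x in R, ENNReal.ofReal (3 ^ q) *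
          ∑ j, ENNReal.ofReal (‖fderiv ℝ φ x (ev j) - cl (F x) (ev j)‖ ^ q) :=
        lintegral_mono h1
    _ = ENNReal.ofReal (3 ^ q) * ∑ j, ∫⁻ x in R,
          ENNReal.ofReal (‖fderiv ℝ φ x (ev j) - cl (F x) (ev j)‖ ^ q) := by
        rw [lintegral_const_mul' _ _ ENNReal.ofReal_ne_top, lintegral_finsetSum' _ fun j _ => hm j]
    _ ≤ _ := by
        gcongr
        unfold err
        exact le_add_self

/-- the energy density of the difference is measurable -/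
theorem aem_diff {q : ℝ} {Ω : Set V} (hΩ : IsOpen Ω) {f g : V → V} {F : V → Mat}
    (hF : St.IsSobolev q Ω f F) (hg : ContDiffOn ℝ ∞ g Ω) (j : Fin 3) :
    AEMeasurable (fun x => ENNReal.ofReal (‖fderiv ℝ g x (ev j) - cl (F x) (ev j)‖ ^ q))
      (volume.restrict Ω) := by
  have h1 : AEMeasurable (fun x => fderiv ℝ g x (ev j)) (volume.restrict Ω) :=
    ((hg.continuousOn_fderiv_of_isOpen hΩ (by simp)).clm_apply
      continuousOn_const).aemeasurable hΩ.measurableSet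
  have h2 : AEMeasurable (fun x => cl (F x) (ev j)) (volume.restrict Ω) :=
    ((ContinuousLinearMap.apply ℝ V (ev j)).continuous.comp_aestronglyMeasurable
      (PK.IsSob.aesm hF)).aemeasurable
  exact ((h1.sub h2).norm.pow_const q).ennreal_ofReal

/-- **diffeomorphic approximations on a compactly contained domain** -/
theorem difApp_of {p q : ℝ} (hq : 1 ≤ q) (hqp : q ≤ p) (hC : CloseK q) {Ω Λ R : Set V}
    {f : V → V} {F : V → Mat} (hΛ : St.IsBoundedDomain Λ) (hf : St.IsHomeo Ω Λ f)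
    (hF : St.IsSobolev p Ω f F) (hR : St.IsBoundedDomain R) (hRΩ : closure R ⊆ Ω) :
    DifApp q R f F := by
  have hRs : R ⊆ Ω := subset_closure.trans hRΩ
  have hbd : Bornology.IsBounded R := PK.isBounded_of_domain hR
  have hcpt : IsCompact (closure R) := hbd.isCompact_closure
  have hfc : ContinuousOn f Ω := by
    obtain ⟨h, -, h3, -⟩ := hf
    exact h3
  have huc : UniformContinuousOn f R :=
    (hcpt.uniformContinuousOn_of_continuous (hfc.mono hRΩ)).mono subset_closure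
  have hF' : St.IsSobolev q R f F :=
    sob_exp hqp (PK.volume_ne_top_of_domain hR) (RED.isSobolev_mono hR.1 hRs hF)
  have hex : ∀ j : ℕ, ∃ φ : V → V, St.IsDiffeo R (f '' R) φ ∧ Bz R f φ (1 / (j + 1)) ∧
      err q R f F φ ≤ ENNReal.ofReal (1 / (3 ^ q * (j + 1))) := by
    intro j
    have hj : (0:ℝ) < j + 1 := by positivity
    have h3 : (1:ℝ) ≤ 3 ^ q := Real.one_le_rpow (by norm_num) (by linarith)
    have hle : 1 / (3 ^ q * ((j:ℝ) + 1)) ≤ 1 / (j + 1) :=
      one_div_le_one_div_of_le hj (le_mul_of_one_le_left hj.le h3)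
    obtain ⟨φ, c1, c2, c3, c4⟩ := hC R (f '' R) f F hR (domain_image hΛ hf hR hRs)
      (homeo_sub hf hRs) hF' huc (1 / (3 ^ q * ((j:ℝ) + 1))) (by positivity)
    exact ⟨φ, c1, Bz.mono ⟨c3, c4⟩ hle, c2⟩
  choose φ h1 h2 h3 using hex
  refine ⟨φ, h1, h2, ?_⟩
  have h4 : ∀ j, ∫⁻ x in R, ‖fderiv ℝ (φ j) x - cl (F x)‖ₑ ^ q ≤
      ENNReal.ofReal (1 / ((j:ℝ) + 1)) := by
    intro j
    have hsm : ContDiffOn ℝ ∞ (φ j) R := by
      obtain ⟨h, -, h5, -⟩ := h1 j
      exact contDiffOn_pi.2 fun i => (h5 i)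
    refine (lintegral_le_err (f := f) hq (aem_diff (f := f) hR.1 hF' hsm)).trans ?_
    calc ENNReal.ofReal (3 ^ q) * err q R f F (φ j)
        ≤ ENNReal.ofReal (3 ^ q) * ENNReal.ofReal (1 / (3 ^ q * (j + 1))) := by
          gcongr
          exact h3 j
      _ = ENNReal.ofReal (1 / ((j:ℝ) + 1)) := by
          rw [← ENNReal.ofReal_mul (by positivity)]
          congr 1
          have : (0:ℝ) < 3 ^ q := by positivity
          field_simp
  refine tendsto_of_tendsto_of_tendsto_of_le_of_le tendsto_const_nhds ?_ (fun _ => zero_le) h4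
  have h5 := ENNReal.tendsto_ofReal tendsto_one_div_add_atTop_nhds_zero_nat
  rwa [ENNReal.ofReal_zero] at h5

/-! ### Boxes -/

/-- the open box -/
def obox (a b : V) : Set V := univ.pi fun i => Ioo (a i) (b i)

theorem mem_obox {a b x : V} : x ∈ obox a b ↔ ∀ i, a i < x i ∧ x i < b i := by
  simp [obox]

theorem isOpen_obox (a b : V) : IsOpen (obox a b) :=
  isOpen_set_pi finite_univ fun _ _ => isOpen_Ioo

theorem closure_obox {a b : V} (h : ∀ i, a i < b i) : closure (obox a b) = Icc a b := by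
  unfold obox
  rw [closure_pi_set, ← pi_univ_Icc]
  congr 1
  funext i
  exact closure_Ioo (h i).ne

theorem domain_obox {a b : V} (h : ∀ i, a i < b i) : St.IsBoundedDomain (obox a b) := by
  refine ⟨isOpen_obox a b, ⟨⟨fun i => (a i + b i) / 2, ?_⟩, ?_⟩, ?_⟩
  · exact mem_obox.2 fun i => by have := h i; constructor <;> linarith
  · exact (convex_pi fun i _ => convex_Ioo (a i) (b i)).isPreconnected
  · have hc : Continuous St.euc := by
      unfold St.euc
      fun_prop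
    obtain ⟨C, hC⟩ := (isCompact_Icc (a := a) (b := b)).bddAbove_image hc.continuousOn
    refine ⟨C, fun x hx => hC (mem_image_of_mem _ ?_)⟩
    rw [← closure_obox h]
    exact subset_closure hx

/-- the rational box -/
def ratBox (r : (Fin 3 → ℚ) × (Fin 3 → ℚ)) : Set V := obox (fun i => r.1 i) fun i => r.2 i

/-- the rational boxes which are compactly contained in `Ω` -/
def RatIn (Ω : Set V) : Set ((Fin 3 → ℚ) × (Fin 3 → ℚ)) :=
  {r | (∀ i, r.1 i < r.2 i) ∧ closure (ratBox r) ⊆ Ω}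

theorem domain_ratBox {Ω : Set V} {r : (Fin 3 → ℚ) × (Fin 3 → ℚ)} (hr : r ∈ RatIn Ω) :
    St.IsBoundedDomain (ratBox r) := domain_obox fun i => by exact_mod_cast hr.1 i

/-- a rational box between a compact box and an open set -/
theorem exists_ratBox {c d : V} (hcd : ∀ i, c i ≤ d i) {U : Set V} (hU : IsOpen U)
    (h : Icc c d ⊆ U) : ∃ r ∈ RatIn U, Icc c d ⊆ ratBox r := by
  obtain ⟨δ, hδ, hδU⟩ := (isCompact_Icc (a := c) (b := d)).exists_cthickening_subset_open hU h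
  have e1 : ∀ i, ∃ a : ℚ, c i - δ < a ∧ (a:ℝ) < c i := fun i =>
    exists_rat_btwn (by linarith)
  have e2 : ∀ i, ∃ b : ℚ, d i < b ∧ (b:ℝ) < d i + δ := fun i =>
    exists_rat_btwn (by linarith)
  choose a a1 a2 using e1
  choose b b1 b2 using e2
  have hab : ∀ i, a i < b i := fun i => by
    have h1 := a2 i
    have h2 := b1 i
    have h3 := hcd i
    have : (a i : ℝ) < b i := by linarith
    exact_mod_cast this
  refine ⟨(a, b), ⟨hab, ?_⟩, ?_⟩
  · refine Subset.trans ?_ hδU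
    unfold ratBox
    rw [closure_obox fun i => by exact_mod_cast hab i]
    intro x hx
    have hz : (fun i => max (c i) (min (x i) (d i))) ∈ Icc c d :=
      ⟨fun i => le_max_left _ _, fun i => max_le (hcd i) (min_le_right _ _)⟩
    refine mem_cthickening_of_dist_le x _ δ _ hz ?_
    rw [dist_pi_le_iff hδ.le]
    intro i
    have h1 : (a i : ℝ) ≤ x i := hx.1 i
    have h2 : x i ≤ (b i : ℝ) := hx.2 i
    have h3 := a1 i
    have h4 := b2 i
    have h5 := hcd i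
    rw [Real.dist_eq, abs_le]
    show -δ ≤ x i - max (c i) (min (x i) (d i)) ∧ x i - max (c i) (min (x i) (d i)) ≤ δ
    rcases le_total (x i) (d i) with h6 | h6
    · rw [min_eq_left h6]
      rcases le_total (c i) (x i) with h7 | h7
      · rw [max_eq_right h7, sub_self]
        exact ⟨by linarith, hδ.le⟩
      · rw [max_eq_left h7]
        constructor <;> linarith
    · rw [min_eq_right h6, max_eq_right h5]
      constructor <;> linarith
  · intro x hx
    refine mem_obox.2 fun i => ?_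
    have h1 := hx.1 i
    have h2 := hx.2 i
    have h3 := a2 i
    have h4 := b1 i
    constructor <;> linarith

/-- **[DIF-R]** on all rational boxes -/
theorem difApp_box {p q : ℝ} (hq : 1 ≤ q) (hqp : q ≤ p) (hC : CloseK q) {Ω Λ : Set V}
    {f : V → V} {F : V → Mat} (hΛ : St.IsBoundedDomain Λ) (hf : St.IsHomeo Ω Λ f)
    (hF : St.IsSobolev p Ω f F) : ∀ r ∈ RatIn Ω, DifApp q (ratBox r) f F := fun _ hr =>
  difApp_of hq hqp hC hΛ hf hF (domain_ratBox hr) hr.2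

/-! ### The countable family -/

/-- the rational boxes which are compactly contained in `Ω`, as sets -/
def ratBoxes (Ω : Set V) : Set (Set V) := {R | ∃ r ∈ RatIn Ω, R = ratBox r}

theorem countable_ratBoxes (Ω : Set V) : (ratBoxes Ω).Countable := by
  refine ((RatIn Ω).to_countable.image ratBox).mono ?_
  rintro _ ⟨r, hr, rfl⟩
  exact ⟨r, hr, rfl⟩

theorem ratBoxes_mono {U Ω : Set V} (h : U ⊆ Ω) : ratBoxes U ⊆ ratBoxes Ω := by
  rintro _ ⟨r, hr, rfl⟩
  exact ⟨r, ⟨hr.1, hr.2.trans h⟩, rfl⟩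

theorem domain_of_ratBoxes {Ω R : Set V} (hR : R ∈ ratBoxes Ω) : St.IsBoundedDomain R := by
  obtain ⟨r, hr, rfl⟩ := hR
  exact domain_ratBox hr

theorem closure_sub_of_ratBoxes {Ω R : Set V} (hR : R ∈ ratBoxes Ω) : closure R ⊆ Ω := by
  obtain ⟨r, hr, rfl⟩ := hR
  exact hr.2

theorem isCompact_closure_of_ratBoxes {Ω R : Set V} (hR : R ∈ ratBoxes Ω) :
    IsCompact (closure R) :=
  (PK.isBounded_of_domain (domain_of_ratBoxes hR)).isCompact_closure

/-- **[DIF-R]** on all rational boxes, as sets -/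
theorem difApp_boxes {p q : ℝ} (hq : 1 ≤ q) (hqp : q ≤ p) (hC : CloseK q) {Ω Λ : Set V}
    {f : V → V} {F : V → Mat} (hΛ : St.IsBoundedDomain Λ) (hf : St.IsHomeo Ω Λ f)
    (hF : St.IsSobolev p Ω f F) : ∀ R ∈ ratBoxes Ω, DifApp q R f F := fun _ hR =>
  difApp_of hq hqp hC hΛ hf hF (domain_of_ratBoxes hR) (closure_sub_of_ratBoxes hR)

/-- a rational box between a dyadic cube minus a layer and the open cube -/
theorem exists_ratBoxes (v : V) (k : ℕ × (Fin 3 → ℤ)) {n : ℕ} (hn : k.1 ≤ n) :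
    ∃ R ∈ ratBoxes (interior (_root_.P073.Net.dyc v k.1 k.2)),
      {y : V | ∀ i, v i + (k.2 i : ℝ) / 2 ^ k.1 + 1 / 2 / 2 ^ n ≤ y i ∧
        y i ≤ v i + ((k.2 i : ℝ) + 1) / 2 ^ k.1 - 1 / 2 / 2 ^ n} ⊆ R := by
  have h2 : (1:ℝ) / 2 ^ n ≤ 1 / 2 ^ k.1 :=
    one_div_le_one_div_of_le (by positivity) (pow_le_pow_right₀ (by norm_num) hn)
  have h3 : (0:ℝ) < 1 / 2 ^ n := by positivity
  have e2 : (1:ℝ) / 2 / 2 ^ n = 1 / 2 ^ n / 2 := by ring
  obtain ⟨r, hr, hs⟩ := exists_ratBox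
    (c := fun i => v i + (k.2 i : ℝ) / 2 ^ k.1 + 1 / 2 / 2 ^ n)
    (d := fun i => v i + ((k.2 i : ℝ) + 1) / 2 ^ k.1 - 1 / 2 / 2 ^ n)
    (fun i => by
      have e1 : ((k.2 i : ℝ) + 1) / 2 ^ k.1 = (k.2 i : ℝ) / 2 ^ k.1 + 1 / 2 ^ k.1 := by ring
      show v i + (k.2 i : ℝ) / 2 ^ k.1 + 1 / 2 / 2 ^ n ≤
        v i + ((k.2 i : ℝ) + 1) / 2 ^ k.1 - 1 / 2 / 2 ^ n
      rw [e1, e2]
      linarith)
    (isOpen_interior (s := _root_.P073.Net.dyc v k.1 k.2)) (by
      rw [H83.interior_dyc]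
      intro y hy i
      have h4 : v i + (k.2 i : ℝ) / 2 ^ k.1 + 1 / 2 / 2 ^ n ≤ y i := hy.1 i
      have h5 : y i ≤ v i + ((k.2 i : ℝ) + 1) / 2 ^ k.1 - 1 / 2 / 2 ^ n := hy.2 i
      constructor <;> linarith)
  refine ⟨_, ⟨r, hr, rfl⟩, fun y hy => hs ⟨fun i => (hy i).1, fun i => (hy i).2⟩⟩

end Vale.Agent.P073.H989
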