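import Vale.Agent.P073.H989.Hyb1
import Vale.Agent.P073.H83.SobCon
import Vale.Agent.P073.H304.FamOf

/-!
# P073, block B09: the single hybrids with conical maps are good on almost every net
-/

open Set Metric Topology Filter MeasureTheory
open scoped ENNReal

namespace Vale.Agent.P073.H989

open Vale.Agent.P073.AB (cl RatGood)
open Vale.Agent.P073.St (V Mat)
open _root_.P073 (ConHomeo)

theorem hyb1_mem {E : Type*} {R : Set V} {φ f : V → E} {x : V} (h : x ∈ R) :
    H304.hyb1 R φ f x = φ x := by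
  unfold H304.hyb1
  exact if_pos h

theorem hyb1_notMem {E : Type*} {R : Set V} {φ f : V → E} {x : V} (h : x ∉ R) :
    H304.hyb1 R φ f x = f x := by
  unfold H304.hyb1
  exact if_neg h

/-- **[RAT-HYB]** (761) -/
theorem specRatHyb {q : ℝ} (hq : 1 ≤ q) (Ω Λ : Set V) (f : V → V) (F : V → Mat)
    (hΩ : St.IsBoundedDomain Ω) (hΛ : St.IsBoundedDomain Λ) (hf : St.IsHomeo Ω Λ f)
    (hF : St.IsSobolev q Ω f F) (R : Set V) (hR : R ∈ ratBoxes Ω) (φ : ConHomeo R (f '' R))
    (hb : Bz R f φ.toFun 1) (hE : ∫⁻ x in R, ‖fderiv ℝ φ.toFun x‖ₑ ^ q ≠ ⊤) :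
    ∀ᵐ v : V, RatGood v Ω (H304.hyb1 R φ.toFun f) (H304.hyb1 R (H304.fmat φ.toFun) F) := by
  have hs : R ⊆ Ω := subset_closure.trans (closure_sub_of_ratBoxes hR)
  have hfc : ContinuousOn f Ω := by
    obtain ⟨h, -, h3, -⟩ := hf
    exact h3
  have hI : Bornology.IsBounded (f '' R) :=
    PK.isBounded_of_domain (domain_image hΛ hf (domain_of_ratBoxes hR) hs)
  exact ae_rat_hyb1_of (φ := φ.toFun) (Φ := H304.fmat φ.toFun) hq hΩ.1
    (PK.volume_ne_top_of_domain hΩ) hR hF hfc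
    (H83.isSobolev_con hq (domain_of_ratBoxes hR).1
      (PK.isBounded_of_domain (domain_of_ratBoxes hR)) hI φ hE) φ.cont hb
    (fun x hx => hyb1_mem hx) (fun x hx => hyb1_notMem hx.2)
    (fun x hx => hyb1_mem hx) (fun x hx => hyb1_notMem hx.2)

end Vale.Agent.P073.H989
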