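import Vale.Agent.P073.H989.Tile5
import Vale.Agent.P073.H687.Til
import Vale.Agent.P073.H73.PreSpec

/-!
# P073, block A15, [T5]: the tiling of the data `Pre`, and the alignment of the protected cells
-/

namespace Vale.Agent.P073.H989

open MeasureTheory Set Filter Topology Metric Vale.Agent.P073.St
open Vale.Agent.P073.AB (Idx Part)
open Vale.Agent.P073.H73 (Mesh Fat Aligned Bix)
open Vale.Agent.P073.H687 (Tiling Two)
open P073.Net (dyc dyo IsTile SizeFn)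

/-- from a relative interior point one can go a little further -/
theorem intrinsic_extend {F : Set V} {x y : V} (hx : x ∈ intrinsicInterior ℝ F) (hy : y ∈ F) :
    ∃ t : ℝ, 0 < t ∧ x + t • (x - y) ∈ F := by
  obtain ⟨x', hx', rfl⟩ := mem_intrinsicInterior.1 hx
  have hyS : y ∈ affineSpan ℝ F := subset_affineSpan ℝ F hy
  have hmem : ∀ t : ℝ, (x' : V) + t • ((x' : V) - y) ∈ affineSpan ℝ F := by
    intro t
    have h := AffineSubspace.smul_vsub_vadd_mem (affineSpan ℝ F) t x'.2 hyS x'.2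
    rw [vadd_eq_add, vsub_eq_sub, add_comm] at h
    exact h
  have hc : Continuous fun t : ℝ => (⟨(x' : V) + t • ((x' : V) - y), hmem t⟩ : affineSpan ℝ F) := by
    refine Continuous.subtype_mk ?_ _
    fun_prop
  have h0 : (⟨(x' : V) + (0:ℝ) • ((x' : V) - y), hmem 0⟩ : affineSpan ℝ F) = x' := by
    apply Subtype.ext
    simp
  have h1 : ∀ᶠ t : ℝ in 𝓝 0, (⟨(x' : V) + t • ((x' : V) - y), hmem t⟩ : affineSpan ℝ F) ∈
      ((↑) ⁻¹' F : Set (affineSpan ℝ F)) := by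
    have h2 : Tendsto (fun t : ℝ => (⟨(x' : V) + t • ((x' : V) - y), hmem t⟩ : affineSpan ℝ F))
        (𝓝 0) (𝓝 x') := by
      have := hc.tendsto 0
      rwa [h0] at this
    exact h2.eventually (mem_interior_iff_mem_nhds.1 hx')
  have h3 : ∀ᶠ t : ℝ in 𝓝[>] 0, (⟨(x' : V) + t • ((x' : V) - y), hmem t⟩ : affineSpan ℝ F) ∈
      ((↑) ⁻¹' F : Set (affineSpan ℝ F)) := h1.filter_mono nhdsWithin_le_nhds
  obtain ⟨t, h4, h5⟩ := (h3.and self_mem_nhdsWithin).exists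
  exact ⟨t, h5, h4⟩

/-- an interval of a finer dyadic grid is contained in a coarser one or lies beside it -/
theorem dyadic_cases {m m' : ℕ} (h : m ≤ m') (a b : ℤ) :
    ((a : ℝ) / 2 ^ m ≤ (b : ℝ) / 2 ^ m' ∧ ((b : ℝ) + 1) / 2 ^ m' ≤ ((a : ℝ) + 1) / 2 ^ m) ∨
      ((b : ℝ) + 1) / 2 ^ m' ≤ (a : ℝ) / 2 ^ m ∨ ((a : ℝ) + 1) / 2 ^ m ≤ (b : ℝ) / 2 ^ m' := by
  by_cases h1 : (b : ℝ) / 2 ^ m' < (a : ℝ) / 2 ^ m
  · exact Or.inr (Or.inl (P073.Net.NC.dyA h h1))
  push Not at h1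
  by_cases h2 : (b : ℝ) / 2 ^ m' < ((a : ℝ) + 1) / 2 ^ m
  · left
    refine ⟨h1, ?_⟩
    have := P073.Net.NC.dyA (a := a + 1) (b := b) h (by push_cast; exact h2)
    push_cast at this
    exact this
  · push Not at h2
    exact Or.inr (Or.inr h2)

namespace TD

variable {Ω Λ : Set V} (T : TD Ω)

/-- the tiling -/
def tiling : Tiling Ω where
  ι := T.ι
  Q := T.Q
  poly := T.poly
  sub := T.Q_sub
  cover := T.cover
  disj := T.disj
  fin := T.fin

/-- the indices of the protected cells -/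
def prot : Set T.ι := range fun D => Sum.inr (Sum.inr D)

/-- the affine map as a bundled map -/
noncomputable def aMap (D : T.Δ) : V →ᴬ[ℝ] V :=
  (T.L D : V →L[ℝ] V).toContinuousAffineMap + ContinuousAffineMap.const ℝ V (T.A D 0)

theorem aMap_apply (D : T.Δ) (x : V) : T.aMap D x = T.A D x := by
  rw [T.A_eq, add_comm]
  rfl

theorem image_R (D : T.Δ) {h : V → V} (hh : ∀ x ∈ T.R D, h x = T.A D x) :
    h '' T.R D = Icc (T.lo D) (T.hi D) := by
  rw [image_congr hh]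
  exact image_preimage_eq _ (T.hom D).surjective

/-- two cells which meet: a protected cell and another cell -/
theorem piece_of_meet {D : T.Δ} {j : T.ι} (hj : j ≠ Sum.inr (Sum.inr D))
    (hm : (T.R D ∩ T.Q j).Nonempty) :
    ∃ a : {a : Idx × T.Δ × (Fin 3 → ℤ) // T.Cut a}, j = Sum.inr (Sum.inl a) ∧ a.1.2.1 = D := by
  obtain ⟨x, hx, hxj⟩ := hm
  rcases j with q | a | D'
  · exact absurd hx (Set.disjoint_left.1 (q.2.2 D) hxj)
  · exact ⟨a, rfl, T.sep _ a.2.mem _ _ a.2.meet ⟨x, hxj.1, hx⟩⟩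
  · obtain ⟨q, hq, hxq⟩ := T.part.cover x (T.sub D hx)
    have h1 := T.sep q hq D D' ⟨x, hxq, hx⟩ ⟨x, hxq, hxj⟩
    exact absurd (by rw [h1]) hj

/-- the image of a face of a protected cell is contained in one tile -/
theorem one {ρ : V → ℝ} {h : V → V} (hh : ∀ D, ∀ x ∈ T.R D, h x = T.A D x)
    (hgen : ∀ D m z, IsTile ρ 0 m z → (dyc 0 m z ∩ frontier (Icc (T.lo D) (T.hi D))).Nonempty →
      m ≤ T.m)
    (D : T.Δ) (k : T.tiling.κ) (hk : T.tiling.F k ⊆ T.R D) {m : ℕ} {z : Fin 3 → ℤ}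
    (hz : IsTile ρ 0 m z)
    (hne : (h '' intrinsicInterior ℝ (T.tiling.F k) ∩ dyc 0 m z).Nonempty) :
    h '' T.tiling.F k ⊆ dyc 0 m z := by
  obtain ⟨_, ⟨x, hx, rfl⟩, hxz⟩ := hne
  have hxF : x ∈ T.tiling.F k := intrinsicInterior_subset hx
  have hxR : x ∈ T.R D := hk hxF
  rw [hh D x hxR] at hxz
  -- the other cell
  obtain ⟨j, hj, hFj⟩ : ∃ j : T.ι, j ≠ Sum.inr (Sum.inr D) ∧ T.tiling.F k ⊆ T.Q j := by
    have hne := H687.Tiling.ne_of_face k
    have hi := T.tiling.eq_of_mem_intrinsicInterior k hx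
      (show x ∈ T.tiling.Q (Sum.inr (Sum.inr D) : T.ι) from hxR)
    rcases hi with hi | hi
    · exact ⟨k.1.2, fun h => hne (hi.symm.trans h.symm), inter_subset_right⟩
    · exact ⟨k.1.1, fun h => hne (h.trans hi), inter_subset_left⟩
  have hm : m ≤ T.m := by
    refine hgen D m z hz ⟨T.A D x, hxz, ?_⟩
    have h1 : x ∉ interior (T.R D) := fun h =>
      Set.disjoint_left.1 (T.tiling.disj (Sum.inr (Sum.inr D) : T.ι) j hj.symm) h (hFj hxF)
    rw [T.interior_R] at h1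
    exact ⟨subset_closure hxR, h1⟩
  obtain ⟨a, rfl, ha⟩ := T.piece_of_meet hj ⟨x, hxR, hFj hxF⟩
  rintro _ ⟨y, hy, rfl⟩
  rw [hh D y (hk hy)]
  have hcube : ∀ y ∈ T.tiling.F k, T.A D y ∈ dyc 0 T.m a.1.2.2 := by
    intro y hy
    have h1 : T.A a.1.2.1 y ∈ dyc 0 T.m a.1.2.2 := (hFj hy).2
    rwa [ha] at h1
  obtain ⟨t, ht, hxt⟩ := intrinsic_extend hx hy
  have hlin : T.A D (x + t • (x - y)) = T.A D x + t • (T.A D x - T.A D y) := by
    rw [T.aff D y x, ← map_smul, ← sub_eq_iff_eq_add', T.aff]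
    congr 1
    abel
  intro l
  have c1 := hcube x hxF l
  have c2 := hcube y hy l
  have c3 := hcube _ hxt l
  rw [hlin] at c3
  simp only [Pi.add_apply, Pi.smul_apply, Pi.sub_apply, smul_eq_mul, Pi.zero_apply,
    zero_add] at c1 c2 c3 ⊢
  have hxl := hxz l
  simp only [Pi.zero_apply, zero_add] at hxl
  rcases dyadic_cases hm (z l) (a.1.2.2 l) with h1 | h1 | h1
  · exact ⟨h1.1.trans c2.1, c2.2.trans h1.2⟩
  · -- the coordinate is maximal at `x`
    have e1 : T.A D x l = (z l : ℝ) / 2 ^ m := le_antisymm (c1.2.trans h1) hxl.1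
    have e2 : ((a.1.2.2 l : ℝ) + 1) / 2 ^ T.m = (z l : ℝ) / 2 ^ m :=
      le_antisymm h1 (e1 ▸ c1.2)
    have e3 : T.A D x l ≤ T.A D y l := by
      have h2 : t * (T.A D x l - T.A D y l) ≤ 0 := by linarith [c3.2]
      by_contra hcon
      push Not at hcon
      have : 0 < t * (T.A D x l - T.A D y l) := mul_pos ht (by linarith)
      linarith
    constructor
    · linarith
    · linarith [c2.2, hxl.2]
  · have e1 : T.A D x l = ((z l : ℝ) + 1) / 2 ^ m := le_antisymm hxl.2 (h1.trans c1.1)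
    have e2 : (a.1.2.2 l : ℝ) / 2 ^ T.m = ((z l : ℝ) + 1) / 2 ^ m :=
      le_antisymm (e1 ▸ c1.1) h1
    have e3 : T.A D y l ≤ T.A D x l := by
      have h2 : 0 ≤ t * (T.A D x l - T.A D y l) := by linarith [c3.1]
      by_contra hcon
      push Not at hcon
      have : t * (T.A D x l - T.A D y l) < 0 := mul_neg_of_pos_of_neg ht (by linarith)
      linarith
    constructor
    · linarith [c2.1, hxl.1]
    · linarith

/-- **the protected cells are aligned** -/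
theorem aligned (hΩ : IsOpen Ω) {c r : T.tiling.κ → ℝ} (hr : ∀ k, 0 < r k)
    (hf : ∀ k, Fat (c k) (r k) (T.tiling.F k)) {ρ : V → ℝ} {h : V → V}
    (hh : ∀ D, ∀ x ∈ T.R D, h x = T.A D x)
    (htile : ∀ D m z, IsTile ρ 0 m z → dyc 0 m z ⊆ Icc (T.lo D) (T.hi D) ∨
      Disjoint (dyo 0 m z) (Icc (T.lo D) (T.hi D)))
    (hgen : ∀ D m z, IsTile ρ 0 m z → (dyc 0 m z ∩ frontier (Icc (T.lo D) (T.hi D))).Nonempty →
      m ≤ T.m)
    (hgen' : ∀ D, ∃ m₀, ∀ m z, IsTile ρ 0 m z →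
      (dyc 0 m z ∩ frontier (Icc (T.lo D) (T.hi D))).Nonempty → m = m₀) :
    Aligned 0 ρ (T.tiling.mesh hΩ c r hr hf) h T.prot where
  box := by
    rintro _ ⟨D, rfl⟩
    exact ⟨T.lo D, T.hi D, T.lt D, T.image_R D (hh D)⟩
  tile := by
    rintro _ ⟨D, rfl⟩ m z hz
    have e : h '' (T.tiling.mesh hΩ c r hr hf).Q (Sum.inr (Sum.inr D) : T.ι) =
        Icc (T.lo D) (T.hi D) := T.image_R D (hh D)
    show dyc 0 m z ⊆ h '' (T.tiling.mesh hΩ c r hr hf).Q (Sum.inr (Sum.inr D) : T.ι) ∨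
      Disjoint (dyo 0 m z) (h '' (T.tiling.mesh hΩ c r hr hf).Q (Sum.inr (Sum.inr D) : T.ι))
    rw [e]
    exact htile D m z hz
  gen := by
    rintro _ ⟨D, rfl⟩
    have e : h '' (T.tiling.mesh hΩ c r hr hf).Q (Sum.inr (Sum.inr D) : T.ι) =
        Icc (T.lo D) (T.hi D) := T.image_R D (hh D)
    show ∃ m₀, ∀ m z, IsTile ρ 0 m z → (dyc 0 m z ∩ frontier (h ''
      (T.tiling.mesh hΩ c r hr hf).Q (Sum.inr (Sum.inr D) : T.ι))).Nonempty → m = m₀
    rw [e]
    exact hgen' D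
  aff := by
    rintro _ ⟨D, rfl⟩
    refine ⟨T.aMap D, fun x hx => ?_⟩
    rw [T.aMap_apply]
    refine hh D x ?_
    exact (T.isCompact_R D).isClosed.frontier_subset hx
  one := by
    rintro _ ⟨D, rfl⟩ k hk m z hz hne
    exact T.one hh hgen D k hk hz hne

end TD

end Vale.Agent.P073.H989
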