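import Vale.Agent.P073.H989.Tile5d
import Vale.Agent.P073.H687.FarTD
import Vale.Agent.P073.H761.Cov

/-!
# P073, block A15, [CUT]: the cut mesh
-/

namespace Vale.Agent.P073.H989

open MeasureTheory Set Filter Topology Metric Vale.Agent.P073.St
open Vale.Agent.P073.SQ (ev)
open Vale.Agent.P073.AB (Idx Part MinSq FaceOf squ)
open Vale.Agent.P073.H73 (Mesh Fat Aligned Bix Geo)
open Vale.Agent.P073.H687 (Tiling Two Uncut)
open P073.Net (dyc dyo IsTile SizeFn)

variable {Ω Λ : Set V} (G : Geo Ω Λ)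

/-- the face is a face between two uncut cubes -/
def Unc (k : (preTD G).tiling.κ) : Prop :=
  ∃ q q' : {q : Idx // (preTD G).Far q}, k.1 = (Sum.inl q, Sum.inl q')

theorem Unc.squ {k : (preTD G).tiling.κ} (h : Unc G k) :
    ∃ s, MinSq G.v G.I s ∧ (preTD G).tiling.F k = squ G.v s := by
  obtain ⟨q, q', hk⟩ := h
  refine H687.face_squ (T := (preTD G).tiling) (I := G.I) G.part ?_ ?_
  · rw [hk]
    exact ⟨q.1, q.2.1, rfl⟩
  · rw [hk]
    exact ⟨q'.1, q'.2.1, rfl⟩

open Classical in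
/-- the shape constants of the faces -/
noncomputable def shp (k : (preTD G).tiling.κ) : ℝ := if Unc G k then 1 else Cfat G.N G.J G.A

open Classical in
/-- the sizes of the faces -/
noncomputable def rad (k : (preTD G).tiling.κ) : ℝ :=
  if h : Unc G k then 1 / 2 ^ (Unc.squ G h).choose.1.1 else 1 / 2 ^ G.nr

theorem rad_pos (k : (preTD G).tiling.κ) : 0 < rad G k := by
  unfold rad
  split_ifs <;> positivity

theorem shp_fat (k : (preTD G).tiling.κ) : Fat (shp G k) (rad G k) ((preTD G).tiling.F k) := by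
  unfold shp rad
  split_ifs with h
  · have h1 := H194.fat_squ G.v (Unc.squ G h).choose
    rwa [← (Unc.squ G h).choose_spec.2] at h1
  · exact pre_fat G k h

theorem shp_cases (k : (preTD G).tiling.κ) : shp G k = 1 ∨ shp G k = Cfat G.N G.J G.A := by
  unfold shp
  split_ifs
  · exact Or.inl rfl
  · exact Or.inr rfl

/-- the cut mesh -/
noncomputable def cutM (hΩ : IsOpen Ω) : Mesh Ω :=
  (preTD G).tiling.mesh hΩ (shp G) (rad G) (rad_pos G) (shp_fat G)

theorem cutM_aligned (hΩ : IsOpen Ω) :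
    Aligned 0 G.ρ (cutM G hΩ) G.h.toFun
      (range fun b : {b // b ∈ G.B} => (Sum.inr (Sum.inr b) : (preTD G).ι)) :=
  pre_aligned G hΩ (rad_pos G) (shp_fat G)

theorem cutM_cov (hΩ : IsOpen Ω) (s : Idx × Fin 3) (hs : MinSq G.v G.I s) (x : V)
    (hx : x ∈ squ G.v s) (h : ∀ b ∈ G.B, x ∉ interior (b.cell G.A)) :
    ∃ k, x ∈ (cutM G hΩ).F k :=
  H761.TD.cov (preTD G) hΩ hs hx fun D => h _ D.2

theorem pre_gen' {q : Idx} (hq : q ∈ (preTD G).I) (D : (preTD G).Δ)
    (h : (dyc (preTD G).v q.1 q.2 ∩ (preTD G).R D).Nonempty) : q.1 = G.nr := by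
  obtain ⟨x, hxq, hxb⟩ := h
  exact G.unif _ D.2 q hq ⟨x, hxq, x, hxb, by
    rw [sub_self, norm_zero]; positivity⟩

/-- **[CUT]** the cut mesh -/
noncomputable def cutMesh (hΩ : IsOpen Ω) : H73.CutMesh G (Cfat G.N G.J G.A) where
  M := cutM G hΩ
  cell := fun b => (Sum.inr (Sum.inr b) : (preTD G).ι)
  Qcell := fun _ => rfl
  shape := shp_cases G
  face := by
    intro k
    obtain ⟨q, hq, hk, h⟩ := H687.TD.face (preTD G) k
    refine ⟨q, hq, hk, ?_⟩
    rcases h with ⟨s, hs, h1, h2⟩ | ⟨D, hD⟩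
    · exact Or.inl ⟨s, hs, h1, fun b hb => h2 ⟨b, hb⟩⟩
    · exact Or.inr ⟨D.1, D.2, hD⟩
  aligned := cutM_aligned G hΩ
  cov := cutM_cov G hΩ
  far := by
    intro i hi hfar s hs hsi
    exact H687.TD.far (preTD G) hΩ (fun q hq D h => pre_gen' G hq D h) hi
      (fun D => hfar _ D.2) hs hsi (shp G) (rad G) (rad_pos G) (shp_fat G)

/-- **[CUT]** -/
theorem specCut : H73.SpecCut := by
  intro N J A
  refine ⟨Cfat N J A, fun Ω Λ G hΩ _ hN hJ hA => ?_⟩
  subst hN hJ hA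
  exact ⟨cutMesh G hΩ.1⟩

end Vale.Agent.P073.H989
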