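import Vale.Agent.P073.H333.NetInC

/-!
# P073, block A04-NETIN: the second half of `netIn_of`, from a given conical map

`NetInF`: the good cells are filled in ANY given conical homeomorphism `h₀` which is close enough
to `f` (at all points; in `W^{1,1}` on the edges of `I`); nothing is changed outside of the
interiors of the good cells and on the edges of `I` outside of the boxes `B`.
-/

namespace Vale.Agent.P073.H989

open MeasureTheory Set Filter Topology Metric Vale.Agent.P073.St Vale.Agent.P073.AB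
open Vale.Agent.P073.SQ (ev)
open _root_.P073.Net (dyc dyo)
open _root_.P073.Gauge (CellHyp CellOut gam dvar)
open _root_.P073 (ConHomeo RelLF ConicalSet)
open _root_.P073.Gauge.C110
open _root_.P073.Gauge.O407 (jInt eInt_eq deriv_gam dvar_eq dvar_zero exists_pos_le eInt_le_sum)
open Vale.Agent.P073.H333
open scoped ENNReal

/-- a map which is close to `f`, and in `W^{1,1}` on the edges of `I` -/
structure Near0 (v : V) (I : Set Idx) (f : V → V) (F : V → Mat) (Ω : Set V) (m : V → ℝ)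
    (δ : Idx × Fin 3 → ℝ) (h : V → V) : Prop where
  close : ∀ x ∈ Ω, ‖h x - f x‖ ≤ m x
  edge : ∀ e : Idx × Fin 3, (∃ q ∈ I, EdgeOf e q) →
    (∀ x ∈ edge v e, ‖h x - f x‖ ≤ δ e) ∧
    eInt v e (fun x => ENNReal.ofReal ‖lineDeriv ℝ h x (ev e.2) - cl (F x) (ev e.2)‖) ≤
      ENNReal.ofReal (δ e)

/-- the given map `h₀` is changed in the good cells only -/
structure Kept0 (v : V) (I J : Set Idx) (k₁ : Idx → ℕ) (Ω : Set V) (h₀ h : V → V) : Prop where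
  off : ∀ x ∈ Ω, (∀ q ∈ J, x ∉ interior (dyc v q.1 q.2)) → h x = h₀ x
  edges : ∀ e : Idx × Fin 3, (∃ q ∈ I, EdgeOf e q) →
    (∀ q ∈ J, Disjoint (edge v e) (interior (boxB v q.1 (k₁ q) q.2))) →
    ∀ x ∈ edge v e, h x = h₀ x

/-- **(NETIN)** from a given conical map -/
def NetInF : Prop :=
  ∃ (C : ℝ → ℝ → ℝ) (K₀ : ℝ → ℝ → ℕ → ℕ) (κ : ℝ → ℝ → ℕ → ℝ),
    (∀ θ M, 0 < C θ M) ∧ (∀ θ M k₁, 0 < κ θ M k₁) ∧
    ∀ (Ω Λ : Set V) (f : V → V) (F : V → Mat) (v : V) (I J : Set Idx) (θ M : Idx → ℝ)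
      (k₁ : Idx → ℕ) (A : Idx → V → V) (L : Idx → V →L[ℝ] V) (σ : V → ℝ) (δ : Idx × Fin 3 → ℝ),
      IsBoundedDomain Ω → IsBoundedDomain Λ → Part Ω v I → RatGood v Ω f F →
      (∀ q ∈ J, 0 < θ q ∧ 0 < M q ∧ 3 ≤ k₁ q) →
      (∀ q ∈ J, ∀ q' ∈ J, q ≠ q' → Disjoint (dyo v q.1 q.2) (dyo v q'.1 q'.2)) →
      (∀ q ∈ J, GoodCell (θ q) (M q) (κ (θ q) (M q) (k₁ q)) (k₁ q) (K₀ (θ q) (M q) (k₁ q)) v I f F
        q (A q) (L q)) →
      ContinuousOn σ Ω → (∀ x ∈ Ω, 0 < σ x) → (∀ e, 0 < δ e) →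
      ∃ (m : V → ℝ) (δ' : Idx × Fin 3 → ℝ), ContinuousOn m Ω ∧ (∀ x ∈ Ω, 0 < m x) ∧
        (∀ x ∈ Ω, m x ≤ σ x) ∧ (∀ e, 0 < δ' e) ∧ (∀ e, δ' e ≤ δ e) ∧
      ∀ h₀ : ConHomeo Ω Λ, Near0 v I f F Ω m δ' h₀.toFun →
      ∃ h : ConHomeo Ω Λ, NetRes v I J (fun q => C (θ q) (M q)) k₁
        (fun q => K₀ (θ q) (M q) (k₁ q)) A f F Ω σ δ h.toFun ∧
        Kept0 v I J k₁ Ω h₀.toFun h.toFun

/-- **(NETIN)** from a given conical map, from the closeness form of `SpecCell` -/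
theorem netInF_of (hC : SpecCellE) : NetInF := by
  classical
  -- the constants
  have hex : ∀ θ M : ℝ, ∃ C > 0, 0 < θ → 0 < M → ∀ k₁ : ℕ, 3 ≤ k₁ → ∃ k₀ : ℕ, ∃ κ > 0,
    ∀ (Ω Λ : Set V) (v : V) (I : Set Idx) (n₂ : ℕ) (z : Fin 3 → ℤ) (A : V → V)
      (L : V →L[ℝ] V) (h : ConHomeo Ω Λ), IsOpen Ω → IsOpen Λ → Part Ω v I →
      CellHyp 1 θ M κ k₁ k₀ n₂ Λ v I z A L h.toFun →
      (∀ x ∈ dyc v n₂ z, ‖h.toFun x - A x‖ ≤ κ / 2 ^ (n₂ + k₁ + k₀)) →
      ∃ h' : ConHomeo Ω Λ, CellOut 1 C k₁ n₂ v z A h'.toFun ∧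
        (∀ x ∈ boxB v n₂ k₁ z, ‖h'.toFun x - A x‖ ≤ C / 2 ^ (n₂ + k₁)) ∧
        (∀ x ∈ dyc v n₂ z, x ∉ interior (boxB v n₂ k₁ z) →
          ‖h'.toFun x - A x‖ ≤ C / 2 ^ (n₂ + k₁ + k₀)) ∧
        (∀ x ∈ Ω, x ∉ interior (dyc v n₂ z) → h'.toFun x = h.toFun x) ∧
        ∀ e : Idx × Fin 3, (∃ q ∈ I, EdgeOf e q) → ∀ x ∈ edge v e,
          x ∉ interior (boxB v n₂ k₁ z) → h'.toFun x = h.toFun x := by
    intro θ M
    by_cases h : 0 < θ ∧ 0 < M
    · obtain ⟨C, hC0, hC1⟩ := hC 1 θ M le_rfl h.1 h.2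
      exact ⟨C, hC0, fun _ _ => hC1⟩
    · exact ⟨1, one_pos, fun h1 h2 => absurd ⟨h1, h2⟩ h⟩
  choose C' hC'0 hC' using hex
  have hex2 : ∀ (θ M : ℝ) (k₁ : ℕ), ∃ (k₀ : ℕ) (κ : ℝ), 0 < κ ∧ (0 < θ → 0 < M → 3 ≤ k₁ →
    ∀ (Ω Λ : Set V) (v : V) (I : Set Idx) (n₂ : ℕ) (z : Fin 3 → ℤ) (A : V → V)
      (L : V →L[ℝ] V) (h : ConHomeo Ω Λ), IsOpen Ω → IsOpen Λ → Part Ω v I →
      CellHyp 1 θ M κ k₁ k₀ n₂ Λ v I z A L h.toFun →
      (∀ x ∈ dyc v n₂ z, ‖h.toFun x - A x‖ ≤ κ / 2 ^ (n₂ + k₁ + k₀)) →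
      ∃ h' : ConHomeo Ω Λ, CellOut 1 (C' θ M) k₁ n₂ v z A h'.toFun ∧
        (∀ x ∈ boxB v n₂ k₁ z, ‖h'.toFun x - A x‖ ≤ C' θ M / 2 ^ (n₂ + k₁)) ∧
        (∀ x ∈ dyc v n₂ z, x ∉ interior (boxB v n₂ k₁ z) →
          ‖h'.toFun x - A x‖ ≤ C' θ M / 2 ^ (n₂ + k₁ + k₀)) ∧
        (∀ x ∈ Ω, x ∉ interior (dyc v n₂ z) → h'.toFun x = h.toFun x) ∧
        ∀ e : Idx × Fin 3, (∃ q ∈ I, EdgeOf e q) → ∀ x ∈ edge v e,
          x ∉ interior (boxB v n₂ k₁ z) → h'.toFun x = h.toFun x) := by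
    intro θ M k₁
    by_cases h : 0 < θ ∧ 0 < M ∧ 3 ≤ k₁
    · obtain ⟨k₀, κ, hκ, h1⟩ := hC' θ M h.1 h.2.1 k₁ h.2.2
      exact ⟨k₀, κ, hκ, fun _ _ _ => h1⟩
    · exact ⟨0, 1, one_pos, fun h1 h2 h3 => absurd ⟨h1, h2, h3⟩ h⟩
  choose K₀ κ' hκ'0 hK using hex2
  have hmaxpos : ∀ M : ℝ, 0 < max M 1 := fun M => lt_max_of_lt_right one_pos
  refine ⟨fun θ M => C' θ M + max M 1 + 1, K₀,
    fun θ M k₁ => min (κ' θ M k₁) (min (|θ| + if θ = 0 then 1 else 0) 1) / 4, ?_, ?_, ?_⟩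
  · intro θ M
    have := hC'0 θ M
    have := hmaxpos M
    positivity
  · intro θ M k₁
    have h1 := hκ'0 θ M k₁
    have h2 : 0 < |θ| + if θ = 0 then 1 else 0 := by
      by_cases h : θ = 0
      · simp [h]
      · simp [h]
    have := lt_min h1 (lt_min h2 one_pos)
    positivity
  intro Ω Λ f F v I J θ M k₁ A L σ δ hΩ hΛ hI rat hpos hJ hgood hσ hσ0 hδ
  set N : Idx → ℕ := fun q => q.1 + k₁ q + K₀ (θ q) (M q) (k₁ q) with hN'
  set κ : Idx → ℝ := fun q => min (κ' (θ q) (M q) (k₁ q))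
    (min (|θ q| + if θ q = 0 then 1 else 0) 1) / 4 with hκ
  have hκ1 : ∀ q ∈ J, 0 < κ q ∧ 4 * κ q ≤ κ' (θ q) (M q) (k₁ q) ∧ 4 * κ q ≤ θ q ∧
      4 * κ q ≤ 1 := by
    intro q hq
    obtain ⟨h1, -, -⟩ := hpos q hq
    have e1 : (|θ q| + if θ q = 0 then 1 else 0 : ℝ) = θ q := by
      rw [if_neg h1.ne', add_zero, abs_of_pos h1]
    simp only [hκ]
    rw [e1]
    have h2 := hκ'0 (θ q) (M q) (k₁ q)
    have h3 := lt_min h2 (lt_min h1 one_pos)
    refine ⟨by positivity, ?_, ?_, ?_⟩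
    · linarith [min_le_left (κ' (θ q) (M q) (k₁ q)) (min (θ q) 1)]
    · linarith [(min_le_right (κ' (θ q) (M q) (k₁ q)) (min (θ q) 1)).trans (min_le_left _ _)]
    · linarith [(min_le_right (κ' (θ q) (M q) (k₁ q)) (min (θ q) 1)).trans (min_le_right _ _)]
  have hNq : ∀ q ∈ J, q.1 ≤ N q := fun q _ => by simp only [hN']; omega
  have hfine : ∀ q ∈ J, ∀ z', (dyc v (N q) z' ∩ dyc v q.1 q.2).Nonempty →
      ((N q, z') : Idx) ∈ I := fun q hq => (hgood q hq).fine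
  have hfinJ : ∀ K ⊆ Ω, IsCompact K → {q | q ∈ J ∧ (dyc v q.1 q.2 ∩ K).Nonempty}.Finite :=
    fun K hK hKc => finite_cells hI hNq hfine hJ hK hKc
  have ha0 : ∀ q ∈ J, 0 < κ q / 2 ^ N q := fun q hq => div_pos (hκ1 q hq).1 (by positivity)
  obtain ⟨m, hmc, hm0, hmσ, hmJ⟩ := exists_gauge hΩ.1 hfinJ hσ hσ0 ha0
  obtain ⟨δ', hδ'0, hδ'1, hδ'2⟩ := exists_tol_edge hfinJ ha0 hδ
  have hsubE : ∀ e : Idx × Fin 3, (∃ q ∈ I, EdgeOf e q) → edge v e ⊆ Ω := by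
    rintro e ⟨q, hq, he⟩
    exact (Gr.edge_subset_dyc he).trans (hI.sub q hq)
  refine ⟨m, δ', hmc, hm0, hmσ, hδ'0, hδ'1, ?_⟩
  rintro h₀ ⟨hclose, hedge⟩
  have hJΩ : ∀ q ∈ J, dyc v q.1 q.2 ⊆ Ω := fun q hq => dyc_sub_of_fine hI (hfine q hq)
  -- closeness on the good cells
  have hcl2 : ∀ q ∈ J, ∀ x ∈ dyc v q.1 q.2, ‖h₀.toFun x - A q x‖ ≤ 2 * κ q / 2 ^ N q := by
    intro q hq x hx
    have h1 := hclose x (hJΩ q hq hx)
    have h2 := hmJ q hq x (hJΩ q hq hx) hx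
    have h3 : ‖f x - A q x‖ ≤ κ q / 2 ^ N q := (hgood q hq).close x hx
    calc ‖h₀.toFun x - A q x‖ ≤ ‖h₀.toFun x - f x‖ + ‖f x - A q x‖ :=
          norm_sub_le_norm_sub_add_norm_sub _ _ _
      _ ≤ κ q / 2 ^ N q + κ q / 2 ^ N q := add_le_add (h1.trans h2) h3
      _ = 2 * κ q / 2 ^ N q := by ring
  have hpow : ∀ q ∈ J, 4 * (1 / 2 ^ N q : ℝ) ≤ 1 / 2 ^ q.1 := by
    intro q hq
    have h3 := (hpos q hq).2.2
    have e1 : N q = q.1 + 2 + (N q - q.1 - 2) := by simp only [hN']; omega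
    rw [e1, pow_add, pow_add]
    have h4 : (1:ℝ) ≤ 2 ^ (N q - q.1 - 2) := one_le_pow₀ (by norm_num)
    have h5 : (0:ℝ) < 2 ^ q.1 := by positivity
    rw [← mul_div_assoc, mul_one, div_le_div_iff₀ (by positivity) h5]
    nlinarith
  have himg : ∀ q ∈ J, A q '' shrink v q.1 q.2 (1 / 2 ^ N q) ⊆ h₀.toFun '' dyo v q.1 q.2 := by
    intro q hq
    obtain ⟨h1, h2, h3⟩ := hpos q hq
    obtain ⟨k1, k2, k3, k4⟩ := hκ1 q hq
    refine shrink_sub_image h₀ (hJΩ q hq) h1 (hgood q hq).aff (hgood q hq).below (hcl2 q hq) ?_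
      (hpow q hq)
    rw [mul_one_div, div_lt_div_iff_of_pos_right (by positivity)]
    linarith
  -- the edges in the good cells
  have hown : ∀ q ∈ J, ∀ e : Idx × Fin 3, e.1.1 = N q → edge v e ⊆ dyc v q.1 q.2 →
      (∃ r ∈ I, EdgeOf e r) ∧
      eInt v e (fun x => ENNReal.ofReal ‖lineDeriv ℝ h₀.toFun x (ev e.2) - L q (ev e.2)‖) ≤
        ENNReal.ofReal (2 * κ q / 2 ^ N q) := by
    intro q hq e he hsub
    obtain ⟨w, hw1, hw2⟩ := cube_of_edge (j := k₁ q + K₀ (θ q) (M q) (k₁ q))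
      (by rw [he]; simp only [hN']; ring) hsub
    have hNeq : q.1 + (k₁ q + K₀ (θ q) (M q) (k₁ q)) = N q := by simp only [hN']; ring
    rw [hNeq] at hw1 hw2
    have hwI : ((N q, w) : Idx) ∈ I := by
      apply hfine q hq w
      obtain ⟨x, hx⟩ : (dyc v (N q) w).Nonempty :=
        ⟨_, P86.dyo_sub_dyc (P86.cen_mem v (N q) w)⟩
      exact ⟨x, hx, hw2 hx⟩
    have hE : ∃ r ∈ I, EdgeOf e r := ⟨_, hwI, hw1⟩
    refine ⟨hE, ?_⟩
    obtain ⟨x, hx⟩ := Gr.edge_nonempty v e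
    have h1 := hδ'2 e (hsubE e hE) q hq ⟨x, hsub hx, hx⟩
    have h2 := (hedge e hE).2.trans (ENNReal.ofReal_le_ofReal h1)
    have h3 := (hgood q hq).own e he hsub
    have h4 := eInt_tri rat (hsubE e hE) h₀.toFun (L q (ev e.2)) (ha0 q hq).le (ha0 q hq).le h2 h3
    refine h4.trans (ENNReal.ofReal_le_ofReal (le_of_eq (by ring)))
  -- the hypotheses of `SpecCellE`
  have hcell : ∀ q ∈ J, CellHyp 1 (θ q) (M q) (κ' (θ q) (M q) (k₁ q)) (k₁ q)
      (K₀ (θ q) (M q) (k₁ q)) q.1 Λ v I q.2 (A q) (L q) h₀.toFun := by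
    intro q hq
    obtain ⟨h1, h2, h3⟩ := hpos q hq
    obtain ⟨c1, c2, c3, c4⟩ := hκ1 q hq
    have hpN : (0:ℝ) < 2 ^ N q := by positivity
    refine ⟨(hgood q hq).aff, (hgood q hq).below, (hgood q hq).above, hfine q hq, ?_, ?_, ?_⟩
    · intro e he hsub
      refine ⟨fun x hx => (hcl2 q hq x (hsub hx)).trans ?_, ?_⟩
      · exact div_le_div_of_nonneg_right (by linarith) hpN.le
      · have he' : e.1.1 = N q := he
        have h4 := (hown q hq e he' hsub).2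
        show dvar 1 h₀.toFun v e (L q ((1 / 2 ^ N q : ℝ) • ev e.2)) ≤ _
        rw [← he', map_smul, dvar_one]
        refine h4.trans (ENNReal.ofReal_le_ofReal ?_)
        rw [Real.rpow_one, mul_one_div]
        show 2 * κ q / 2 ^ N q ≤ κ' (θ q) (M q) (k₁ q) / 2 ^ N q
        exact div_le_div_of_nonneg_right (by linarith) hpN.le
    · intro e he hne x hx hcon
      have h4 := edge_off hI (hNq q hq) (hfine q hq) he hne hx
      obtain ⟨y, hy, hyx⟩ := himg q hq hcon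
      have h5 := h₀.injOn (hJΩ q hq (by
        rw [← interior_dyc] at hy; exact interior_subset hy)) (hsubE e he hx) hyx
      rw [h5] at hy
      exact h4 hy
    · intro y hy
      obtain ⟨x, hx, rfl⟩ := himg q hq hy
      rw [← interior_dyc] at hx
      exact h₀.mapsTo (hJΩ q hq (interior_subset hx))
  -- the modification in every good cell
  have hmod : ∀ q : Idx, ∃ h' : ConHomeo Ω Λ, q ∈ J →
      CellOut 1 (C' (θ q) (M q)) (k₁ q) q.1 v q.2 (A q) h'.toFun ∧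
        (∀ x ∈ boxB v q.1 (k₁ q) q.2, ‖h'.toFun x - A q x‖ ≤ C' (θ q) (M q) / 2 ^ (q.1 + k₁ q)) ∧
        (∀ x ∈ dyc v q.1 q.2, x ∉ interior (boxB v q.1 (k₁ q) q.2) →
          ‖h'.toFun x - A q x‖ ≤ C' (θ q) (M q) / 2 ^ N q) ∧
        (∀ x ∈ Ω, x ∉ interior (dyc v q.1 q.2) → h'.toFun x = h₀.toFun x) ∧
        ∀ e : Idx × Fin 3, (∃ q ∈ I, EdgeOf e q) → ∀ x ∈ edge v e,
          x ∉ interior (boxB v q.1 (k₁ q) q.2) → h'.toFun x = h₀.toFun x := by
    intro q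
    by_cases hq : q ∈ J
    · obtain ⟨h1, h2, h3⟩ := hpos q hq
      obtain ⟨c1, c2, c3, c4⟩ := hκ1 q hq
      obtain ⟨h', hh⟩ := hK (θ q) (M q) (k₁ q) h1 h2 h3 Ω Λ v I q.1 q.2 (A q) (L q) h₀ hΩ.1 hΛ.1
        hI (hcell q hq) (fun x hx => (hcl2 q hq x hx).trans
          (div_le_div_of_nonneg_right (by linarith) (by positivity)))
      exact ⟨h', fun _ => hh⟩
    · exact ⟨h₀, fun h => absurd h hq⟩
  choose H hH using hmod
  -- gluing
  obtain ⟨h, hin, hout⟩ := exists_glue_supp (ι := J) (κ := I) hΩ.1 hΛ.1 h₀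
    (fun q => dyo v q.1.1 q.1.2) (fun q => isOpen_dyo _ _ _)
    (fun q q' hne => hJ q.1 q.2 q'.1 q'.2 fun h => hne (Subtype.ext h)) (fun q => H q.1)
    (fun q x hx hxq => (hH q.1 q.2).2.2.2.1 x hx (by rw [interior_dyc]; exact hxq))
    (fun r => dyc v r.1.1 r.1.2)
    ⟨by
      intro x hx
      obtain ⟨r, hr⟩ := mem_iUnion.1 hx
      have hxΩ := hI.sub r.1 r.2 hr
      obtain ⟨ρ, hρ, hb⟩ := Metric.nhds_basis_closedBall.mem_iff.1 (hΩ.1.mem_nhds hxΩ)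
      refine ⟨closedBall x ρ, closedBall_mem_nhds x hρ, ?_⟩
      refine Set.Finite.of_finite_image (f := Subtype.val)
        ((hI.fin _ hb (isCompact_closedBall x ρ)).subset ?_) Subtype.val_injective.injOn
      rintro _ ⟨r', hr', rfl⟩
      exact ⟨r'.2, hr'⟩,
     by
      intro r x _ hx
      rwa [(P86.isCompact_dyc v r.1.1 r.1.2).isClosed.closure_eq] at hx⟩
    (by
      apply Subset.antisymm
      · exact iUnion_subset fun r => hI.sub r.1 r.2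
      · intro x hx
        obtain ⟨q, hq, hxq⟩ := hI.cover x hx
        exact mem_iUnion.2 ⟨⟨q, hq⟩, hxq⟩)
    (fun r => _root_.P073.Convex.conicalSet (_root_.P073.Gauge.O407.convex_dyc v r.1.1 r.1.2))
    (by
      intro r
      by_cases hr : ∃ q ∈ J, dyc v r.1.1 r.1.2 ⊆ dyc v q.1 q.2
      · obtain ⟨q, hq, hrq⟩ := hr
        exact Or.inl ⟨⟨q, hq⟩, by rw [closure_dyo]; exact hrq⟩
      · right
        intro q
        rcases sub_or_disjoint hI (hNq q.1 q.2) (hfine q.1 q.2) r.2 with h1 | h1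
        · exact absurd ⟨q.1, q.2, h1⟩ hr
        · exact h1)
  have hin' : ∀ q ∈ J, ∀ x ∈ dyc v q.1 q.2, h.toFun x = (H q).toFun x := by
    intro q hq x hx
    exact hin ⟨q, hq⟩ x (hJΩ q hq hx) (by rw [closure_dyo]; exact hx)
  -- the result
  have hCle : ∀ q ∈ J, C' (θ q) (M q) ≤ C' (θ q) (M q) + max (M q) 1 + 1 := fun q _ => by
    have := hmaxpos (M q); linarith
  have hMle : ∀ q ∈ J, M q ≤ C' (θ q) (M q) + max (M q) 1 + 1 := fun q _ => by
    have := le_max_left (M q) 1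
    have := hC'0 (θ q) (M q)
    linarith
  -- `h = h₀` on the edges outside of the boxes
  have hedge0 : ∀ e : Idx × Fin 3, (∃ q ∈ I, EdgeOf e q) →
      (∀ q ∈ J, Disjoint (edge v e) (interior (boxB v q.1 (k₁ q) q.2))) →
      ∀ x ∈ edge v e, h.toFun x = h₀.toFun x := by
    intro e he hd x hx
    by_cases hex : ∃ q ∈ J, x ∈ dyc v q.1 q.2
    · obtain ⟨q, hq, hxq⟩ := hex
      rw [hin' q hq x hxq]
      exact (hH q hq).2.2.2.2 e he x hx (Set.disjoint_left.1 (hd q hq) hx)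
    · refine hout x (hsubE e he hx) fun q hxq => hex ⟨q.1, q.2, ?_⟩
      rw [← interior_dyc] at hxq
      exact interior_subset hxq
  refine ⟨h, ⟨?_, ?_, ?_, ?_, ?_, ?_⟩, fun x hx hno => hout x hx fun q => by
    rw [← interior_dyc]; exact hno q.1 q.2, hedge0⟩
  · -- off
    intro x hx hno
    rw [hout x hx fun q => by rw [← interior_dyc]; exact hno q.1 q.2]
    exact (hclose x hx).trans (hmσ x hx)
  · -- layer
    intro q hq x hx hxB
    rw [hin' q hq x hx]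
    refine ((hH q hq).2.2.1 x hx hxB).trans ?_
    exact div_le_div_of_nonneg_right (hCle q hq) (by positivity)
  · -- inn
    intro q hq x hx
    rw [hin' q hq x (boxB_subset _ _ _ _ hx)]
    refine ((hH q hq).2.1 x hx).trans ?_
    exact div_le_div_of_nonneg_right (hCle q hq) (by positivity)
  · -- box
    intro q hq x hx
    rw [hin' q hq x (boxB_subset _ _ _ _ (boxR_subset_boxB _ _ _ _ hx))]
    exact (hH q hq).1.box x hx
  · -- edges
    intro e he hd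
    have heq := hedge0 e he hd
    refine ⟨fun x hx => ?_, ?_⟩
    · rw [heq x hx]
      exact ((hedge e he).1 x hx).trans (hδ'1 e)
    · have h1 := eInt_congr_edge heq (fun x w => ENNReal.ofReal ‖w - cl (F x) (ev e.2)‖)
      rw [h1]
      exact ((hedge e he).2).trans (ENNReal.ofReal_le_ofReal (hδ'1 e))
  · -- gap
    intro q hq e he hB
    obtain ⟨h1, h2, h3⟩ := hpos q hq
    obtain ⟨c1, c2, c3, c4⟩ := hκ1 q hq
    have hBd : edge v e ⊆ dyc v q.1 q.2 := hB.trans (boxB_subset _ _ _ _)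
    have heq : ∀ x ∈ edge v e, h.toFun x = (H q).toFun x := fun x hx => hin' q hq x (hBd hx)
    have hcong := eInt_congr_edge heq (fun _ w => ENNReal.ofReal ‖w‖)
    rw [hcong]
    by_cases hR : edge v e ⊆ boxR v q.1 (k₁ q) q.2
    · have heqA : ∀ x ∈ edge v e, (H q).toFun x = A q x := fun x hx => (hH q hq).1.box x (hR hx)
      have hcong2 := eInt_congr_edge heqA (fun _ w => ENNReal.ofReal ‖w‖)
      rw [hcong2]
      refine (len_affine (hgood q hq).aff (hgood q hq).above).trans ?_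
      rw [he]
      exact ENNReal.ofReal_le_ofReal
        (div_le_div_of_nonneg_right (hMle q hq) (by positivity))
    · have hRd : edge v e ⊆ boxB v q.1 (k₁ q) q.2 \ interior (boxR v q.1 (k₁ q) q.2) := by
        intro x hx
        refine ⟨hB hx, fun hxR => hR ?_⟩
        rw [S308.boxR_eq] at hxR ⊢
        rw [S308.interior_gbox] at hxR
        exact edge_sub_gbox he hx hxR
      by_cases hfr : edge v e ⊆ frontier (boxB v q.1 (k₁ q) q.2)
      · -- fine edges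
        rw [← he]
        have hbound : eInt v e (fun x => ENNReal.ofReal ‖lineDeriv ℝ (H q).toFun x (ev e.2)‖) ≤
            ENNReal.ofReal ((2 * κ q + M q) / 2 ^ e.1.1) := by
          refine len_le_sub v e (K₀ (θ q) (M q) (k₁ q)) _ fun j hj => ?_
          have hsub := S308.subEdge_sub (v := v) (e := e) hj
          have hgen : (subEdge e (K₀ (θ q) (M q) (k₁ q)) j).1.1 = N q := by
            show e.1.1 + _ = _
            rw [he]
          have hk : (subEdge e (K₀ (θ q) (M q) (k₁ q)) j).2 = e.2 := rfl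
          obtain ⟨hE, h4⟩ := hown q hq _ hgen (hsub.trans hBd)
          have heq2 : ∀ x ∈ edge v (subEdge e (K₀ (θ q) (M q) (k₁ q)) j),
              (H q).toFun x = h₀.toFun x := by
            intro x hx
            refine (hH q hq).2.2.2.2 _ hE x hx ?_
            have := hfr (hsub hx)
            rw [frontier, Set.mem_sdiff] at this
            exact this.2
          have hcong3 := eInt_congr_edge heq2 (fun _ w => ENNReal.ofReal ‖w‖)
          simp only [hk] at hcong3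
          rw [hcong3]
          have h5 := len_le_of_close (h := h₀.toFun) (a := 2 * κ q) (by linarith) h2.le
            (hgood q hq).above (by rw [hgen]; exact h4)
          rw [hk] at h5
          exact h5
        refine hbound.trans (ENNReal.ofReal_le_ofReal
          (div_le_div_of_nonneg_right ?_ (by positivity)))
        have := le_max_left (M q) 1
        have := hC'0 (θ q) (M q)
        linarith
      · have h4 := ((hH q hq).1.gap e he hRd hfr).2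
        rw [dvar_one_zero, Real.rpow_one, mul_one_div] at h4
        refine h4.trans (ENNReal.ofReal_le_ofReal ?_)
        exact div_le_div_of_nonneg_right (hCle q hq) (by positivity)

/-- the given conical map from the net theorem -/
theorem exists_near0 (hN : _root_.P073.Top.NetOutN) {Ω Λ : Set V} {f : V → V} {F : V → Mat}
    {v : V} {I : Set Idx} (hΩ : IsBoundedDomain Ω) (hΛ : IsBoundedDomain Λ) (hf : IsHomeo Ω Λ f)
    (hI : Part Ω v I) (rat : RatGood v Ω f F)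
    (fin : ∀ e : Idx × Fin 3, (∃ q ∈ I, EdgeOf e q) →
      eInt v e (fun x => ENNReal.ofReal ‖cl (F x) (ev e.2)‖) ≠ ⊤)
    {m : V → ℝ} {δ : Idx × Fin 3 → ℝ} (hmc : ContinuousOn m Ω) (hm : ∀ x ∈ Ω, 0 < m x)
    (hδ : ∀ e, 0 < δ e) : ∃ h₀ : ConHomeo Ω Λ, Near0 v I f F Ω m δ h₀.toFun := by
  obtain ⟨h₀, hclose, hedge⟩ := _root_.P073.BV567.net_ofN hN AB.specGraph (p := 1) le_rfl
    one_lt_two hΩ hΛ hf hI rat (by simpa using fin) δ hδ hmc hm
  simp only [Real.rpow_one] at hedge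
  exact ⟨h₀, hclose, hedge⟩

/-- the old form -/
theorem NetInF.netIn (h : NetInF) (hN : _root_.P073.Top.NetOutN) : NetIn := by
  obtain ⟨C, K₀, κ, h1, h2, h3⟩ := h
  refine ⟨C, K₀, κ, h1, h2, ?_⟩
  intro Ω Λ f F v I J θ M k₁ A L σ δ hΩ hΛ hf hI rat fin hpos hJ hgood hσ hσ0 hδ
  obtain ⟨m, δ', hmc, hm0, -, hδ', -, h4⟩ := h3 Ω Λ f F v I J θ M k₁ A L σ δ hΩ hΛ hI rat hpos hJ
    hgood hσ hσ0 hδ
  obtain ⟨h₀, H⟩ := exists_near0 hN hΩ hΛ hf hI rat fin hmc hm0 hδ'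
  obtain ⟨h, h5, -⟩ := h4 h₀ H
  exact ⟨h, h5⟩

end Vale.Agent.P073.H989
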