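import Vale.Agent.P073.H989.Thin2c
import Vale.Agent.P073.H989.P2K0
import Vale.Agent.P073.H340.PEspec
import Vale.Agent.P073.H622.SpecCtrs

/-!
# P073, [PRE-2], [E7]: the centres for the exponent two

The surface measures of the outer faces are one more measure for the choice of the centres.
-/

namespace Vale.Agent.P073.H989

open MeasureTheory Set Filter Topology Metric Vale.Agent.P073.St Vale.Agent.P073.AB
open _root_.P073.Net (dyc dyo IsTile SizeFn)
open Vale.Agent.P073.H73 (Bix ctr)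
open Vale.Agent.P073.H194 (fs Gs fs_in fs_out Gs_in Gs_out Oc isClosed_Oc wH zo so co OT cubes_OT
  GoodC isCompact_boxR sInt Bk ae_goodC)
open Vale.Agent.P073.H333 (lay gap core out base Mid)
open Vale.Agent.P073.H471 (wgt wt Cw Cw_ne_top measurable_wt)
open Vale.Agent.P073.H83 (CellsG gB gB_J grho tauC exists_centres sizeFn_grho cell_sub_boxR GenB)
open Vale.Agent.P073.H622 (Ud measurableSet_Ud Ud_sub aemeasurable_piece aemeasurable_Gs
  lintegral_Gs_le measurable_wgt)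
open Vale.Agent.P073.H340 (olay kept)
open scoped ENNReal

/-! ### the surface measure of a dyadic square -/

/-- projection to the plane of the square -/
noncomputable def upd (v : V) (s : Idx × Fin 3) (x : V) : V :=
  Function.update x s.2 (pt v s.1.1 s.1.2 s.2)

theorem measurable_upd (v : V) (s : Idx × Fin 3) : Measurable (upd v s) :=
  (continuous_id.update s.2 continuous_const).measurable

/-- surface measure of the square `s` -/
noncomputable def sM (v : V) (s : Idx × Fin 3) : Measure V :=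
  (2 ^ s.1.1 : ℝ≥0∞) • (volume.restrict (dyc v s.1.1 s.1.2)).map (upd v s)

theorem lintegral_sM {v : V} {s : Idx × Fin 3} {H : V → ℝ≥0∞} (hH : AEMeasurable H (sM v s)) :
    ∫⁻ x, H x ∂(sM v s) = sInt v s H := by
  have h0 : (2 ^ s.1.1 : ℝ≥0∞) ≠ 0 := by positivity
  have h1 : AEMeasurable H ((volume.restrict (dyc v s.1.1 s.1.2)).map (upd v s)) :=
    hH.mono_ac (Measure.absolutelyContinuous_of_le_smul (c := (2 ^ s.1.1 : ℝ≥0∞)⁻¹) (by
      unfold sM
      rw [smul_smul, ENNReal.inv_mul_cancel h0 (by simp), one_smul]))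
  unfold sM sInt
  rw [lintegral_smul_measure, lintegral_map' h1 (measurable_upd v s).aemeasurable]
  rfl

theorem upd_mem {v : V} {s : Idx × Fin 3} {x : V} (hx : x ∈ dyc v s.1.1 s.1.2) :
    upd v s x ∈ squ v s := by
  refine ⟨?_, fun k hk => ?_⟩
  · simp only [upd, Function.update_self, pt]
  · have h := hx k
    simp only [upd, Function.update_of_ne hk]
    exact h

theorem isCompact_squ (v : V) (s : Idx × Fin 3) : IsCompact (squ v s) := by
  have h : squ v s = upd v s '' dyc v s.1.1 s.1.2 := by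
    ext x
    constructor
    · intro hx
      refine ⟨x, fun k => ?_, ?_⟩
      · by_cases hk : k = s.2
        · rw [hk, hx.1]
          refine ⟨le_rfl, ?_⟩
          gcongr
          linarith
        · exact hx.2 k hk
      · unfold upd
        have : pt v s.1.1 s.1.2 s.2 = x s.2 := hx.1.symm
        rw [this, Function.update_eq_self]
    · rintro ⟨y, hy, rfl⟩
      exact upd_mem hy
  rw [h]
  exact (P86.isCompact_dyc v _ _).image (continuous_id.update s.2 continuous_const)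

theorem sM_ae (v : V) (s : Idx × Fin 3) : ∀ᵐ x ∂(sM v s), x ∈ squ v s := by
  have hm : MeasurableSet (squ v s) := (isCompact_squ v s).measurableSet
  have h1 : ∀ᵐ x ∂((volume.restrict (dyc v s.1.1 s.1.2)).map (upd v s)), x ∈ squ v s := by
    refine (ae_map_iff (measurable_upd v s).aemeasurable hm).2 ?_
    filter_upwards [ae_restrict_mem (P86.isCompact_dyc v s.1.1 s.1.2).measurableSet] with x hx
    exact upd_mem hx
  exact Measure.ae_smul_measure h1 _

theorem sInt_congr_on {v : V} {s : Idx × Fin 3} {H H' : V → ℝ≥0∞}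
    (h : ∀ x ∈ squ v s, H x = H' x) : sInt v s H = sInt v s H' := by
  unfold sInt
  congr 1
  refine setLIntegral_congr_fun (P86.isCompact_dyc v _ _).measurableSet fun x hx => ?_
  exact h _ (upd_mem hx)

instance (v : V) (s : Idx × Fin 3) : SFinite (sM v s) := by
  unfold sM
  infer_instance

/-- a continuous map on the square is measurable for its surface measure -/
theorem aemeasurable_sM {v : V} {s : Idx × Fin 3} {f : V → V} (hf : ContinuousOn f (squ v s)) :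
    AEMeasurable f (sM v s) := by
  have h1 : (sM v s).restrict (squ v s) = sM v s :=
    Measure.restrict_eq_self_of_ae_mem (sM_ae v s)
  rw [← h1]
  exact hf.aemeasurable (isCompact_squ v s).measurableSet

variable {p θ M κ : ℝ} {m₁ n k₁ k₀ mt m' : ℕ} {Ω Λ : Set V} {g f : V → V} {v : V}
  {J : Finset (Fin 3 → ℤ)} {A : (Fin 3 → ℤ) → V → V} {L : (Fin 3 → ℤ) → V →L[ℝ] V}
  {G : V → ℝ≥0∞}

/-- the cubes of the outer layer do not meet the open good cells -/
theorem olay_disj {r : Idx} (hr : r ∈ olay v n k₁ k₀ J) {z : Fin 3 → ℤ} (hz : z ∈ J) :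
    Disjoint (dyc v r.1 r.2) (dyo v n z) := by
  obtain ⟨h1, -, h3⟩ := hr
  obtain ⟨u, hu⟩ := exists_tile (v := v) (N := n) (M' := r.1) (by omega) r.2
  rw [Set.disjoint_left]
  intro x hx hx'
  have : z = u := H194.same_cube hx' (hu hx)
  subst this
  exact h3 z hz hu

/-- `fs` is measurable on the divided cubes -/
theorem aemeasurable_fs2 (H : CellsG θ M κ m₁ n k₁ Ω Λ g v J A L)
    (hF : H669.Fine Ω v n k₁ k₀ J) (hf : ContinuousOn f Ω) :
    AEMeasurable (fs v n k₁ J A f) (volume.restrict (Ud Ω v n k₁ k₀ J)) := by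
  have hR : ∀ z ∈ J, MeasurableSet (boxR v n k₁ z) := fun z _ => isCompact_boxR.measurableSet
  have hRm : MeasurableSet (⋃ z ∈ J, boxR v n k₁ z) :=
    MeasurableSet.biUnion (Finset.countable_toSet J) fun z hz => hR z hz
  refine aemeasurable_piece (J := J) (v := v) (n := n) (k₁ := k₁) rfl ?_ ?_
  · intro z hz
    refine (H.continuous hz).measurable.aemeasurable.congr ?_
    filter_upwards [ae_restrict_mem (hR z hz)] with x hx
    exact (fs_in hz hx).symm
  · have h1 : AEMeasurable f (volume.restrict (Ud Ω v n k₁ k₀ J \ ⋃ z ∈ J, boxR v n k₁ z)) :=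
      (hf.mono (sdiff_subset.trans (Ud_sub hF))).aemeasurable
        (measurableSet_Ud.diff hRm)
    refine h1.congr ?_
    filter_upwards [ae_restrict_mem (measurableSet_Ud.diff hRm)] with x hx
    refine (fs_out fun z hz h => hx.2 (mem_biUnion hz h)).symm

/-- the centres, for two measures -/
theorem exists_ctrs_fam (H : CellsG θ M κ m₁ n k₁ Ω Λ g v J A L) (hp : 0 ≤ p) {r₁ : ℝ}
    (mt m' : ℕ)
    (hvol : ∀ m zz, IsTile (grho 0 v n k₁ m₁ mt m' J A Λ) 0 m zz →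
      volume ((⋃ z ∈ J, CellsG.Th v n k₁ A r₁ z) ∩
        closedBall (ctr 0 m zz) (1 / 2 / 2 ^ m / 2)) ≤
      volume (closedBall (ctr 0 m zz) (1 / 2 / 2 ^ m / 2)) / 2)
    {N : Set V} (hN : volume N = 0) (ν2 : Bool → Measure V) [∀ b, SFinite (ν2 b)]
    {g2 : Bool → V → V} (hg2 : ∀ b, AEMeasurable (g2 b) (ν2 b)) :
    ∃ c : ℕ → (Fin 3 → ℤ) → V, Mid (grho 0 v n k₁ m₁ mt m' J A Λ) c ∧
      (∀ m zz, IsTile (grho 0 v n k₁ m₁ mt m' J A Λ) 0 m zz → ∀ z ∈ J, ∀ x ∈ dyc v n z,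
        x ∉ boxR v n k₁ z → r₁ ≤ ‖c m zz - A z x‖) ∧
      (∀ m zz, IsTile (grho 0 v n k₁ m₁ mt m' J A Λ) 0 m zz → c m zz ∉ N) ∧
      ∀ b, ∫⁻ x, wgt (zo (grho 0 v n k₁ m₁ mt m' J A Λ) (gB H mt))
          (so (grho 0 v n k₁ m₁ mt m' J A Λ) (gB H mt))
          (co (grho 0 v n k₁ m₁ mt m' J A Λ) (gB H mt) c) (g2 b x) ^ p ∂(ν2 b) ≤
        CC2 p * ν2 b univ := by
  classical
  set ρ := grho 0 v n k₁ m₁ mt m' J A Λ with hρdef
  have hρ : SizeFn Λ ρ := sizeFn_grho 0 v n k₁ m₁ mt m' J A H.oΛ H.bΛ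
  obtain ⟨c, hc⟩ := exists_centres_of (w := 0) (mt := mt) (m' := m') hvol
    (p := p) (T := Bool) (X := fun _ => V) ν2 (g := g2) hg2 (N := N) hN
  refine ⟨c, fun m z ht => (hc m z ht).1, fun m zz ht => (hc m zz ht).2.2.1,
    fun m zz ht => (hc m zz ht).2.1, fun b => ?_⟩
  have hW := cubes_OT hρ (gB H mt)
  have hcount : Countable (OT ρ (gB H mt)) := inferInstance
  have hK : ∀ i : OT ρ (gB H mt), ∫⁻ x in g2 b ⁻¹' closedBall (zo ρ (gB H mt) i)
      (so ρ (gB H mt) i), wt p (so ρ (gB H mt) i) (g2 b x - co ρ (gB H mt) c i) ∂(ν2 b) ≤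
        (8 * Cw p) * ν2 b (g2 b ⁻¹' closedBall (zo ρ (gB H mt) i) (so ρ (gB H mt) i)) := by
    intro i
    have h1 := (hc i.1.1.1 i.1.1.2 i.1.2).2.2.2 b
    have h2 : closedBall (zo ρ (gB H mt) i) (so ρ (gB H mt) i) = dyc 0 i.1.1.1 i.1.1.2 :=
      H471.cB_eq i.1
    rw [h2]
    have h3 : 4 * (Fintype.card Bool : ℝ≥0∞) * (Cw p * ν2 b (g2 b ⁻¹' dyc 0 i.1.1.1 i.1.1.2)) =
        8 * Cw p * ν2 b (g2 b ⁻¹' dyc 0 i.1.1.1 i.1.1.2) := by
      simp only [Fintype.card_bool, Nat.cast_ofNat]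
      rw [show (4:ℝ≥0∞) * 2 = 8 by norm_num, mul_assoc]
    rw [← h3]
    exact h1
  exact H471.lintegral_wgt_le' hW hp (ν2 b) (hg2 b) hK

/-- the outer squares of a cube of the outer layer -/
abbrev OSq (Ω : Set V) (v : V) (n k₁ k₀ : ℕ) (J : Finset (Fin 3 → ℤ)) (i : Idx) : Type :=
  {s : Idx × Fin 3 // MinSq v (base Ω v n k₁ k₀ J) s ∧ squ v s ⊆ dyc v i.1 i.2 ∧
    ∃ r ∈ base Ω v n k₁ k₀ J \ kept v n k₁ k₀ J, squ v s ⊆ dyc v r.1 r.2}

/-- **[E7]** the centres -/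
theorem exists_ctrs_pe {nn : ℕ → ℕ} {a₁ : ℝ} (H : CellsG θ M κ m₁ n k₁ Ω Λ g v J A L)
    (hloc : LocJ v n m₁ J A) (hF : H669.Fine Ω v n k₁ k₀ J) (hΛ : IsOpen Λ)
    (hf : St.IsHomeo Ω Λ f) (hnn : StrictMono nn)
    (haff : ∀ z x y, A z y - A z x = L z (y - x)) (hp : 0 ≤ p) (hp3 : p < 3) (hm₁ : 2 ≤ m₁)
    (ha0 : 0 ≤ a₁) (ha1 : a₁ ≤ 1 / 288000) (hk : 288000 * (M / 2 ^ (n + k₁)) ≤ 1 / 2 ^ m₁)
    (hG : Measurable G) (hfin : ∫⁻ x, G x ≠ ⊤) (hGB : GenB v nn G) (hB1 : ∀ k, GenB v nn (Bk k))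
    (hpl : ∀ᵐ c : V, ∀ x ∈ Ω, f x = c → ∀ m, x ∈ dyo v m (H194.idx v m x)) (mt m' : ℕ) :
    ∃ c : ℕ → (Fin 3 → ℤ) → V, Mid (grho 0 v n k₁ m₁ mt m' J A Λ) c ∧
      (∀ m zz, IsTile (grho 0 v n k₁ m₁ mt m' J A Λ) 0 m zz → ∀ z ∈ J, ∀ x ∈ dyc v n z,
        x ∉ boxR v n k₁ z → a₁ / 2 ^ m₁ ≤ ‖c m zz - A z x‖) ∧
      (∀ m zz, IsTile (grho 0 v n k₁ m₁ mt m' J A Λ) 0 m zz →
        GoodC p Ω f G v nn J A (c m zz)) ∧
      ∫⁻ x in ⋃ q ∈ base Ω v n k₁ k₀ J \ (lay v n k₁ k₀ J ∪ gap v n k₁ J), dyc v q.1 q.2,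
        wH p (zo (grho 0 v n k₁ m₁ mt m' J A Λ) (gB H mt))
          (so (grho 0 v n k₁ m₁ mt m' J A Λ) (gB H mt))
          (co (grho 0 v n k₁ m₁ mt m' J A Λ) (gB H mt) c) (fs v n k₁ J A f)
          (Gs p v n k₁ J A L (gB H mt) G) x ≤
        CC2 p * ((∫⁻ x in Ω \ ⋃ z ∈ J, dyc v n z, G x) + ENNReal.ofReal M ^ p *
          ∑ z ∈ J, volume (dyc v n z \ ⋃ b ∈ {b | b ∈ gB H mt ∧ b.1 = z}, b.cell A)) ∧
      ∑' i : {i : Idx // i ∈ olay v n k₁ k₀ J}, ∑' s : OSq Ω v n k₁ k₀ J i.1,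
        ENNReal.ofReal (1 / 2 ^ i.1.1) * sInt v s.1
          (wH p (zo (grho 0 v n k₁ m₁ mt m' J A Λ) (gB H mt))
            (so (grho 0 v n k₁ m₁ mt m' J A Λ) (gB H mt))
            (co (grho 0 v n k₁ m₁ mt m' J A Λ) (gB H mt) c) (fs v n k₁ J A f)
            (Gs p v n k₁ J A L (gB H mt) G)) ≤
        CC2 p * ∑' i : {i : Idx // i ∈ olay v n k₁ k₀ J}, ∑' s : OSq Ω v n k₁ k₀ J i.1,
          ENNReal.ofReal (1 / 2 ^ i.1.1) * sInt v s.1 G := by
  classical
  have hfc : ContinuousOn f Ω := hf.choose_spec.2.1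
  set ρ := grho 0 v n k₁ m₁ mt m' J A Λ with hρdef
  set U := Ud Ω v n k₁ k₀ J with hU
  set GG := Gs p v n k₁ J A L (gB H mt) G with hGG
  have hgm : AEMeasurable (fs v n k₁ J A f) (volume.restrict U) := aemeasurable_fs2 H hF hfc
  have hGm : AEMeasurable GG (volume.restrict U) := aemeasurable_Gs hG
  set ν : Measure V := (volume.restrict U).withDensity GG with hν
  have hgν : AEMeasurable (fs v n k₁ J A f) ν :=
    hgm.mono_ac (withDensity_absolutelyContinuous _ _)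
  -- the surface measure
  set W : Type := Σ i : {i : Idx // i ∈ olay v n k₁ k₀ J}, OSq Ω v n k₁ k₀ J i.1 with hW
  set ν' : Measure V := Measure.sum fun w : W =>
    ENNReal.ofReal (1 / 2 ^ w.1.1.1) • (sM v w.2.1).withDensity G with hν'
  have hsq : ∀ w : W, squ v w.2.1 ⊆ Ω := by
    rintro ⟨i, s, -, -, r, hr, h⟩
    exact h.trans (hF.part_base.sub r hr.1)
  have hfs : ∀ w : W, AEMeasurable f (sM v w.2.1) := fun w =>
    aemeasurable_sM (hfc.mono (hsq w))
  have hfν' : AEMeasurable f ν' := by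
    rw [hν', aemeasurable_sum_measure_iff]
    intro w
    exact ((hfs w).mono_ac (withDensity_absolutelyContinuous _ _)).smul_measure _
  let ν2 : Bool → Measure V := fun b => match b with
    | true => ν
    | false => ν'
  let g2 : Bool → V → V := fun b => match b with
    | true => fs v n k₁ J A f
    | false => f
  have : ∀ b, SFinite (ν2 b) := by
    rintro (_ | _)
    · exact (inferInstance : SFinite ν')
    · exact (inferInstance : SFinite ν)
  -- the volume of the thin sets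
  have hs : (0:ℝ) < 1 / 2 ^ m₁ := by positivity
  have e1 : a₁ / 2 ^ m₁ = a₁ * (1 / 2 ^ m₁) := by ring
  have h1 : a₁ / 2 ^ m₁ ≤ 1 / 288000 * (1 / 2 ^ m₁) := by
    rw [e1]
    gcongr
  have e2 : (1:ℝ) / 2 / 2 ^ m₁ = 1 / 2 * (1 / 2 ^ m₁) := by ring
  have hvol : ∀ m zz, IsTile (grho 0 v n k₁ m₁ mt m' J A Λ) 0 m zz →
      volume ((⋃ z ∈ J, CellsG.Th v n k₁ A (a₁ / 2 ^ m₁) z) ∩
        closedBall (ctr 0 m zz) (1 / 2 / 2 ^ m / 2)) ≤
      volume (closedBall (ctr 0 m zz) (1 / 2 / 2 ^ m / 2)) / 2 := fun m zz ht => by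
    refine volume_thin_le2 H hloc hm₁ (by positivity) ?_ ?_ ht
    · rw [e2]
      linarith
    · linarith
  -- good values
  have hinj : ∀ z ∈ J, Function.Injective (L z) := by
    intro z hz x y hxy
    have h1 := H.below z hz (x - y)
    rw [map_sub, hxy, sub_self, norm_zero] at h1
    have h2 : ‖x - y‖ ≤ 0 := by
      by_contra hcon
      have := mul_pos H.θ0 (not_le.1 hcon)
      linarith
    exact sub_eq_zero.1 (norm_le_zero_iff.1 h2)
  have hgood : ∀ᵐ c : V, GoodC p Ω f G v nn J A c :=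
    ae_goodC hp3 H.oΩ hΛ hf hG hfin hnn hGB hB1 hpl haff hinj
  obtain ⟨c, hc1, hc2, hc3, hc4⟩ := exists_ctrs_fam H hp mt m' hvol
    (N := {c | ¬ GoodC p Ω f G v nn J A c}) (ae_iff.1 hgood) ν2 (g2 := g2) (by
      rintro (_ | _)
      · exact hfν'
      · exact hgν)
  refine ⟨c, hc1, hc2, fun m zz ht => by simpa using hc3 m zz ht, ?_, ?_⟩
  · have h4 := hc4 true
    have hwm : AEMeasurable (fun x => wgt (zo ρ (gB H mt)) (so ρ (gB H mt))
        (co ρ (gB H mt) c) (fs v n k₁ J A f x) ^ p) (volume.restrict U) :=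
      ((measurable_wgt _ _ _).comp_aemeasurable hgm).pow_const p
    have h5 : ∫⁻ x, wgt (zo ρ (gB H mt)) (so ρ (gB H mt)) (co ρ (gB H mt) c)
        (fs v n k₁ J A f x) ^ p ∂ν =
        ∫⁻ x in U, wH p (zo ρ (gB H mt)) (so ρ (gB H mt)) (co ρ (gB H mt) c)
          (fs v n k₁ J A f) GG x := by
      rw [hν, lintegral_withDensity_eq_lintegral_mul₀ hGm hwm]
      refine lintegral_congr fun x => ?_
      simp only [Pi.mul_apply, wH]
      rw [mul_comm]
    have h6 : ν univ = ∫⁻ x in U, GG x := by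
      rw [hν, withDensity_apply _ MeasurableSet.univ, Measure.restrict_univ]
    have h7 : ∫⁻ x, wgt (zo ρ (gB H mt)) (so ρ (gB H mt)) (co ρ (gB H mt) c)
        (fs v n k₁ J A f x) ^ p ∂ν ≤ CC2 p * ν univ := h4
    rw [h5, h6] at h7
    refine h7.trans ?_
    gcongr
    refine (lintegral_Gs_le H hF hp).trans ?_
    gcongr with z hz
    exact (H333.boxR_sub_dyo _ _ _ _).trans P86.dyo_sub_dyc
  · have h4 : ∫⁻ x, wgt (zo ρ (gB H mt)) (so ρ (gB H mt)) (co ρ (gB H mt) c)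
        (f x) ^ p ∂ν' ≤ CC2 p * ν' univ := hc4 false
    have h5 : ∀ w : W, ∫⁻ x, wgt (zo ρ (gB H mt)) (so ρ (gB H mt)) (co ρ (gB H mt) c)
        (f x) ^ p ∂((sM v w.2.1).withDensity G) = sInt v w.2.1
          (wH p (zo ρ (gB H mt)) (so ρ (gB H mt)) (co ρ (gB H mt) c) (fs v n k₁ J A f) GG) := by
      intro w
      have hwm : AEMeasurable (fun x => wgt (zo ρ (gB H mt)) (so ρ (gB H mt))
          (co ρ (gB H mt) c) (f x) ^ p) (sM v w.2.1) :=
        ((measurable_wgt _ _ _).comp_aemeasurable (hfs w)).pow_const p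
      rw [lintegral_withDensity_eq_lintegral_mul₀ hG.aemeasurable hwm,
        lintegral_sM (hG.aemeasurable.mul hwm)]
      refine sInt_congr_on fun x hx => ?_
      have hout : ∀ z ∈ J, x ∉ boxR v n k₁ z := by
        intro z hz hxz
        exact Set.disjoint_left.1 (olay_disj w.1.2 hz) (w.2.2.2.1 hx)
          (H333.boxR_sub_dyo _ _ _ _ hxz)
      simp only [Pi.mul_apply, wH]
      rw [hGG, Gs_out hout, fs_out hout, mul_comm]
    have h6 : ∀ w : W, ((sM v w.2.1).withDensity G) univ = sInt v w.2.1 G := by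
      intro w
      rw [withDensity_apply _ MeasurableSet.univ, Measure.restrict_univ,
        lintegral_sM hG.aemeasurable]
    rw [hν', lintegral_sum_measure, Measure.sum_apply _ MeasurableSet.univ] at h4
    simp only [lintegral_smul_measure, Measure.smul_apply, smul_eq_mul, h5, h6] at h4
    rw [ENNReal.tsum_sigma', ENNReal.tsum_sigma'] at h4
    exact h4

/-- **[E7]**, the literal form -/
theorem specCtrs2 {p : ℝ} (hp : 0 ≤ p) (hp3 : p < 3) : H340.SpecCtrs2 p := by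
  refine ⟨CC2 p, CC2_ne_top hp hp3, ?_⟩
  intro θ M κ' a₁ m₁ n k₁ k₀ mt m' Ω Λ g f G v nn J A L H _ hΛ hf hnn hloc hF haff hm2 ha0 ha1 hk
    hG hfin hGB hB1 hpl
  exact exists_ctrs_pe H hloc hF hΛ.1 hf hnn haff hp hp3 hm2 ha0.le ha1 hk hG hfin hGB hB1 hpl
    mt m'

end Vale.Agent.P073.H989
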