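import Vale.Agent.P073.H726.LusinN
import Vale.Agent.P073.H31.Diff
import Vale.Agent.P073.Net.Defs
import Vale.Agent.P073.HB.Haj3

/-!
# P073, block B06: the good points of a Sobolev homeomorphism, exponent at least three
-/

namespace Vale.Agent.P073.H989

open MeasureTheory Set Filter Topology Metric Vale.Agent.P073.St
open Vale.Agent.P073.AB (cl)
open Vale.Agent.P073.PK (IsSob.memLp_cl IsSob.aesm IsSob.lintegral_ne_top)
open P073.Net (dyc dyo)
open scoped ENNReal NNReal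

variable {p : ℝ} {Ω Λ : Set V} {f : V → V} {F : V → Mat}

/-- a.e. point is an `L^p` Lebesgue point, for all small radii -/
theorem ae_leb {E X : Type*} [NormedAddCommGroup E] [NormedSpace ℝ E]
    [FiniteDimensional ℝ E] [MeasurableSpace E] [BorelSpace E] {μ : Measure E}
    [μ.IsAddHaarMeasure] [NormedAddCommGroup X] [SecondCountableTopology X] [MeasurableSpace X]
    [BorelSpace X] {G : E → X} {Ω : Set E} (hΩ : IsOpen Ω) (hμΩ : μ Ω ≠ ⊤)
    (hG : AEMeasurable G (μ.restrict Ω)) {p : ℝ} (hp : 1 ≤ p)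
    (hGp : ∫⁻ z in Ω, ‖G z‖ₑ ^ p ∂μ ≠ ⊤) :
    ∀ᵐ x ∂μ, x ∈ Ω → ∀ η : ℝ≥0∞, η ≠ 0 → ∃ δ > 0, ball x δ ⊆ Ω ∧ ∀ r, 0 < r → r ≤ δ →
      ∫⁻ z in ball x r, ‖G z - G x‖ₑ ^ p ∂μ ≤ η * μ (ball x r) := by
  have h := fun n : ℕ => HB.exists_uniform_lebesgue (μ := μ) hΩ hμΩ hG hp hGp
    hΩ.measurableSet Subset.rfl (ε := ((n : ℝ≥0∞) + 1)⁻¹) (by
      refine ENNReal.inv_ne_zero.2 ?_
      finiteness)
  choose T hTΩ hTc hTμ _ hT using h
  have hN : μ (Ω \ ⋃ n, T n) = 0 := by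
    refine le_antisymm (ENNReal.le_of_forall_pos_le_add fun ε hε _ => ?_) zero_le
    obtain ⟨n, hn⟩ := ENNReal.exists_inv_nat_lt (a := (ε : ℝ≥0∞)) (by
      exact_mod_cast hε.ne')
    rw [zero_add]
    refine (measure_mono (sdiff_subset_sdiff_right (subset_iUnion T n))).trans
      ((hTμ n).le.trans (le_trans ?_ hn.le))
    exact ENNReal.inv_le_inv.2 le_self_add
  filter_upwards [measure_eq_zero_iff_ae_notMem.1 hN] with x hx hxΩ η hη
  have hx' : x ∈ ⋃ n, T n := by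
    by_contra h1
    exact hx ⟨hxΩ, h1⟩
  obtain ⟨n, hn⟩ := mem_iUnion.1 hx'
  obtain ⟨δ, hδ, h1, h2⟩ := hT n η hη
  exact ⟨δ, hδ, h1 x hn, h2 x hn⟩

/-- the good points of a Sobolev homeomorphism: full rank, differentiability in the classical
sense, Lebesgue point of the derivative in `L^p` -/
structure GoodPt (p : ℝ) (Ω : Set V) (f : V → V) (F : V → Mat) (x : V) : Prop where
  mem : x ∈ Ω
  der : HasFDerivAt f (cl (F x)) x
  inv : NonSing (F x)
  leb : ∀ η : ℝ≥0∞, η ≠ 0 → ∃ δ > 0, ball x δ ⊆ Ω ∧ ∀ r, 0 < r → r ≤ δ →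
    ∫⁻ z in ball x r, ‖cl (F z) - cl (F x)‖ₑ ^ p ≤ η * volume (ball x r)

theorem GoodPt.det_ne {x : V} (h : GoodPt p Ω f F x) : (cl (F x)).det ≠ 0 := fun h0 =>
  (H726.det_cl_eq_zero_iff _).1 h0 h.inv

/-- almost every point of full rank is good, `p > 2` -/
theorem ae_goodPt (hp : 2 < p) (hΩ : IsOpen Ω) (hv : volume Ω ≠ ⊤) (hΛ : IsOpen Λ)
    (hf : St.IsHomeo Ω Λ f) (hF : St.IsSobolev p Ω f F) :
    ∀ᵐ x ∂(volume : Measure V), x ∈ Ω → NonSing (F x) → GoodPt p Ω f F x := by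
  have hp1 : 1 ≤ p := by linarith
  filter_upwards [H31.ae_hasFDerivAt_of_isSobolev hp hΩ hv hΛ hf hF,
    ae_leb (μ := (volume : Measure V)) (G := fun x => cl (F x)) hΩ hv
    (IsSob.aesm hF).aemeasurable hp1 (IsSob.lintegral_ne_top hp1 hF)] with x h1 h2 hx hn
  exact ⟨hx, h1 hx, hn, h2 hx⟩

/-- `{x ∈ Ω | F x is invertible}` is null-measurable -/
theorem nullMeasurableSet_nonSing (hΩ : IsOpen Ω) (hF : St.IsSobolev p Ω f F) :
    NullMeasurableSet {x | x ∈ Ω ∧ NonSing (F x)} (volume : Measure V) := by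
  have h1 : AEMeasurable (fun x => (cl (F x)).det) (volume.restrict Ω) :=
    ContinuousLinearMap.continuous_det.measurable.comp_aemeasurable
      (IsSob.aesm hF).aemeasurable
  obtain ⟨g, hg, hfg⟩ := h1
  have h2 : MeasurableSet ({x | g x = 0}ᶜ ∩ Ω) :=
    (hg (measurableSet_singleton (0 : ℝ))).compl.inter hΩ.measurableSet
  refine h2.nullMeasurableSet.congr ?_
  have h3 := (ae_restrict_iff' hΩ.measurableSet).1 hfg
  filter_upwards [h3] with x hx
  have key : x ∈ Ω → (g x ≠ 0 ↔ NonSing (F x)) := by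
    intro hxΩ
    rw [← hx hxΩ, Ne, H726.det_cl_eq_zero_iff, not_not]
  refine propext ⟨fun h => ⟨h.2, (key h.2).1 h.1⟩, fun h => ⟨(key h.1).2 h.2, h.1⟩⟩

/-- **The good set**, with an additional property `Q` valid almost everywhere. -/
theorem exists_good_of (hp : 3 ≤ p) (hΩ : IsOpen Ω) (hv : volume Ω ≠ ⊤) (hΛ : IsOpen Λ)
    (hf : St.IsHomeo Ω Λ f) (hF : St.IsSobolev p Ω f F) {Q : V → Prop}
    (hQ : ∀ᵐ x ∂(volume : Measure V), x ∈ Ω → NonSing (F x) → Q x) :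
    ∃ G : Set V, MeasurableSet G ∧ (∀ x ∈ G, GoodPt p Ω f F x ∧ Q x) ∧
      volume ({x | x ∈ Ω ∧ NonSing (F x)} \ G) = 0 ∧ volume (f '' (Ω \ G)) = 0 ∧
      ∀ B : Set V, volume B = 0 → volume (G ∩ f ⁻¹' B) = 0 := by
  obtain ⟨S, hSs, hSm, hSe⟩ := (nullMeasurableSet_nonSing hΩ hF).exists_measurable_subset_ae_eq
  have hae : ∀ᵐ x ∂(volume : Measure V), x ∈ Ω → NonSing (F x) → GoodPt p Ω f F x ∧ Q x := by
    filter_upwards [ae_goodPt (by linarith) hΩ hv hΛ hf hF, hQ] with x h1 h2 h3 h4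
    exact ⟨h1 h3 h4, h2 h3 h4⟩
  have hbad : volume {x | ¬ (x ∈ Ω → NonSing (F x) → GoodPt p Ω f F x ∧ Q x)} = 0 := ae_iff.1 hae
  obtain ⟨N, hNs, hNm, hN0⟩ := exists_measurable_superset_of_null hbad
  have hS0 : volume ({x | x ∈ Ω ∧ NonSing (F x)} \ S) = 0 := (ae_le_set.1 hSe.symm.le)
  have hgood : ∀ x ∈ S \ N, GoodPt p Ω f F x ∧ Q x := by
    intro x hx
    by_contra h
    have h1 := hSs hx.1
    exact hx.2 (hNs fun h2 => h (h2 h1.1 h1.2))
  have hcomp : volume ({x | x ∈ Ω ∧ NonSing (F x)} \ (S \ N)) = 0 := by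
    refine measure_mono_null (t := ({x | x ∈ Ω ∧ NonSing (F x)} \ S) ∪ N) ?_
      (measure_union_null hS0 hN0)
    rintro x ⟨h1, h2⟩
    by_cases h3 : x ∈ S
    · right
      by_contra h4
      exact h2 ⟨h3, h4⟩
    · exact Or.inl ⟨h1, h3⟩
  have hinj : InjOn f Ω := by
    obtain ⟨h, hinv, -, -⟩ := hf
    intro x hx y hy hxy
    rw [← (hinv.1 x hx).2, ← (hinv.1 y hy).2, hxy]
  refine ⟨S \ N, hSm.diff hNm, hgood, hcomp, ?_, ?_⟩
  · have h1 : Ω \ (S \ N) ⊆ {x | x ∈ Ω ∧ ¬ NonSing (F x)} ∪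
        ({x | x ∈ Ω ∧ NonSing (F x)} \ (S \ N)) := by
      rintro x ⟨h1, h2⟩
      by_cases h3 : NonSing (F x)
      · exact Or.inr ⟨⟨h1, h3⟩, h2⟩
      · exact Or.inl ⟨h1, h3⟩
    refine measure_mono_null (image_mono h1) ?_
    rw [image_union]
    refine measure_union_null (H726.image_degenerate hp hΩ hv hΛ hf hF) ?_
    exact H726.lusinN hp hΩ hv hΛ hf hF (fun x hx => hx.1.1) hcomp
  · intro B hB
    obtain ⟨B', hBB', hBm, hB0⟩ := exists_measurable_superset_of_null hB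
    have hGΩ : S \ N ⊆ Ω := fun x hx => (hgood x hx).1.mem
    have hfc : ContinuousOn f Ω := by
      obtain ⟨h, -, h1, -⟩ := hf
      exact h1
    have hmeas : MeasurableSet (Ω ∩ f ⁻¹' B') := by
      have := (continuousOn_iff_continuous_domRestrict.1 hfc).measurable hBm
      have h2 := hΩ.measurableSet.subtype_image this
      convert h2 using 1
      ext x
      simp [Set.domRestrict, and_comm]
    set s := (S \ N) ∩ (Ω ∩ f ⁻¹' B') with hs
    have hsm : MeasurableSet s := (hSm.diff hNm).inter hmeas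
    have h1 := lintegral_abs_det_fderiv_eq_addHaar_image (volume : Measure V) hsm
      (f := f) (f' := fun x => cl (F x)) (fun x hx => (hgood x hx.1).1.der.hasFDerivWithinAt)
      (hinj.mono fun x hx => hGΩ hx.1)
    have h2 : volume (f '' s) = 0 := by
      refine measure_mono_null ?_ hB0
      rintro _ ⟨x, hx, rfl⟩
      exact hx.2.2
    rw [h2, lintegral_eq_zero_iff' ?_] at h1
    · have h3 : volume s = 0 := by
        have h4 := (ae_restrict_iff' hsm).1 h1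
        refine measure_mono_null ?_ (ae_iff.1 h4)
        intro x hx h5
        have h6 := h5 hx
        simp only [Pi.zero_apply, ENNReal.ofReal_eq_zero] at h6
        exact (hgood x hx.1).1.det_ne (abs_nonpos_iff.1 h6)
      refine measure_mono_null ?_ h3
      rintro x ⟨hx, hxB⟩
      exact ⟨hx, hGΩ hx, hBB' hxB⟩
    · have h4 : AEMeasurable (fun x => (cl (F x)).det) (volume.restrict Ω) :=
        ContinuousLinearMap.continuous_det.measurable.comp_aemeasurable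
          (IsSob.aesm hF).aemeasurable
      have h5 : AEMeasurable (fun x => (cl (F x)).det) (volume.restrict s) :=
        h4.mono_measure (Measure.restrict_mono (fun x hx => hGΩ hx.1) le_rfl)
      exact h5.abs.ennreal_ofReal

/-- **The good set.** -/
theorem exists_good (hp : 3 ≤ p) (hΩ : IsOpen Ω) (hv : volume Ω ≠ ⊤) (hΛ : IsOpen Λ)
    (hf : St.IsHomeo Ω Λ f) (hF : St.IsSobolev p Ω f F) :
    ∃ G : Set V, MeasurableSet G ∧ (∀ x ∈ G, GoodPt p Ω f F x) ∧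
      volume ({x | x ∈ Ω ∧ NonSing (F x)} \ G) = 0 ∧ volume (f '' (Ω \ G)) = 0 ∧
      ∀ B : Set V, volume B = 0 → volume (G ∩ f ⁻¹' B) = 0 := by
  obtain ⟨G, h1, h2, h3⟩ := exists_good_of hp hΩ hv hΛ hf hF (Q := fun _ => True)
    (ae_of_all _ fun _ _ _ => trivial)
  exact ⟨G, h1, fun x hx => (h2 x hx).1, h3⟩

theorem dyc_subset_closedBall {v x : V} {m : ℕ} {z : Fin 3 → ℤ} (hx : x ∈ dyc v m z) :
    dyc v m z ⊆ closedBall x (1 / 2 ^ m) := by
  intro y hy
  rw [mem_closedBall, dist_pi_le_iff (by positivity)]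
  intro k
  have h1 := hx k
  have h2 := hy k
  have e : (z k + 1 : ℝ) / 2 ^ m = z k / 2 ^ m + 1 / 2 ^ m := by ring
  rw [e] at h1 h2
  rw [Real.dist_eq, abs_le]
  constructor <;> linarith [h1.1, h1.2, h2.1, h2.2]

theorem volume_dyc (v : V) (m : ℕ) (z : Fin 3 → ℤ) :
    volume (dyc v m z) = ENNReal.ofReal ((1 / 2 ^ m) ^ 3) := by
  have h1 : dyc v m z = Icc (fun k => v k + z k / 2 ^ m) (fun k => v k + (z k + 1) / 2 ^ m) := by
    ext x
    simp only [dyc, mem_ofPred_eq, mem_Icc, Pi.le_def]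
    exact ⟨fun h => ⟨fun k => (h k).1, fun k => (h k).2⟩, fun h k => ⟨h.1 k, h.2 k⟩⟩
  rw [h1, Real.volume_Icc_pi]
  have h2 : ∀ k : Fin 3, ENNReal.ofReal (v k + (z k + 1) / 2 ^ m - (v k + z k / 2 ^ m)) =
      ENNReal.ofReal (1 / 2 ^ m) := by
    intro k
    congr 1
    ring
  rw [Finset.prod_congr rfl fun k _ => h2 k, Finset.prod_const, Finset.card_univ,
    Fintype.card_fin, ENNReal.ofReal_pow (by positivity)]

/-- near a good point: all small dyadic cubes which contain it -/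
theorem GoodPt.exists_gen {x : V} (h : GoodPt p Ω f F x) {η : ℝ≥0∞} (hη : η ≠ 0) :
    ∃ M : ℕ, ∀ m, M ≤ m → ∀ (v : V) (z : Fin 3 → ℤ), x ∈ dyc v m z → dyc v m z ⊆ Ω ∧
      ∫⁻ y in dyc v m z, ‖cl (F y) - cl (F x)‖ₑ ^ p ≤ η * volume (dyc v m z) := by
  obtain ⟨δ, hδ, hb, hl⟩ := h.leb (η / 64) (by
    rw [Ne, ENNReal.div_eq_zero_iff, not_or]
    exact ⟨hη, by norm_num⟩)
  obtain ⟨M, hM⟩ := exists_pow_lt_of_lt_one (half_pos hδ) (show (1 / 2 : ℝ) < 1 by norm_num)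
  refine ⟨M, fun m hm v z hx => ?_⟩
  have h1 : (1 / 2 ^ m : ℝ) < δ / 2 := by
    refine lt_of_le_of_lt ?_ hM
    rw [one_div_pow]
    exact one_div_le_one_div_of_le (by positivity) (pow_le_pow_right₀ (by norm_num) hm)
  have hpos : (0 : ℝ) < 1 / 2 ^ m := by positivity
  have h2 : dyc v m z ⊆ ball x (2 * (1 / 2 ^ m)) :=
    (dyc_subset_closedBall hx).trans (closedBall_subset_ball (by linarith))
  refine ⟨h2.trans ((ball_subset_ball (by linarith)).trans hb), ?_⟩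
  refine (lintegral_mono_set h2).trans ((hl _ (by positivity) (by linarith)).trans ?_)
  rw [Real.volume_pi_ball x (by positivity), volume_dyc, Fintype.card_fin]
  have e1 : (2 * (2 * (1 / 2 ^ m)) : ℝ) ^ 3 = 64 * (1 / 2 ^ m) ^ 3 := by ring
  rw [e1, ENNReal.ofReal_mul (by norm_num), ← mul_assoc]
  gcongr
  rw [ENNReal.ofReal_ofNat, ENNReal.div_mul_cancel (by norm_num) (by norm_num)]

end Vale.Agent.P073.H989
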