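import Vale.Agent.P073.AB.Spec
import Mathlib.MeasureTheory.Function.ContinuousMapDense

/-!
# P073, block B06 (GENS), part A: edge sums over dyadic grids with variable origin
-/

namespace Vale.Agent.P073.H989

open MeasureTheory Set Filter Topology Metric Vale.Agent.P073.St
open Vale.Agent.P073.AB (edge eInt pt Idx)
open Vale.Agent.P073.SQ (ev)
open P073.Net (dyc dyo)
open scoped ENNReal NNReal

/-- the lower corner, relative to the origin -/
noncomputable def lc (m : ℕ) (z : Fin 3 → ℤ) : V := fun k => z k / 2 ^ m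

/-- the integral over one edge, in the unit parametrisation -/
noncomputable def sgI (m : ℕ) (z : Fin 3 → ℤ) (j : Fin 3) (g : V → ℝ≥0∞) (v : V) : ℝ≥0∞ :=
  ∫⁻ t in Ioc (0:ℝ) 1, g (v + lc m z + t • ((1 / 2 ^ m : ℝ) • ev j))

/-- the positions of the edges of generation `m` in the coarse cube `(m₀, z₀)` -/
noncomputable def zs (m₀ : ℕ) (z₀ : Fin 3 → ℤ) (m : ℕ) : Finset (Fin 3 → ℤ) :=
  Fintype.piFinset fun i => Finset.Icc (2 ^ (m - m₀) * z₀ i) (2 ^ (m - m₀) * (z₀ i + 1))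

/-- the sum over the edges -/
noncomputable def TS (m₀ : ℕ) (z₀ : Fin 3 → ℤ) (m : ℕ) (j : Fin 3) (g : V → ℝ≥0∞) (v : V) : ℝ≥0∞ :=
  ∑ z ∈ zs m₀ z₀ m, ENNReal.ofReal ((1 / 2 ^ m) ^ 3) * sgI m z j g v

theorem card_zs {m₀ m : ℕ} (z₀ : Fin 3 → ℤ) : (zs m₀ z₀ m).card = (2 ^ (m - m₀) + 1) ^ 3 := by
  unfold zs
  rw [Fintype.card_piFinset]
  have h1 : ∀ i, (Finset.Icc ((2:ℤ) ^ (m - m₀) * z₀ i) (2 ^ (m - m₀) * (z₀ i + 1))).card =
      2 ^ (m - m₀) + 1 := by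
    intro i
    rw [Int.card_Icc]
    have : (2:ℤ) ^ (m - m₀) * (z₀ i + 1) + 1 - 2 ^ (m - m₀) * z₀ i =
        ((2 ^ (m - m₀) + 1 : ℕ) : ℤ) := by
      push_cast; ring
    rw [this, Int.toNat_natCast]
  simp only [h1, Finset.prod_const, Finset.card_univ, Fintype.card_fin]

theorem card_zs_le {m₀ m : ℕ} (hm : m₀ ≤ m) (z₀ : Fin 3 → ℤ) :
    ((zs m₀ z₀ m).card : ℝ≥0∞) * ENNReal.ofReal ((1 / 2 ^ m) ^ 3) ≤
      ENNReal.ofReal (8 * (1 / 2 ^ m₀) ^ 3) := by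
  rw [card_zs, ← ENNReal.ofReal_natCast, ← ENNReal.ofReal_mul (by positivity)]
  refine ENNReal.ofReal_le_ofReal ?_
  obtain ⟨k, rfl⟩ := Nat.exists_eq_add_of_le hm
  have e : m₀ + k - m₀ = k := by omega
  rw [e]
  have h1 : (1:ℝ) ≤ 2 ^ k := one_le_pow₀ (by norm_num)
  push_cast
  calc ((2:ℝ) ^ k + 1) ^ 3 * (1 / 2 ^ (m₀ + k)) ^ 3
      ≤ (2 * 2 ^ k) ^ 3 * (1 / 2 ^ (m₀ + k)) ^ 3 := by gcongr; linarith
    _ = 8 * (1 / 2 ^ m₀) ^ 3 := by
        rw [pow_add]; field_simp; norm_num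

theorem lintegral_sgI_le {g : V → ℝ≥0∞} (hg : AEMeasurable g (volume : Measure V)) (m : ℕ)
    (z : Fin 3 → ℤ) (j : Fin 3) : ∫⁻ v, sgI m z j g v ≤ ∫⁻ y, g y := by
  have h := HB.lintegral_segAvg_le (μ := (volume : Measure V)) hg (B := univ) (T := univ)
    MeasurableSet.univ (lc m z) ((1 / 2 ^ m : ℝ) • ev j) (fun _ _ _ _ => mem_univ _)
  rw [Measure.restrict_univ] at h
  exact h

theorem aemeasurable_sgI {g : V → ℝ≥0∞} (hg : AEMeasurable g (volume : Measure V)) (m : ℕ)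
    (z : Fin 3 → ℤ) (j : Fin 3) : AEMeasurable (sgI m z j g) (volume : Measure V) :=
  HB.aemeasurable_segAvg hg _ _

theorem aemeasurable_TS {g : V → ℝ≥0∞} (hg : AEMeasurable g (volume : Measure V)) (m₀ : ℕ)
    (z₀ : Fin 3 → ℤ) (m : ℕ) (j : Fin 3) : AEMeasurable (TS m₀ z₀ m j g) (volume : Measure V) := by
  unfold TS
  exact Finset.aemeasurable_fun_sum _ fun z _ => (aemeasurable_sgI hg m z j).const_mul _

/-- (E1) -/
theorem lintegral_TS_le {g : V → ℝ≥0∞} (hg : AEMeasurable g (volume : Measure V)) {m₀ m : ℕ}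
    (hm : m₀ ≤ m) (z₀ : Fin 3 → ℤ) (j : Fin 3) :
    ∫⁻ v, TS m₀ z₀ m j g v ≤ ENNReal.ofReal (8 * (1 / 2 ^ m₀) ^ 3) * ∫⁻ y, g y := by
  unfold TS
  rw [lintegral_finsetSum' _ fun z _ => (aemeasurable_sgI hg m z j).const_mul _]
  calc ∑ z ∈ zs m₀ z₀ m, ∫⁻ v, ENNReal.ofReal ((1 / 2 ^ m) ^ 3) * sgI m z j g v
      ≤ ∑ z ∈ zs m₀ z₀ m, ENNReal.ofReal ((1 / 2 ^ m) ^ 3) * ∫⁻ y, g y := by
        refine Finset.sum_le_sum fun z _ => ?_
        rw [lintegral_const_mul' _ _ ENNReal.ofReal_ne_top]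
        exact mul_le_mul_right (lintegral_sgI_le hg m z j) _
    _ = ((zs m₀ z₀ m).card : ℝ≥0∞) * ENNReal.ofReal ((1 / 2 ^ m) ^ 3) * ∫⁻ y, g y := by
        rw [Finset.sum_const, nsmul_eq_mul, mul_assoc]
    _ ≤ _ := by
        gcongr
        exact card_zs_le hm z₀

theorem sgI_mono {g g' : V → ℝ≥0∞} (h : ∀ x, g x ≤ g' x) (m : ℕ) (z : Fin 3 → ℤ) (j : Fin 3)
    (v : V) : sgI m z j g v ≤ sgI m z j g' v := lintegral_mono fun _ => h _

theorem TS_mono {g g' : V → ℝ≥0∞} (h : ∀ x, g x ≤ g' x) (m₀ : ℕ) (z₀ : Fin 3 → ℤ) (m : ℕ)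
    (j : Fin 3) (v : V) : TS m₀ z₀ m j g v ≤ TS m₀ z₀ m j g' v := by
  unfold TS
  gcongr with z _
  exact sgI_mono h m z j v

theorem TS_add_le {g g' : V → ℝ≥0∞} (hg : Measurable g) (m₀ : ℕ) (z₀ : Fin 3 → ℤ)
    (m : ℕ) (j : Fin 3) (v : V) :
    TS m₀ z₀ m j (fun x => g x + g' x) v ≤ TS m₀ z₀ m j g v + TS m₀ z₀ m j g' v := by
  unfold TS
  rw [← Finset.sum_add_distrib]
  refine Finset.sum_le_sum fun z _ => ?_
  rw [← mul_add]
  gcongr
  unfold sgI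
  have hm : Measurable fun t : ℝ => g (v + lc m z + t • ((1 / 2 ^ m : ℝ) • ev j)) :=
    hg.comp (by fun_prop)
  rw [← lintegral_add_left hm]

/-! ### The cubes -/

theorem mem_dyc_iff {v : V} {m : ℕ} {z : Fin 3 → ℤ} {x : V} :
    x ∈ dyc v m z ↔ ∀ k, v k + z k / 2 ^ m ≤ x k ∧ x k ≤ v k + z k / 2 ^ m + 1 / 2 ^ m := by
  constructor
  · intro h k
    have := h k
    rw [add_div] at this
    exact ⟨this.1, by linarith [this.2]⟩
  · intro h k
    have := h k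
    rw [add_div]
    exact ⟨this.1, by linarith [this.2]⟩

theorem mem_dyo_iff {v : V} {m : ℕ} {z : Fin 3 → ℤ} {x : V} :
    x ∈ dyo v m z ↔ ∀ k, v k + z k / 2 ^ m < x k ∧ x k < v k + z k / 2 ^ m + 1 / 2 ^ m := by
  constructor
  · intro h k
    have := h k
    rw [add_div] at this
    exact ⟨this.1, by linarith [this.2]⟩
  · intro h k
    have := h k
    rw [add_div]
    exact ⟨this.1, by linarith [this.2]⟩

theorem isOpen_dyo' (v : V) (m : ℕ) (z : Fin 3 → ℤ) : IsOpen (dyo v m z) := by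
  have : dyo v m z = ⋂ k : Fin 3, {x : V | v k + z k / 2 ^ m < x k ∧
      x k < v k + (z k + 1) / 2 ^ m} := by
    ext x; simp [dyo]
  rw [this]
  refine isOpen_iInter_of_finite fun k => ?_
  exact (isOpen_lt continuous_const (continuous_apply k)).inter
    (isOpen_lt (continuous_apply k) continuous_const)

theorem dyo_disjoint (v : V) (m : ℕ) {z z' : Fin 3 → ℤ} (h : z ≠ z') :
    Disjoint (dyo v m z) (dyo v m z') := by
  obtain ⟨k, hk⟩ := Function.ne_iff.1 h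
  rw [Set.disjoint_left]
  intro x hx hx'
  have h1 := hx k
  have h2 := hx' k
  have hpos : (0:ℝ) < 2 ^ m := by positivity
  have h3 : (z k : ℝ) < z' k + 1 := by
    have : (z k : ℝ) / 2 ^ m < (z' k + 1) / 2 ^ m := by linarith [h1.1, h2.2]
    exact (div_lt_div_iff_of_pos_right hpos).1 this
  have h4 : (z' k : ℝ) < z k + 1 := by
    have : (z' k : ℝ) / 2 ^ m < (z k + 1) / 2 ^ m := by linarith [h2.1, h1.2]
    exact (div_lt_div_iff_of_pos_right hpos).1 this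
  have h5 : z k < z' k + 1 := by exact_mod_cast h3
  have h6 : z' k < z k + 1 := by exact_mod_cast h4
  omega

theorem volume_dyo' (v : V) (m : ℕ) (z : Fin 3 → ℤ) :
    volume (dyo v m z) = ENNReal.ofReal ((1 / 2 ^ m) ^ 3) := by
  have h1 : dyo v m z = Set.pi univ fun k => Ioo (v k + z k / 2 ^ m) (v k + (z k + 1) / 2 ^ m) := by
    ext x
    simp [dyo, Set.mem_pi]
  rw [h1, Real.volume_pi_Ioo]
  have h2 : ∀ k : Fin 3, ENNReal.ofReal (v k + (z k + 1) / 2 ^ m - (v k + z k / 2 ^ m)) =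
      ENNReal.ofReal (1 / 2 ^ m) := by
    intro k
    congr 1
    ring
  rw [Finset.prod_congr rfl fun k _ => h2 k, Finset.prod_const, Finset.card_univ,
    Fintype.card_fin, ENNReal.ofReal_pow (by positivity)]

/-- the coarse cube, enlarged on the upper side -/
def big (v : V) (m₀ : ℕ) (z₀ : Fin 3 → ℤ) (s : ℝ) : Set V :=
  {x | ∀ k, v k + z₀ k / 2 ^ m₀ ≤ x k ∧ x k ≤ v k + z₀ k / 2 ^ m₀ + (1 / 2 ^ m₀ + s)}

theorem big_eq (v : V) (m₀ : ℕ) (z₀ : Fin 3 → ℤ) (s : ℝ) : big v m₀ z₀ s =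
    Icc (fun k => v k + z₀ k / 2 ^ m₀) (fun k => v k + z₀ k / 2 ^ m₀ + (1 / 2 ^ m₀ + s)) := by
  ext x
  simp only [big, Set.mem_ofPred_eq, mem_Icc, Pi.le_def]
  exact ⟨fun h => ⟨fun k => (h k).1, fun k => (h k).2⟩, fun h k => ⟨h.1 k, h.2 k⟩⟩

theorem volume_big (v : V) (m₀ : ℕ) (z₀ : Fin 3 → ℤ) {s : ℝ} (hs : 0 ≤ s) :
    volume (big v m₀ z₀ s) = ENNReal.ofReal ((1 / 2 ^ m₀ + s) ^ 3) := by
  rw [big_eq, Real.volume_Icc_pi]
  have h2 : ∀ k : Fin 3, ENNReal.ofReal (v k + z₀ k / 2 ^ m₀ + (1 / 2 ^ m₀ + s) -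
      (v k + z₀ k / 2 ^ m₀)) = ENNReal.ofReal (1 / 2 ^ m₀ + s) := by
    intro k
    congr 1
    ring
  rw [Finset.prod_congr rfl fun k _ => h2 k, Finset.prod_const, Finset.card_univ,
    Fintype.card_fin, ENNReal.ofReal_pow (by positivity)]

theorem big_zero (v : V) (m₀ : ℕ) (z₀ : Fin 3 → ℤ) : big v m₀ z₀ 0 = dyc v m₀ z₀ := by
  ext x
  rw [mem_dyc_iff]
  simp [big]

theorem big_mono (v : V) (m₀ : ℕ) (z₀ : Fin 3 → ℤ) {s t : ℝ} (h : s ≤ t) :
    big v m₀ z₀ s ⊆ big v m₀ z₀ t := fun x hx k => ⟨(hx k).1, (hx k).2.trans (by linarith)⟩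

theorem measurableSet_big (v : V) (m₀ : ℕ) (z₀ : Fin 3 → ℤ) (s : ℝ) :
    MeasurableSet (big v m₀ z₀ s) := by
  rw [big_eq]; exact measurableSet_Icc

theorem dyo_subset_big (v : V) {m₀ m : ℕ} (hm : m₀ ≤ m) {z₀ z : Fin 3 → ℤ} (hz : z ∈ zs m₀ z₀ m) :
    dyo v m z ⊆ big v m₀ z₀ (1 / 2 ^ m) := by
  intro x hx k
  rw [mem_dyo_iff] at hx
  unfold zs at hz
  rw [Fintype.mem_piFinset] at hz
  have h1 := Finset.mem_Icc.1 (hz k)
  obtain ⟨i, rfl⟩ := Nat.exists_eq_add_of_le hm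
  rw [Nat.add_sub_cancel_left] at h1
  have h2 : ((2:ℝ) ^ i * z₀ k) ≤ z k := by exact_mod_cast h1.1
  have h3 : (z k : ℝ) ≤ 2 ^ i * (z₀ k + 1) := by exact_mod_cast h1.2
  have hp : (0:ℝ) < 2 ^ (m₀ + i) := by positivity
  have h4 : (z₀ k : ℝ) / 2 ^ m₀ ≤ z k / 2 ^ (m₀ + i) := by
    rw [div_le_div_iff₀ (by positivity) hp, pow_add]
    nlinarith [show (0:ℝ) < 2 ^ m₀ by positivity]
  have h5 : (z k : ℝ) / 2 ^ (m₀ + i) ≤ z₀ k / 2 ^ m₀ + 1 / 2 ^ m₀ := by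
    rw [← add_div, div_le_div_iff₀ hp (by positivity), pow_add]
    nlinarith [show (0:ℝ) < 2 ^ m₀ by positivity]
  have := hx k
  constructor <;> linarith [this.1, this.2]

theorem mem_of_edge (v : V) (m : ℕ) (z : Fin 3 → ℤ) (j : Fin 3) {t : ℝ} (h0 : 0 ≤ t) (h1 : t ≤ 1) :
    v + lc m z + t • ((1 / 2 ^ m : ℝ) • ev j) ∈ dyc v m z := by
  rw [mem_dyc_iff]
  intro k
  have hp : (0:ℝ) < 1 / 2 ^ m := by positivity
  have h2 : (v + lc m z + t • ((1 / 2 ^ m : ℝ) • ev j)) k =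
      v k + z k / 2 ^ m + t * ((1 / 2 ^ m : ℝ) * ev j k) := by
    simp [lc]
  rw [h2]
  have h3 : ev j k = if k = j then 1 else 0 := by
    unfold Vale.Agent.P073.SQ.ev
    rw [Pi.single_apply]
  rw [h3]
  split_ifs
  · constructor
    · have : 0 ≤ t * (1 / 2 ^ m * 1) := by positivity
      linarith
    · have : t * (1 / 2 ^ m * 1) ≤ 1 / 2 ^ m := by
        rw [mul_one]; exact mul_le_of_le_one_left hp.le h1
      linarith
  · constructor <;> simp only [mul_zero, add_zero] <;> linarith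

/-- the estimate of one edge by the cube -/
theorem edge_le {φ : V → ℝ} {m : ℕ} {ω : ℝ} (hω : 0 ≤ ω)
    (h : ∀ x y, ‖x - y‖ ≤ 1 / 2 ^ m → φ x ≤ φ y + ω) (z : Fin 3 → ℤ) (j : Fin 3) (v : V) :
    ENNReal.ofReal ((1 / 2 ^ m) ^ 3) * sgI m z j (fun x => ENNReal.ofReal (φ x)) v ≤
      (∫⁻ y in dyo v m z, ENNReal.ofReal (φ y)) + ENNReal.ofReal ((1 / 2 ^ m) ^ 3 * ω) := by
  set c := sgI m z j (fun x => ENNReal.ofReal (φ x)) v with hc
  have h1 : ∀ y ∈ dyo v m z, c ≤ ENNReal.ofReal (φ y) + ENNReal.ofReal ω := by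
    intro y hy
    have h2 : c ≤ ∫⁻ t in Ioc (0:ℝ) 1, (ENNReal.ofReal (φ y) + ENNReal.ofReal ω) := by
      rw [hc]
      refine setLIntegral_mono' measurableSet_Ioc fun t ht => ?_
      refine (ENNReal.ofReal_le_ofReal (h _ y ?_)).trans ENNReal.ofReal_add_le
      have h3 := mem_of_edge v m z j ht.1.le ht.2
      rw [mem_dyc_iff] at h3
      rw [mem_dyo_iff] at hy
      rw [pi_norm_le_iff_of_nonneg (by positivity)]
      intro k
      rw [Pi.sub_apply, Real.norm_eq_abs, abs_le]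
      constructor <;> linarith [(h3 k).1, (h3 k).2, (hy k).1, (hy k).2]
    refine h2.trans (le_of_eq ?_)
    rw [setLIntegral_const, Real.volume_Ioc]
    simp
  calc ENNReal.ofReal ((1 / 2 ^ m) ^ 3) * c = ∫⁻ _ in dyo v m z, c := by
        rw [setLIntegral_const, volume_dyo', mul_comm]
    _ ≤ ∫⁻ y in dyo v m z, (ENNReal.ofReal (φ y) + ENNReal.ofReal ω) :=
        setLIntegral_mono' (isOpen_dyo' v m z).measurableSet h1
    _ = _ := by
        rw [lintegral_add_right _ measurable_const, setLIntegral_const, volume_dyo',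
          ← ENNReal.ofReal_mul hω, mul_comm ω]

/-- (E2) -/
theorem TS_le_of_cont {φ : V → ℝ} {C : ℝ} (hC : ∀ x, φ x ≤ C) {m₀ m : ℕ}
    (hm : m₀ ≤ m) {ω : ℝ} (hω : 0 ≤ ω)
    (h : ∀ x y, ‖x - y‖ ≤ 1 / 2 ^ m → φ x ≤ φ y + ω) (z₀ : Fin 3 → ℤ) (j : Fin 3) (v : V) :
    TS m₀ z₀ m j (fun x => ENNReal.ofReal (φ x)) v ≤
      (∫⁻ y in dyc v m₀ z₀, ENNReal.ofReal (φ y)) +
        (ENNReal.ofReal (8 * (1 / 2 ^ m₀) ^ 3) * ENNReal.ofReal ω +
          ENNReal.ofReal C * ENNReal.ofReal ((1 / 2 ^ m₀ + 1 / 2 ^ m) ^ 3 - (1 / 2 ^ m₀) ^ 3)) := by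
  have hpm : (0:ℝ) < 1 / 2 ^ m := by positivity
  unfold TS
  calc ∑ z ∈ zs m₀ z₀ m, ENNReal.ofReal ((1 / 2 ^ m) ^ 3) *
        sgI m z j (fun x => ENNReal.ofReal (φ x)) v
      ≤ ∑ z ∈ zs m₀ z₀ m, ((∫⁻ y in dyo v m z, ENNReal.ofReal (φ y)) +
          ENNReal.ofReal ((1 / 2 ^ m) ^ 3 * ω)) :=
        Finset.sum_le_sum fun z _ => edge_le hω h z j v
    _ = (∑ z ∈ zs m₀ z₀ m, ∫⁻ y in dyo v m z, ENNReal.ofReal (φ y)) +
          ((zs m₀ z₀ m).card : ℝ≥0∞) * ENNReal.ofReal ((1 / 2 ^ m) ^ 3) * ENNReal.ofReal ω := by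
        rw [Finset.sum_add_distrib, Finset.sum_const, nsmul_eq_mul,
          ENNReal.ofReal_mul (by positivity), mul_assoc]
    _ ≤ (∫⁻ y in big v m₀ z₀ (1 / 2 ^ m), ENNReal.ofReal (φ y)) +
          ENNReal.ofReal (8 * (1 / 2 ^ m₀) ^ 3) * ENNReal.ofReal ω := by
        gcongr
        · rw [← lintegral_biUnion_finset (fun z _ z' _ hzz => dyo_disjoint v m hzz)
            (fun z _ => (isOpen_dyo' v m z).measurableSet)]
          exact lintegral_mono_set (iUnion₂_subset fun z hz => dyo_subset_big v hm hz)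
        · exact card_zs_le hm z₀
    _ ≤ ((∫⁻ y in dyc v m₀ z₀, ENNReal.ofReal (φ y)) +
          ENNReal.ofReal C * ENNReal.ofReal ((1 / 2 ^ m₀ + 1 / 2 ^ m) ^ 3 - (1 / 2 ^ m₀) ^ 3)) +
          ENNReal.ofReal (8 * (1 / 2 ^ m₀) ^ 3) * ENNReal.ofReal ω := by
        gcongr
        have hsub : big v m₀ z₀ 0 ⊆ big v m₀ z₀ (1 / 2 ^ m) := big_mono v m₀ z₀ hpm.le
        rw [← big_zero, ← union_sdiff_cancel hsub]
        refine (lintegral_union_le _ _ _).trans ?_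
        gcongr
        calc ∫⁻ y in big v m₀ z₀ (1 / 2 ^ m) \ big v m₀ z₀ 0, ENNReal.ofReal (φ y)
            ≤ ∫⁻ _ in big v m₀ z₀ (1 / 2 ^ m) \ big v m₀ z₀ 0, ENNReal.ofReal C :=
              lintegral_mono fun y => ENNReal.ofReal_le_ofReal (hC y)
          _ = _ := by
              rw [setLIntegral_const, measure_sdiff hsub
                (measurableSet_big _ _ _ _).nullMeasurableSet (by
                  rw [volume_big _ _ _ le_rfl]; exact ENNReal.ofReal_ne_top),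
                volume_big _ _ _ hpm.le, volume_big _ _ _ le_rfl, add_zero,
                ENNReal.ofReal_sub _ (by positivity)]
    _ = _ := by ring

/-- the integral over the moving cube -/
theorem lintegral_dyc_eq (g : V → ℝ≥0∞) (m₀ : ℕ) (z₀ : Fin 3 → ℤ) (v : V) :
    ∫⁻ y in dyc v m₀ z₀, g y = ∫⁻ y in dyc 0 m₀ z₀, g (v + y) := by
  rw [← big_zero, ← big_zero, ← lintegral_indicator (measurableSet_big _ _ _ _),
    ← lintegral_indicator (measurableSet_big _ _ _ _),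
    ← lintegral_add_left_eq_self (μ := (volume : Measure V)) _ v]
  refine lintegral_congr fun y => ?_
  by_cases hy : y ∈ big 0 m₀ z₀ 0
  · rw [indicator_of_mem hy, indicator_of_mem]
    intro k
    have := hy k
    simp only [Pi.zero_apply, Pi.add_apply] at this ⊢
    constructor <;> linarith [this.1, this.2]
  · rw [indicator_of_notMem hy, indicator_of_notMem]
    intro h
    refine hy fun k => ?_
    have := h k
    simp only [Pi.zero_apply, Pi.add_apply] at this ⊢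
    constructor <;> linarith [this.1, this.2]

theorem measurable_lintegral_dyc {g : V → ℝ≥0∞} (hg : Measurable g) (m₀ : ℕ) (z₀ : Fin 3 → ℤ) :
    Measurable fun v : V => ∫⁻ y in dyc v m₀ z₀, g y := by
  rw [show (fun v : V => ∫⁻ y in dyc v m₀ z₀, g y) = fun v => ∫⁻ y in dyc 0 m₀ z₀, g (v + y) from
    funext fun v => lintegral_dyc_eq g m₀ z₀ v]
  exact Measurable.lintegral_prod_right' (f := fun p : V × V => g (p.1 + p.2))
    (hg.comp (measurable_fst.add measurable_snd))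

/-- the average of the integral over the moving cube -/
theorem lintegral_dyc_le {g : V → ℝ≥0∞} (hg : Measurable g) (m₀ : ℕ) (z₀ : Fin 3 → ℤ) :
    ∫⁻ v, ∫⁻ y in dyc v m₀ z₀, g y ≤ ENNReal.ofReal ((1 / 2 ^ m₀) ^ 3) * ∫⁻ y, g y := by
  rw [lintegral_congr fun v => lintegral_dyc_eq g m₀ z₀ v, lintegral_lintegral_swap (by
    refine Measurable.aemeasurable ?_
    exact hg.comp (measurable_fst.add measurable_snd))]
  have h2 : ∀ y : V, ∫⁻ v : V, g (v + y) = ∫⁻ x, g x := fun y =>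
    lintegral_add_right_eq_self (μ := (volume : Measure V)) g y
  simp only [h2]
  rw [setLIntegral_const, ← big_zero, volume_big _ _ _ le_rfl, add_zero, mul_comm]

end Vale.Agent.P073.H989
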