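import Vale.Agent.P073.H989.P2Orig
import Vale.Agent.P073.H333.Gener

/-!
# P073, [PRE-2], [E9] (a) [ORIG]: one origin and one sequence for `Generic` and `Orig2`
-/

namespace Vale.Agent.P073.H989

open MeasureTheory Set Filter Topology Metric Vale.Agent.P073.St Vale.Agent.P073.AB
open Vale.Agent.P073.SQ (ev)
open _root_.P073.Net (dyc dyo)
open Vale.Agent.P073.H79 (EdgeLeb)
open Vale.Agent.P073.H194 (idx Gen GenPt sInt)
open Vale.Agent.P073.H83 (GenB)
open Vale.Agent.P073.H333 (Generic gen_comp genB_comp)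
open scoped ENNReal

theorem Generic.comp {p : ℝ} {Ω : Set V} {f : V → V} {F : V → Mat} {G : V → ℝ≥0∞}
    {nn : ℕ → ℕ} {v : V} (h : Generic p Ω f F G nn v) {φ : ℕ → ℕ} (hφ : StrictMono φ) :
    Generic p Ω f F G (fun l => nn (φ l)) v where
  rat := h.rat
  eleb := h.eleb.mono fun _ hx => hx.comp hφ
  plebs := h.plebs.mono fun _ hx => hx.comp hφ
  gen := gen_comp h.gen hφ
  genB := genB_comp h.genB hφ
  ball k := ⟨gen_comp (h.ball k).1 hφ, genB_comp (h.ball k).2 hφ⟩
  rep := h.rep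

/-- **[ORIG]** -/
theorem exists_generic2 {p : ℝ} (hp : 1 ≤ p) {Ω Λ : Set V} (hΩ : St.IsBoundedDomain Ω)
    {f : V → V} {F : V → Mat} (hf : St.IsHomeo Ω Λ f) (hF : St.IsSobolev p Ω f F)
    {P : V → Prop} (hP : ∀ᵐ v : V, P v) {T : Set V} (hT : MeasurableSet T)
    (hTv : volume T ≠ ⊤) :
    ∃ G : V → ℝ≥0∞, Measurable G ∧ ∫⁻ x, G x ≠ ⊤ ∧
      (∀ᵐ x, (Ω.indicator fun x => ‖cl (F x)‖ₑ ^ p) x = G x) ∧
      ∃ nn : ℕ → ℕ, StrictMono nn ∧ ∃ v : V, P v ∧ Generic p Ω f F G nn v ∧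
        Orig2 p Ω f F (fun _ : Unit => T) (fun _ : Unit => G) ∅ v nn := by
  have hp0 : 0 < p := by linarith
  have hv := PK.volume_ne_top_of_domain hΩ
  have hfc : ContinuousOn f Ω := by obtain ⟨g, -, h, -⟩ := hf; exact h
  set G₀ : V → ℝ≥0∞ := Ω.indicator fun x => ‖cl (F x)‖ₑ ^ p with hG₀
  have hm0 : AEMeasurable G₀ := by
    rw [hG₀, aemeasurable_indicator_iff hΩ.1.measurableSet]
    exact (PK.IsSob.aesm hF).enorm.pow_const p
  set G := hm0.mk G₀ with hG
  have hGm : Measurable G := hm0.measurable_mk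
  have hGG : ∀ᵐ x, G₀ x = G x := hm0.ae_eq_mk
  have hint : ∫⁻ x, G x ≠ ⊤ := by
    rw [← lintegral_congr_ae hGG, hG₀, lintegral_indicator hΩ.1.measurableSet]
    exact PK.IsSob.lintegral_ne_top hp hF
  refine ⟨G, hGm, hint, hGG, ?_⟩
  -- the countable family
  let H : Option ℕ → V → ℝ≥0∞ := fun o => match o with
    | none => G
    | some k => (closedBall (0:V) k).indicator fun _ => 1
  have hint1 : Integrable (Ω.indicator fun x => ‖cl (F x)‖ ^ p) := by
    rw [integrable_indicator_iff hΩ.1.measurableSet]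
    have h3 := (PK.IsSob.memLp_cl hF).integrable_norm_rpow (by simpa using hp0)
      ENNReal.ofReal_ne_top
    rwa [ENNReal.toReal_ofReal hp0.le] at h3
  obtain ⟨φ₁, hφ₁, h1⟩ := H79.exists_edge_leb hint1 (M₀ := id) strictMono_id
  obtain ⟨φ₂, hφ₂, h2⟩ := exists_origin2 (κ := Empty) hp hΩ hfc hF (fun _ : Unit => T)
    (fun _ => hT) (fun _ => hTv) H
    (by
      rintro (_ | k)
      · exact hGm.aemeasurable
      · exact (measurable_const.indicator measurableSet_closedBall).aemeasurable)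
    (by
      rintro (_ | k)
      · exact hint
      · show ∫⁻ x, (closedBall (0:V) k).indicator (fun _ => (1:ℝ≥0∞)) x ≠ ⊤
        rw [lintegral_indicator measurableSet_closedBall, setLIntegral_const, one_mul]
        exact (isCompact_closedBall (0:V) (k:ℝ)).measure_lt_top.ne)
    ∅ countable_empty (fun k => k.elim) (fun k => k.elim) (fun k => k.elim) hφ₁
  refine ⟨fun l => φ₁ (φ₂ l), hφ₁.comp hφ₂, ?_⟩
  have h5 := ae_restrict_of_ae (s := Icc (0:V) 1) (H83.ae_rep (N := {x | ¬ G₀ x = G x}) hGG)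
  have h6 := ae_restrict_of_ae (s := Icc (0:V) 1) hP
  have hpos : (volume.restrict (Icc (0:V) 1)) ≠ 0 := by
    rw [Ne, Measure.restrict_eq_zero]
    have : volume (Icc (0:V) 1) = 1 := by
      rw [Real.volume_Icc_pi]; simp
    rw [this]; exact one_ne_zero
  have : (ae (volume.restrict (Icc (0:V) 1))).NeBot := ae_neBot.2 hpos
  obtain ⟨v, h1, ⟨h2, -⟩, h5, h6⟩ := (h1.and (h2.and (h5.and h6))).exists
  refine ⟨v, h6, ?_, ?_⟩
  · refine ⟨h2.rat, h2.edge, ?_, h2.genH none, h2.genB none,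
      fun k => ⟨h2.genH (some k), h2.genB (some k)⟩, ?_⟩
    · filter_upwards [h1] with x hx
      exact hx.comp hφ₂
    · intro A A' hAA
      exact h5 A A' fun x hx => hAA x (by
        by_contra hcon
        exact hx hcon)
  · exact ⟨h2.rat, h2.edge, h2.squ, h2.vert, h2.gen, fun _ => h2.genH none,
      fun _ => h2.genB none, fun _ => h2.genPt none⟩

end Vale.Agent.P073.H989
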