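import Vale.Agent.P073.H79.EdgeLeb2

/-!
# P073, [P2g], [VERTEX-LEB]: the vertices around almost every point of a measurable set

For measurable sets `T i` of finite volume there is a sequence of generations along which, for a.e.
origin `v` and a.e. point `x ∈ T i`, all the lattice points of generation `n + j` in the dyadic cube
of generation `n` containing `x` are in `T i` (`n` in the sequence, large; `j` fixed).
-/

open Set Metric Topology Filter MeasureTheory
open scoped ENNReal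

namespace Vale.Agent.P073.H989

open Vale.Agent.P073.AB (Idx pt edge eInt)
open _root_.P073.Net (dyc dyo)
open Vale.Agent.P073.St (V)
open Vale.Agent.P073.H194 (idx)
open Vale.Agent.P073.H79 (Pt measurable_Pt norm_Pt_sub_le lintegral_aux exists_shiftE meas_diff box)

/-- **(VERTEX-LEB)** at the point `x` -/
def VertIn (v : V) (nn : ℕ → ℕ) (T : Set V) (x : V) : Prop :=
  ∀ j : ℕ, ∀ᶠ l in atTop, ∀ a : Fin 3 → ℤ,
    pt v (nn l + j) a ∈ dyc v (nn l) (idx v (nn l) x) → pt v (nn l + j) a ∈ T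

theorem VertIn.comp {v : V} {nn : ℕ → ℕ} {T : Set V} {x : V} (h : VertIn v nn T x)
    {φ : ℕ → ℕ} (hφ : StrictMono φ) : VertIn v (fun l => nn (φ l)) T x := fun j =>
  hφ.tendsto_atTop.eventually (h j)

variable {E : Type*} [NormedAddCommGroup E]

/-- the lattice point number `a` of generation `n + j`, relative to the cube which contains `y` -/
noncomputable def Pv (a : Fin 3 → ℤ) (j n : ℕ) (y : V) : V := Pt a 0 j n y 0

/-- the difference of the values at the lattice point number `a` and at `x` -/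
noncomputable def Kv (G : V → E) (a : Fin 3 → ℤ) (j n : ℕ) (p : V × V) : ℝ≥0∞ :=
  ‖G (p.1 + Pv a j n (p.2 - p.1)) - G p.2‖ₑ

theorem measurable_Pv (a : Fin 3 → ℤ) (j n : ℕ) : Measurable (Pv a j n) := by
  have hP := measurable_Pt a 0 j n
  show Measurable fun y : V => Pt a 0 j n y 0
  generalize Pt a 0 j n = P at hP ⊢
  have h1 : Measurable fun y : V => ((y, (0:ℝ)) : V × ℝ) := measurable_id.prodMk measurable_const
  exact hP.comp h1

theorem measurable_Kv {G : V → E} (hG : StronglyMeasurable G) (a : Fin 3 → ℤ)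
    (j n : ℕ) : Measurable (Kv G a j n) := by
  have hP := measurable_Pv a j n
  unfold Kv
  generalize Pv a j n = P at hP ⊢
  have h1 : Measurable fun q : V × V => q.1 + P (q.2 - q.1) :=
    measurable_fst.add (hP.comp (measurable_snd.sub measurable_fst))
  exact meas_diff hG h1 measurable_snd

theorem tendsto_Kv {G : V → E} (hG : StronglyMeasurable G) (hGi : Integrable G)
    (a : Fin 3 → ℤ) (j : ℕ) (R : ℕ) :
    Tendsto (fun n => ∫⁻ p, ((Prod.snd : V × V → V) ⁻¹' closedBall (0:V) (R:ℝ)).indicator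
      (Kv G a j n) p ∂((volume.restrict (Icc (0:V) 1)).prod (volume : Measure V)))
      atTop (𝓝 0) := by
  set c : ℝ≥0∞ := volume (closedBall (0:V) (R + 1 : ℝ)) with hc
  have hct : c ≠ ⊤ := by
    rw [hc]
    exact (isCompact_closedBall (0:V) (R + 1 : ℝ)).measure_ne_top
  rw [ENNReal.tendsto_nhds_zero]
  intro ε hε
  obtain ⟨η, hη0, hη⟩ : ∃ η : ℝ≥0∞, 0 < η ∧ η * c ≤ ε := by
    by_cases h : c = 0
    · exact ⟨1, one_pos, by rw [h, mul_zero]; exact zero_le⟩
    · refine ⟨ε / c, ENNReal.div_pos hε.ne' hct, ?_⟩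
      rw [ENNReal.div_mul_cancel h hct]
  obtain ⟨δ, hδ, hs⟩ := exists_shiftE hGi hη0
  have hlim : Tendsto (fun n : ℕ => (2 + ∑ i, |(a i : ℝ)|) / 2 ^ n) atTop (𝓝 0) := by
    have h4 : Tendsto (fun n : ℕ => (1 / 2 ^ n : ℝ)) atTop (𝓝 0) := by
      have := tendsto_pow_atTop_nhds_zero_of_lt_one (r := (1 / 2 : ℝ)) (by norm_num) (by norm_num)
      simpa [one_div_pow] using this
    have := h4.const_mul (2 + ∑ i, |(a i : ℝ)|)
    rw [mul_zero] at this
    refine this.congr fun n => by ring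
  filter_upwards [hlim.eventually_lt_const hδ] with n hn
  have hm : Measurable (((Prod.snd : V × V → V) ⁻¹' closedBall (0:V) (R:ℝ)).indicator
      (Kv G a j n)) :=
    (measurable_Kv hG a j n).indicator (measurableSet_closedBall.preimage measurable_snd)
  rw [lintegral_prod _ hm.aemeasurable]
  refine le_trans ?_ hη
  have h1 := lintegral_aux hG (P := fun y _ => Pv a j n y)
    ((measurable_Pv a j n).comp measurable_fst) hs
    (fun y t _ => (norm_Pt_sub_le a 0 j n y (t := 0) ⟨le_rfl, zero_le_one⟩).trans_lt hn) R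
  refine le_trans (le_of_eq ?_) h1
  refine lintegral_congr fun v => lintegral_congr fun x => ?_
  by_cases hx : x ∈ closedBall (0:V) (R:ℝ)
  · rw [indicator_of_mem (show (v, x) ∈ (Prod.snd : V × V → V) ⁻¹' closedBall (0:V) (R:ℝ) from hx),
      indicator_of_mem hx, setLIntegral_const, Real.volume_Icc, sub_zero, ENNReal.ofReal_one,
      mul_one]
    rfl
  · rw [indicator_of_notMem (show (v, x) ∉ (Prod.snd : V × V → V) ⁻¹' closedBall (0:V) (R:ℝ)
      from hx), indicator_of_notMem hx]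

theorem pt_eq_Pt (v x : V) (n j : ℕ) (a : Fin 3 → ℤ) :
    pt v (n + j) a = v + Pv (fun i => a i - 2 ^ j * idx v n x i) j n (x - v) := by
  funext i
  simp only [Pi.add_apply, pt, Pv, Pt, Pi.sub_apply, idx, zero_div, ite_self, add_zero]
  have hn : (0:ℝ) < 2 ^ n := by positivity
  have hj : (0:ℝ) < 2 ^ j := by positivity
  rw [pow_add]
  push_cast
  field_simp
  ring

theorem pt_sub_mem_box {v : V} {n j : ℕ} {z a : Fin 3 → ℤ} (h : pt v (n + j) a ∈ dyc v n z) :
    (fun i => a i - 2 ^ j * z i) ∈ box j := by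
  rw [box, Fintype.mem_piFinset]
  intro i
  rw [Finset.mem_Icc]
  have h1 : v i + (z i : ℝ) / 2 ^ n ≤ v i + (a i : ℝ) / 2 ^ (n + j) ∧
      v i + (a i : ℝ) / 2 ^ (n + j) ≤ v i + ((z i : ℝ) + 1) / 2 ^ n := h i
  rw [pow_add] at h1
  have hn : (0:ℝ) < 2 ^ n := by positivity
  have hj : (0:ℝ) < 2 ^ j := by positivity
  have h2 : (z i : ℝ) * 2 ^ j ≤ a i := by
    have h := (add_le_add_iff_left (v i)).1 h1.1
    rw [div_le_div_iff₀ hn (by positivity)] at h
    nlinarith
  have h3 : (a i : ℝ) ≤ (z i + 1) * 2 ^ j := by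
    have h := (add_le_add_iff_left (v i)).1 h1.2
    rw [div_le_div_iff₀ (by positivity) hn] at h
    nlinarith
  have h2' : z i * 2 ^ j ≤ a i := by exact_mod_cast h2
  have h3' : a i ≤ (z i + 1) * 2 ^ j := by exact_mod_cast h3
  constructor
  · linarith
  · linarith

/-- **(VERTEX-LEB)** -/
theorem exists_vertIn {ι : Type*} [Countable ι] (T : ι → Set V) (hT : ∀ i, MeasurableSet (T i))
    (hv : ∀ i, volume (T i) ≠ ⊤) {M₀ : ℕ → ℕ} (hM₀ : StrictMono M₀) :
    ∃ φ : ℕ → ℕ, StrictMono φ ∧ ∀ᵐ v ∂(volume.restrict (Icc (0:V) 1)), ∀ i, ∀ᵐ x : V, x ∈ T i →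
      VertIn v (fun l => M₀ (φ l)) (T i) x := by
  set G : ι → V → ℝ := fun i => (T i).indicator fun _ => 1 with hG
  have hGm : ∀ i, StronglyMeasurable (G i) := fun i =>
    stronglyMeasurable_const.indicator (hT i)
  have hGi : ∀ i, Integrable (G i) := fun i =>
    (integrable_indicator_iff (hT i)).2 (by
      rw [integrableOn_const_iff]
      exact Or.inr (hv i).lt_top)
  set μ : Measure (V × V) := (volume.restrict (Icc (0:V) 1)).prod volume with hμ
  set X : (ι × ℕ × (Fin 3 → ℤ) × ℕ) → ℕ → V × V → ℝ≥0∞ := fun τ n p =>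
    ((Prod.snd : V × V → V) ⁻¹' closedBall (0:V) (τ.2.1:ℝ)).indicator
      (Kv (G τ.1) τ.2.2.1 τ.2.2.2 n) p with hX
  obtain ⟨φ, hφ, hmain⟩ := H83.exists_generations' (μ := μ) X
    (fun τ n => ((measurable_Kv (hGm _) _ _ _).indicator
      (measurableSet_closedBall.preimage measurable_snd)).aemeasurable)
    (fun τ => tendsto_Kv (hGm _) (hGi _) τ.2.2.1 τ.2.2.2 τ.2.1) hM₀
  refine ⟨φ, hφ, ?_⟩
  have h1 := Measure.ae_ae_of_ae_prod hmain
  filter_upwards [h1] with v hv i
  filter_upwards [hv] with x hx hxT j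
  obtain ⟨R, hR⟩ := exists_nat_ge ‖x‖
  have hxR : x ∈ closedBall (0:V) (R:ℝ) := by rwa [mem_closedBall, dist_zero_right]
  have h3 : ∀ᶠ l in atTop, ∀ a ∈ box j, Kv (G i) a j (M₀ (φ l)) (v, x) < 1 := by
    rw [Filter.eventually_all_finset]
    intro a _
    have h4 := hx (i, R, a, j)
    simp only [hX] at h4
    have h5 : ∀ n, ((Prod.snd : V × V → V) ⁻¹' closedBall (0:V) ((R:ℝ))).indicator
        (Kv (G i) a j n) (v, x) = Kv (G i) a j n (v, x) := fun n =>
      indicator_of_mem (show (v, x) ∈ (Prod.snd : V × V → V) ⁻¹' closedBall (0:V) (R:ℝ) from hxR) _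
    simp only [h5] at h4
    exact h4.eventually (gt_mem_nhds one_pos)
  filter_upwards [h3] with l hl a ha
  have h6 := hl _ (pt_sub_mem_box ha)
  by_contra hcon
  unfold Kv at h6
  simp only at h6
  rw [← pt_eq_Pt] at h6
  have h7 : G i (pt v (M₀ (φ l) + j) a) = 0 := indicator_of_notMem hcon _
  have h8 : G i x = 1 := indicator_of_mem hxT _
  rw [h7, h8, zero_sub, enorm_neg, enorm_one] at h6
  exact lt_irrefl _ h6

end Vale.Agent.P073.H989
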