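import Vale.Agent.P073.H83.Gen
import Vale.Agent.P073.H83.AeRep
import Vale.Agent.P073.H194.Usc
import Vale.Agent.P073.H523.SquLeb
import Vale.Agent.P073.H989.VertLeb
import Vale.Agent.P073.PK.Sob560b

/-!
# P073, [P2g]: the origin for the exponent two (and every `p ≥ 1`)

One sequence of generations and almost every origin with: `RatGood`, (EDGE-LEB), (SQUARE-LEB),
(VERTEX-LEB) for countably many sets, and the Riemann sums `Gen`, `GenB`, `GenPt` for countably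
many functions and for all the functions `‖cl F - L‖ ^ p`.
-/

open Set Metric Topology Filter MeasureTheory
open scoped ENNReal

namespace Vale.Agent.P073.H989

open Vale.Agent.P073.AB (Idx pt edge eInt squ cl RatGood)
open _root_.P073.Net (dyc dyo)
open Vale.Agent.P073.St (V Mat)
open Vale.Agent.P073.SQ (ev)
open Vale.Agent.P073.H194 (idx sInt fSum cSum bInt Gen GenPt)
open Vale.Agent.P073.H83 (GenB)
open Vale.Agent.P073.H79 (EdgeLeb)
open Vale.Agent.P073.H523 (SquLeb)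

/-- for almost every origin the generic clauses do not depend on the representative -/
theorem ae_gen_congr {N : Set V} (hN : volume N = 0) : ∀ᵐ v : V, ∀ (nn : ℕ → ℕ)
    (A A' : V → ℝ≥0∞), (∀ x, x ∉ N → A x = A' x) →
    (Gen v nn A → Gen v nn A') ∧ (GenB v nn A → GenB v nn A') ∧
      ∀ x, GenPt v nn A x → GenPt v nn A' x := by
  filter_upwards [H83.ae_rep hN] with v hv nn A A' hA
  obtain ⟨he, hs⟩ := hv A A' hA
  have hf : ∀ s n k, fSum v s n k A = fSum v s n k A' := by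
    intro s n k
    unfold H194.fSum
    exact Finset.sum_congr rfl fun w _ => by rw [he]
  have hc : ∀ q n k, cSum v q n k A = cSum v q n k A' := by
    intro s n k
    unfold H194.cSum
    exact Finset.sum_congr rfl fun w _ => by rw [he]
  have hb : ∀ q, bInt v q A = bInt v q A' := by
    intro q
    unfold H194.bInt
    exact Finset.sum_congr rfl fun w _ => by rw [hs, hs]
  have hl : ∀ D : Set V, ∫⁻ x in D, A x = ∫⁻ x in D, A' x := by
    intro D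
    refine lintegral_congr_ae (ae_restrict_of_ae ?_)
    have : ∀ᵐ x ∂(volume : Measure V), x ∉ N := measure_eq_zero_iff_ae_notMem.1 hN
    filter_upwards [this] with x hx using hA x hx
  refine ⟨fun h => ⟨fun e => ?_, fun s => ?_, fun q k δ hδ => ?_, fun s k hk δ hδ => ?_⟩,
    fun h => ⟨fun e => ?_, fun s => ?_, fun s k hk δ hδ => ?_, fun q δ hδ => ?_⟩,
    fun x h => ⟨h.inside, ?_⟩⟩
  · rw [← he]; exact h.efin e
  · rw [← hs]; exact h.sfin s
  · simp only [← hc, ← hl]; exact h.cube q k δ hδ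
  · simp only [← hf, ← hs]; exact h.square s k hk δ hδ
  · rw [← he]; exact h.efin e
  · rw [← hs]; exact h.sfin s
  · simp only [← hf, ← hs]; exact h.square s k hk δ hδ
  · simp only [← hb, ← hl]; exact h.faces q δ hδ
  · simp only [← hb]; exact h.small

/-- **(GEN)** for almost everywhere measurable functions -/
theorem exists_gen_ae {ι κ : Type*} [Countable ι] [Countable κ] (H : ι → V → ℝ≥0∞) (X : Set V)
    (Y : κ → ℕ → V → ℝ≥0∞) (hH : ∀ i, AEMeasurable (H i)) (hfin : ∀ i, ∫⁻ x, H i x ≠ ⊤)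
    (hX : X.Countable) (hY : ∀ k n, AEMeasurable (Y k n) (volume.restrict (Icc 0 1)))
    (hY0 : ∀ k, Tendsto (fun n => ∫⁻ v in Icc (0 : V) 1, Y k n v) atTop (𝓝 0)) {M₀ : ℕ → ℕ}
    (hM₀ : StrictMono M₀) :
    ∃ φ : ℕ → ℕ, StrictMono φ ∧ ∀ᵐ v ∂(volume.restrict (Icc (0 : V) 1)),
      (∀ i, Gen v (fun l => M₀ (φ l)) (H i)) ∧ (∀ i, GenB v (fun l => M₀ (φ l)) (H i)) ∧
      (∀ i, ∀ x ∈ X, GenPt v (fun l => M₀ (φ l)) (H i) x) ∧
      ∀ k, Tendsto (fun l => Y k (M₀ (φ l)) v) atTop (𝓝 0) := by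
  set H' : ι → V → ℝ≥0∞ := fun i => (hH i).mk (H i) with hH'
  have hHm : ∀ i, Measurable (H' i) := fun i => (hH i).measurable_mk
  have hHH : ∀ i, H i =ᵐ[volume] H' i := fun i => (hH i).ae_eq_mk
  obtain ⟨φ, hφ, h⟩ := H83.exists_gen H' X Y hHm (fun i => by
    rw [← lintegral_congr_ae (hHH i)]
    exact hfin i) hX hY hY0 hM₀
  have h1 : ∀ᵐ v : V, ∀ i, ∀ (nn : ℕ → ℕ) (A A' : V → ℝ≥0∞),
      (∀ x, x ∉ {x | ¬ H i x = H' i x} → A x = A' x) →
      (Gen v nn A → Gen v nn A') ∧ (GenB v nn A → GenB v nn A') ∧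
        ∀ x, GenPt v nn A x → GenPt v nn A' x := by
    rw [ae_all_iff]
    exact fun i => ae_gen_congr (ae_iff.1 (hHH i))
  refine ⟨φ, hφ, ?_⟩
  filter_upwards [h, ae_restrict_of_ae h1] with v hv hv1
  obtain ⟨g1, g2, g3, g4⟩ := hv
  have hc : ∀ i x, x ∉ {x | ¬ H i x = H' i x} → H' i x = H i x := by
    intro i x hx
    exact (not_not.1 hx).symm
  exact ⟨fun i => (hv1 i _ _ _ (hc i)).1 (g1 i), fun i => (hv1 i _ _ _ (hc i)).2.1 (g2 i),
    fun i x hx => (hv1 i _ _ _ (hc i)).2.2 x (g3 i x hx), g4⟩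

/-! ## All the functions `‖cl F - L‖ ^ p` -/

theorem add_rpow_le {p : ℝ} (hp : 1 ≤ p) {h d : ℝ≥0∞} (hd : d ≠ ⊤) :
    (h + d) ^ p ≤ (1 + d) ^ (p - 1) * (h ^ p + d) := by
  have h1 : (1 + d) ≠ 0 := by simp
  have h2 : (1 + d) ≠ ⊤ := ENNReal.add_ne_top.2 ⟨by simp, hd⟩
  have e1 : h + d = (1 + d)⁻¹ * (h * (1 + d)) + d * (1 + d)⁻¹ * (1 + d) := by
    rw [mul_comm h, ← mul_assoc, ENNReal.inv_mul_cancel h1 h2, one_mul, mul_assoc,
      ENNReal.inv_mul_cancel h1 h2, mul_one]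
  have hw : (1 + d)⁻¹ + d * (1 + d)⁻¹ = 1 := by
    nth_rewrite 1 [← one_mul (1 + d)⁻¹]
    rw [← add_mul, ENNReal.mul_inv_cancel h1 h2]
  have h3 := ENNReal.rpow_arith_mean_le_arith_mean2_rpow _ _ (h * (1 + d)) (1 + d) hw hp
  rw [← e1] at h3
  refine h3.trans (le_of_eq ?_)
  have e2 : (1 + d) ^ p = (1 + d) * (1 + d) ^ (p - 1) := by
    nth_rewrite 2 [← ENNReal.rpow_one (1 + d)]
    rw [← ENNReal.rpow_add _ _ h1 h2]
    congr 1
    ring
  rw [ENNReal.mul_rpow_of_nonneg _ _ (by linarith : 0 ≤ p), e2]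
  calc (1 + d)⁻¹ * (h ^ p * ((1 + d) * (1 + d) ^ (p - 1))) +
        d * (1 + d)⁻¹ * ((1 + d) * (1 + d) ^ (p - 1))
      = ((1 + d)⁻¹ * (1 + d)) * (h ^ p * (1 + d) ^ (p - 1)) +
        ((1 + d)⁻¹ * (1 + d)) * (d * (1 + d) ^ (p - 1)) := by ring
    _ = (1 + d) ^ (p - 1) * (h ^ p + d) := by
        rw [ENNReal.inv_mul_cancel h1 h2]
        ring

theorem eInt_aff (v : V) (e : Idx × Fin 3) (H : V → ℝ≥0∞) {a : ℝ≥0∞} (ha : a ≠ ⊤) (b : ℝ≥0∞) :
    eInt v e (fun x => a * (H x + b)) = a * eInt v e H + a * b * eInt v e (fun _ => 1) := by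
  unfold AB.eInt
  rw [lintegral_const_mul' _ _ ha, lintegral_add_right _ measurable_const]
  simp only [lintegral_const, Measure.restrict_apply_univ]
  ring

theorem sInt_aff (v : V) (s : Idx × Fin 3) (H : V → ℝ≥0∞) {a : ℝ≥0∞} (ha : a ≠ ⊤) (b : ℝ≥0∞) :
    sInt v s (fun x => a * (H x + b)) = a * sInt v s H + a * b * sInt v s (fun _ => 1) := by
  unfold H194.sInt
  rw [lintegral_const_mul' _ _ ha, lintegral_add_right _ measurable_const]
  simp only [lintegral_const, Measure.restrict_apply_univ]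
  ring

theorem fSum_aff (v : V) (s : Idx × Fin 3) (n : ℕ) (k : Fin 3) (H : V → ℝ≥0∞) {a : ℝ≥0∞}
    (ha : a ≠ ⊤) (b : ℝ≥0∞) :
    fSum v s n k (fun x => a * (H x + b)) =
      a * fSum v s n k H + a * b * fSum v s n k (fun _ => 1) := by
  unfold H194.fSum
  rw [Finset.mul_sum, Finset.mul_sum, ← Finset.sum_add_distrib]
  refine Finset.sum_congr rfl fun w _ => ?_
  rw [eInt_aff v _ H ha b]
  ring

/-- the Riemann sums for all matrices from the Riemann sums for a dense family -/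
theorem square_all {p : ℝ} (hp : 1 ≤ p) {E : Type*} [NormedAddCommGroup E] {v : V} {nn : ℕ → ℕ}
    {Ω : Set V} {G : V → E} {D : Set E} (hD : Dense D) (hnn : StrictMono nn)
    {s : Idx × Fin 3} (hs : squ v s ⊆ Ω) {k : Fin 3} (hk : k ≠ s.2)
    (hfin : ∀ L ∈ D, sInt v s (Ω.indicator fun x => ‖G x - L‖ₑ ^ p) ≠ ⊤)
    (hfin1 : sInt v s (Ω.indicator fun _ => 1) ≠ ⊤)
    (h1 : ∀ δ : ℝ≥0∞, δ ≠ 0 → ∀ᶠ l in atTop,
      fSum v s (nn l) k (Ω.indicator fun _ => 1) ≤ sInt v s (Ω.indicator fun _ => 1) + δ)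
    (hG : ∀ L ∈ D, ∀ δ : ℝ≥0∞, δ ≠ 0 → ∀ᶠ l in atTop,
      fSum v s (nn l) k (Ω.indicator fun x => ‖G x - L‖ₑ ^ p) ≤
        sInt v s (Ω.indicator fun x => ‖G x - L‖ₑ ^ p) + δ) (L : E) {η : ℝ≥0∞} (hη : η ≠ 0) :
    ∀ᶠ l in atTop, fSum v s (nn l) k (fun x => ‖G x - L‖ₑ ^ p) ≤
      sInt v s (fun x => ‖G x - L‖ₑ ^ p) + η := by
  have hev : ∀ᶠ l in atTop, s.1.1 ≤ nn l := hnn.tendsto_atTop.eventually (eventually_ge_atTop _)
  have hind : ∀ A : V → ℝ≥0∞, ∀ x ∈ squ v s, Ω.indicator A x = A x := fun A x hx =>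
    indicator_of_mem (hs hx) A
  have e1 : ∀ A : V → ℝ≥0∞, sInt v s (Ω.indicator A) = sInt v s A := fun A =>
    H194.sInt_congr (hind A)
  have e2 : ∀ A : V → ℝ≥0∞, ∀ l, s.1.1 ≤ nn l →
      fSum v s (nn l) k (Ω.indicator A) = fSum v s (nn l) k A := fun A l hl =>
    H194.fSum_congr hk hl (hind A)
  -- the basic inequality
  have key : ∀ L L' : E, ∀ d : ℝ≥0∞, d ≠ ⊤ → ‖L - L'‖ₑ ≤ d → ∀ x,
      ‖G x - L‖ₑ ^ p ≤ (1 + d) ^ (p - 1) * (‖G x - L'‖ₑ ^ p + d) := by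
    intro L L' d hd hL x
    refine le_trans ?_ (add_rpow_le hp hd)
    refine ENNReal.rpow_le_rpow ?_ (by linarith)
    have : G x - L = (G x - L') + (L' - L) := by abel
    rw [this]
    refine (enorm_add_le _ _).trans ?_
    gcongr
    rwa [← enorm_neg, neg_sub]
  have hpt : ∀ d : ℝ≥0∞, d ≠ ⊤ → (1 + d) ^ (p - 1) ≠ ⊤ := fun d hd =>
    ENNReal.rpow_ne_top_of_nonneg (by linarith) (ENNReal.add_ne_top.2 ⟨by simp, hd⟩)
  set b : ℝ≥0∞ := sInt v s (fun x => ‖G x - L‖ₑ ^ p) with hb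
  set c : ℝ≥0∞ := sInt v s (fun _ => 1) with hc
  have hc0 : c ≠ ⊤ := by rw [hc, ← e1]; exact hfin1
  have hbt : b ≠ ⊤ := by
    obtain ⟨L', hL'D, hL'⟩ := Metric.dense_iff.1 hD L 1 one_pos
    have h2 : ‖L - L'‖ₑ ≤ 1 := by
      rw [← ofReal_norm, ← dist_eq_norm, dist_comm, ← ENNReal.ofReal_one]
      exact ENNReal.ofReal_le_ofReal (Metric.mem_ball.1 hL'D).le
    have h3 : b ≤ sInt v s (fun x => (1 + 1) ^ (p - 1) * (‖G x - L'‖ₑ ^ p + 1)) :=
      H194.sInt_mono fun x _ => key L L' 1 (by simp) h2 x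
    rw [sInt_aff v s _ (hpt 1 (by simp))] at h3
    refine ne_top_of_le_ne_top ?_ h3
    refine ENNReal.add_ne_top.2 ⟨ENNReal.mul_ne_top (hpt 1 (by simp)) ?_,
      ENNReal.mul_ne_top (ENNReal.mul_ne_top (hpt 1 (by simp)) (by simp)) hc0⟩
    rw [← e1]
    exact hfin L' hL'
  -- the choice of `d`
  obtain ⟨δ, hδ, hδη⟩ : ∃ δ : ℝ≥0∞, 0 < δ ∧ δ < η := exists_between (pos_iff_ne_zero.2 hη)
  obtain ⟨d, hd0, hd⟩ : ∃ d : ℝ, 0 < d ∧ (1 + ENNReal.ofReal d) ^ (p - 1) *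
      ((1 + ENNReal.ofReal d) ^ (p - 1) * b +
        (1 + ENNReal.ofReal d) ^ (p - 1) * ENNReal.ofReal d * c + δ) +
      (1 + ENNReal.ofReal d) ^ (p - 1) * ENNReal.ofReal d * (c + 1) ≤ b + η := by
    have t1 : Tendsto (fun d : ℝ => (1 + ENNReal.ofReal d)) (𝓝[>] 0) (𝓝 1) := by
      have h3 : Tendsto (fun d : ℝ => (1 + ENNReal.ofReal d)) (𝓝 0) (𝓝 (1 + ENNReal.ofReal 0)) :=
        (tendsto_const_nhds.add (ENNReal.continuous_ofReal.tendsto 0))
      rw [ENNReal.ofReal_zero, add_zero] at h3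
      exact h3.mono_left nhdsWithin_le_nhds
    have t2 : Tendsto (fun d : ℝ => (1 + ENNReal.ofReal d) ^ (p - 1)) (𝓝[>] 0) (𝓝 1) := by
      have h3 := t1.ennrpow_const (p - 1)
      rwa [ENNReal.one_rpow] at h3
    have t3 : Tendsto (fun d : ℝ => (1 + ENNReal.ofReal d) ^ (p - 1) * ENNReal.ofReal d)
        (𝓝[>] 0) (𝓝 0) := by
      have h3 : Tendsto (fun d : ℝ => ENNReal.ofReal d) (𝓝[>] 0) (𝓝 0) := by
        have := (ENNReal.continuous_ofReal.tendsto 0).mono_left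
          (nhdsWithin_le_nhds (s := Ioi (0:ℝ)))
        rwa [ENNReal.ofReal_zero] at this
      have h4 := ENNReal.Tendsto.mul t2 (Or.inl one_ne_zero) h3 (Or.inr ENNReal.one_ne_top)
      rwa [mul_zero] at h4
    have t4 : Tendsto (fun d : ℝ => (1 + ENNReal.ofReal d) ^ (p - 1) *
      ((1 + ENNReal.ofReal d) ^ (p - 1) * b +
        (1 + ENNReal.ofReal d) ^ (p - 1) * ENNReal.ofReal d * c + δ) +
      (1 + ENNReal.ofReal d) ^ (p - 1) * ENNReal.ofReal d * (c + 1)) (𝓝[>] 0)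
      (𝓝 (1 * (1 * b + 0 * c + δ) + 0 * (c + 1))) := by
      have hc1 : c + 1 ≠ ⊤ := ENNReal.add_ne_top.2 ⟨hc0, by simp⟩
      have s1 := ENNReal.Tendsto.mul_const (b := b) t2 (Or.inr hbt)
      have s2 := ENNReal.Tendsto.mul_const (b := c) t3 (Or.inr hc0)
      have s3 := ENNReal.Tendsto.mul_const (b := c + 1) t3 (Or.inr hc1)
      have s4 := (s1.add s2).add (tendsto_const_nhds (x := δ))
      refine (ENNReal.Tendsto.mul t2 (Or.inl one_ne_zero) s4 (Or.inr ENNReal.one_ne_top)).add s3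
    have h5 : 1 * (1 * b + 0 * c + δ) + 0 * (c + 1) < b + η := by
      rw [one_mul, one_mul, zero_mul, zero_mul, add_zero, add_zero]
      exact ENNReal.add_lt_add_left hbt hδη
    obtain ⟨d, hd1, hd2⟩ := ((t4.eventually (gt_mem_nhds h5)).and self_mem_nhdsWithin).exists
    exact ⟨d, hd2, hd1.le⟩
  set e : ℝ≥0∞ := ENNReal.ofReal d with he
  have het : e ≠ ⊤ := ENNReal.ofReal_ne_top
  obtain ⟨L', hL'B, hL'⟩ := Metric.dense_iff.1 hD L d hd0
  have h2 : ‖L - L'‖ₑ ≤ e := by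
    rw [← ofReal_norm, ← dist_eq_norm, dist_comm]
    exact ENNReal.ofReal_le_ofReal (Metric.mem_ball.1 hL'B).le
  have h2' : ‖L' - L‖ₑ ≤ e := by rwa [← enorm_neg, neg_sub]
  have h3 : sInt v s (fun x => ‖G x - L'‖ₑ ^ p) ≤
      (1 + e) ^ (p - 1) * b + (1 + e) ^ (p - 1) * e * c := by
    rw [hb, hc, ← sInt_aff v s _ (hpt e het)]
    exact H194.sInt_mono fun x _ => key L' L e het h2' x
  filter_upwards [hev, hG L' hL' δ hδ.ne', h1 1 one_ne_zero] with l hl hl1 hl2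
  rw [e1, e2 _ l hl] at hl1 hl2
  calc fSum v s (nn l) k (fun x => ‖G x - L‖ₑ ^ p)
      ≤ fSum v s (nn l) k (fun x => (1 + e) ^ (p - 1) * (‖G x - L'‖ₑ ^ p + e)) :=
        H194.fSum_mono hk hl fun x _ => key L L' e het h2 x
    _ = (1 + e) ^ (p - 1) * fSum v s (nn l) k (fun x => ‖G x - L'‖ₑ ^ p) +
        (1 + e) ^ (p - 1) * e * fSum v s (nn l) k (fun _ => 1) := fSum_aff _ _ _ _ _ (hpt e het) _
    _ ≤ (1 + e) ^ (p - 1) * ((1 + e) ^ (p - 1) * b + (1 + e) ^ (p - 1) * e * c + δ) +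
        (1 + e) ^ (p - 1) * e * (c + 1) := by
        refine add_le_add (mul_le_mul' le_rfl (hl1.trans ?_)) (mul_le_mul' le_rfl hl2)
        exact add_le_add h3 le_rfl
    _ ≤ b + η := hd

/-! ## The origin -/

/-- everything which is used about the origin `v` and the generations `nn`: for the Sobolev
function, for countably many sets `T i` and for countably many functions `H a`. -/
structure Orig2 (p : ℝ) (Ω : Set V) (f : V → V) (F : V → Mat) {ι α : Type*} (T : ι → Set V)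
    (H : α → V → ℝ≥0∞) (X : Set V) (v : V) (nn : ℕ → ℕ) : Prop where
  rat : RatGood v Ω f F
  edge : ∀ᵐ x : V, EdgeLeb v nn (Ω.indicator fun x => cl (F x)) x
  squ : ∀ᵐ x : V, SquLeb p v nn (Ω.indicator fun x => cl (F x)) x
  vert : ∀ i, ∀ᵐ x : V, x ∈ T i → VertIn v nn (T i) x
  /-- the Riemann sums of `‖cl F - L‖ ^ p` in squares inside `Ω` -/
  gen : ∀ s : Idx × Fin 3, AB.squ v s ⊆ Ω → ∀ k, k ≠ s.2 → ∀ (L : V →L[ℝ] V) (η : ℝ≥0∞), η ≠ 0 →
    ∀ᶠ l in atTop, fSum v s (nn l) k (fun x => ‖cl (F x) - L‖ₑ ^ p) ≤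
      sInt v s (fun x => ‖cl (F x) - L‖ₑ ^ p) + η
  genH : ∀ a, Gen v nn (H a)
  genB : ∀ a, GenB v nn (H a)
  genPt : ∀ a, ∀ x ∈ X, GenPt v nn (H a) x

theorem Orig2.comp {p : ℝ} {Ω : Set V} {f : V → V} {F : V → Mat} {ι α : Type*} {T : ι → Set V}
    {H : α → V → ℝ≥0∞} {X : Set V} {v : V} {nn : ℕ → ℕ} (h : Orig2 p Ω f F T H X v nn)
    {φ : ℕ → ℕ} (hφ : StrictMono φ) : Orig2 p Ω f F T H X v (fun l => nn (φ l)) where
  rat := h.rat
  edge := h.edge.mono fun _ hx => hx.comp hφ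
  squ := h.squ.mono fun _ hx => hx.comp hφ
  vert i := (h.vert i).mono fun _ hx hxT => (hx hxT).comp hφ
  gen s hs k hk L η hη := hφ.tendsto_atTop.eventually (h.gen s hs k hk L η hη)
  genH a := ⟨(h.genH a).efin, (h.genH a).sfin,
    fun q k δ hδ => hφ.tendsto_atTop.eventually ((h.genH a).cube q k δ hδ),
    fun s k hk δ hδ => hφ.tendsto_atTop.eventually ((h.genH a).square s k hk δ hδ)⟩
  genB a := ⟨(h.genB a).efin, (h.genB a).sfin,
    fun s k hk δ hδ => hφ.tendsto_atTop.eventually ((h.genB a).square s k hk δ hδ),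
    fun q δ hδ => hφ.tendsto_atTop.eventually ((h.genB a).faces q δ hδ)⟩
  genPt a x hx := ⟨(h.genPt a x hx).inside, (h.genPt a x hx).small.comp hφ.tendsto_atTop⟩

/-- **the origin**, along a subsequence of any given sequence of generations `M₀`; `Y` are further
functionals whose integrals over the origins tend to zero -/
theorem exists_origin2 {p : ℝ} {Ω : Set V} {f : V → V} {F : V → Mat} (hp : 1 ≤ p)
    (hΩ : St.IsBoundedDomain Ω) (hf : ContinuousOn f Ω) (hF : St.IsSobolev p Ω f F)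
    {ι α κ : Type*} [Countable ι] [Countable α] [Countable κ] (T : ι → Set V)
    (hT : ∀ i, MeasurableSet (T i)) (hTv : ∀ i, volume (T i) ≠ ⊤) (H : α → V → ℝ≥0∞)
    (hH : ∀ a, AEMeasurable (H a)) (hfin : ∀ a, ∫⁻ x, H a x ≠ ⊤) (X : Set V) (hX : X.Countable)
    (Y : κ → ℕ → V → ℝ≥0∞) (hY : ∀ k n, AEMeasurable (Y k n) (volume.restrict (Icc 0 1)))
    (hY0 : ∀ k, Tendsto (fun n => ∫⁻ v in Icc (0 : V) 1, Y k n v) atTop (𝓝 0)) {M₀ : ℕ → ℕ}
    (hM₀ : StrictMono M₀) :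
    ∃ φ : ℕ → ℕ, StrictMono φ ∧ ∀ᵐ v ∂(volume.restrict (Icc (0 : V) 1)),
      Orig2 p Ω f F T H X v (fun l => M₀ (φ l)) ∧
      ∀ k, Tendsto (fun l => Y k (M₀ (φ l)) v) atTop (𝓝 0) := by
  have hvol := PK.volume_ne_top_of_domain hΩ
  have hp0 : 0 < p := by linarith
  obtain ⟨φ₁, hφ₁, h1⟩ := H79.exists_edge_leb_sobolev hp hΩ hF hM₀
  obtain ⟨φ₂, hφ₂, h2⟩ := H523.exists_squ_leb_sobolev hp hΩ hF (hM₀.comp hφ₁)
  obtain ⟨φ₃, hφ₃, h3⟩ := exists_vertIn T hT hTv ((hM₀.comp hφ₁).comp hφ₂)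
  obtain ⟨D, hDc, hDd⟩ := TopologicalSpace.exists_countable_dense (V →L[ℝ] V)
  have := hDc.to_subtype
  -- the functions
  set G : V → V →L[ℝ] V := fun x => cl (F x) with hG
  set K : (D ⊕ Unit) ⊕ α → V → ℝ≥0∞ := fun τ => match τ with
    | Sum.inl (Sum.inl L) => Ω.indicator fun x => ‖G x - L‖ₑ ^ p
    | Sum.inl (Sum.inr _) => Ω.indicator fun _ => 1
    | Sum.inr a => H a with hK
  have hmem := PK.IsSob.memLp_cl hF
  have hfm : IsFiniteMeasure ((volume : Measure V).restrict Ω) :=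
    ⟨by rw [Measure.restrict_apply_univ]; exact hvol.lt_top⟩
  have hpe : ENNReal.ofReal p ≠ 0 := (ENNReal.ofReal_pos.2 hp0).ne'
  have hKm : ∀ τ, AEMeasurable (K τ) := by
    rintro ((L | u) | a)
    · refine (aemeasurable_indicator_iff hΩ.1.measurableSet).2 ?_
      exact ((hmem.1.sub aestronglyMeasurable_const).enorm).pow_const p
    · exact (measurable_const.indicator hΩ.1.measurableSet).aemeasurable
    · exact hH a
  have hKf : ∀ τ, ∫⁻ x, K τ x ≠ ⊤ := by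
    rintro ((L | u) | a)
    · show ∫⁻ x, Ω.indicator (fun x => ‖G x - L‖ₑ ^ p) x ≠ ⊤
      rw [lintegral_indicator hΩ.1.measurableSet]
      have h4 : MemLp (fun x => G x - (L : V →L[ℝ] V)) (ENNReal.ofReal p)
          ((volume : Measure V).restrict Ω) := hmem.sub (memLp_const _)
      have h5 := lintegral_rpow_enorm_lt_top_of_eLpNorm_lt_top hpe ENNReal.ofReal_ne_top h4.2
      rw [ENNReal.toReal_ofReal hp0.le] at h5
      exact h5.ne
    · show ∫⁻ x, Ω.indicator (fun _ => 1) x ≠ ⊤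
      rw [lintegral_indicator hΩ.1.measurableSet]
      simpa using hvol
    · exact hfin a
  obtain ⟨φ₄, hφ₄, h4⟩ := exists_gen_ae K X Y hKm hKf hX hY hY0
    (((hM₀.comp hφ₁).comp hφ₂).comp hφ₃)
  have h5 : ∀ᵐ v : V, RatGood v Ω f F := PK.ae_ratGood hp hΩ.1 hvol hf hF
  refine ⟨fun l => φ₁ (φ₂ (φ₃ (φ₄ l))), hφ₁.comp (hφ₂.comp (hφ₃.comp hφ₄)), ?_⟩
  filter_upwards [h1, h2, h3, h4, ae_restrict_of_ae h5] with v v1 v2 v3 v4 v5
  obtain ⟨g1, g2, g3, g4⟩ := v4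
  refine ⟨⟨v5, v1.mono fun x hx => hx.comp (hφ₂.comp (hφ₃.comp hφ₄)),
    v2.mono fun x hx => hx.comp (hφ₃.comp hφ₄),
    fun i => (v3 i).mono fun x hx hxT => (hx hxT).comp hφ₄, ?_, fun a => g1 (Sum.inr a),
    fun a => g2 (Sum.inr a), fun a => g3 (Sum.inr a)⟩, g4⟩
  intro s hs k hk L η hη
  refine square_all hp (G := G) hDd (((((hM₀.comp hφ₁).comp hφ₂).comp hφ₃).comp hφ₄)) hs hk
    (fun L hL => (g1 (Sum.inl (Sum.inl ⟨L, hL⟩))).sfin s) ((g1 (Sum.inl (Sum.inr ()))).sfin s)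
    (fun δ hδ => (g1 (Sum.inl (Sum.inr ()))).square s k hk δ hδ)
    (fun L hL δ hδ => (g1 (Sum.inl (Sum.inl ⟨L, hL⟩))).square s k hk δ hδ) L hη

end Vale.Agent.P073.H989
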