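import Vale.Agent.P073.H989.P2Cells
import Vale.Agent.P073.H989.P2Orig
import Vale.Agent.P073.H732.LocSum2
import Vale.Agent.P073.H953.NeckAll

/-!
# P073, [P2g]: the set-up for the exponent two

`T`, the big good cubes and the necks, with all the constants in the right order.
-/

open Set Metric Topology Filter MeasureTheory
open scoped ENNReal

namespace Vale.Agent.P073.H989

open Vale.Agent.P073.AB (Idx pt edge eInt squ cl RatGood)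
open _root_.P073.Net (dyc dyo)
open Vale.Agent.P073.St (V Mat)
open Vale.Agent.P073.SQ (ev)
open Vale.Agent.P073.H194 (idx sInt fSum cSum bInt Gen GenPt)
open Vale.Agent.P073.H234 (TSet P2Cells Necks Clean)

variable {p : ℝ} {Ω Λ : Set V} {f : V → V} {F : V → Mat}

theorem TSet.mono {θ M θ' M' κ t₀ δ₀ ε₁ : ℝ} {T : Set V} (h : TSet θ M κ t₀ δ₀ ε₁ Ω f F T)
    (hθ : θ' ≤ θ) (hM : M ≤ M') : TSet θ' M' κ t₀ δ₀ ε₁ Ω f F T where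
  comp := h.comp
  sub := h.sub
  low a ha w := (mul_le_mul_of_nonneg_right hθ (norm_nonneg _)).trans (h.low a ha w)
  upp a ha w := (h.upp a ha w).trans (mul_le_mul_of_nonneg_right hM (norm_nonneg _))
  two := h.two
  ray := h.ray
  far := h.far
  osc := h.osc

/-- the big good cubes are in `Ω` -/
theorem P2Cells.sub {ε : ℝ≥0∞} {θ M κ c₀ t₀ δ₀ : ℝ} {j m : ℕ} {T : Set V} {v : V}
    (P : P2Cells p ε θ M κ c₀ t₀ δ₀ j Ω Λ f F T v m) (hc : 0 < c₀) {z : Fin 3 → ℤ}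
    (hz : z ∈ P.J) : dyc v m z ⊆ Ω := by
  intro y hy
  have h1 := (P.dist z hz y ⟨y, hy, by rw [sub_self, norm_zero]; positivity⟩).1
  by_contra hn
  have h2 : infDist y Ωᶜ = 0 := infDist_zero_of_mem hn
  linarith

/-- **the set-up**: `ε` | `θ`, `M`, `T` | `c₀` | `β`, `σ` | `κ` | `j`, `κT`, `ε₁` | `t₀` | `δ₀` |
`v`, `nn` | `l → ∞` -/
theorem exists_p2setup (hp1 : 1 ≤ p) (hΩ : St.IsBoundedDomain Ω) (hΛ : St.IsBoundedDomain Λ)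
    (hf : St.IsHomeo Ω Λ f) (hF : St.IsSobolev p Ω f F) {θ M : ℝ} (hθ : 0 < θ) (hM : 0 < M)
    {T : Set V} (hT : GoodT p θ M Ω Λ f F T) {ε : ℝ≥0∞} (hε : ε ≠ 0) :
    ∃ c₀ > 0, ∀ β σ : ℝ, 0 < β → β ≤ 1 → 0 < σ → ∃ κ₀ > 0, ∀ κ κT ε₁ : ℝ, 0 < κ → κ ≤ κ₀ →
      0 < κT → κT ≤ κ₀ → 0 < ε₁ → ∃ t₁ > 0, ∀ t₀, 0 < t₀ → t₀ ≤ t₁ → ∃ δ₁ > 0, ∀ δ₀, 0 < δ₀ →
        δ₀ ≤ δ₁ → TSet (θ / 2) (M + θ) κT t₀ δ₀ ε₁ Ω f F T ∧
        ∀ {ι α : Type*} {Ti : ι → Set V} {H : α → V → ℝ≥0∞} {X : Set V} {v : V} {nn : ℕ → ℕ}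
          (_ : StrictMono nn) (_ : Orig2 2 Ω f F Ti H X v nn) (i : ι) (_ : Ti i = T)
          (j : ℕ) (Q : ℕ → V → Prop), (∀ᵐ x ∂(volume : Measure V), x ∈ T → ∀ᶠ l in atTop, Q l x) →
        ∀ᶠ l in atTop, ∃ P : P2Cells p ((∫⁻ y in Ω \ T, ‖cl (F y)‖ₑ ^ p) + ε) (θ / 2) (M + θ)
          κ c₀ t₀ δ₀ j Ω Λ f F T v (nn l), (∀ z ∈ P.J, ∃ x ∈ T, idx v (nn l) x = z ∧ Q l x) ∧
          (∀ z ∈ P.J, dyc v (nn l) z ⊆ Ω) ∧
          Nonempty (Necks (θ / 2) (M + θ) β σ f v (nn l) j P.J P.A) := by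
  have hfc : ContinuousOn f Ω := by obtain ⟨g, -, h, -⟩ := hf; exact h
  obtain ⟨c₀, hc₀, h1⟩ := exists_p2cells hp1 hΩ hΛ hf hF hθ hM hT hε
  refine ⟨c₀, hc₀, fun β σ hβ hβ1 hσ => ?_⟩
  have hMθ : 0 < M + θ := by positivity
  set K : ℝ := 3 * (4 * (M + θ + 11) / (θ / 2) + 2) ^ 3 with hK
  have hK0 : 0 < K := by positivity
  obtain ⟨κ₁, hκ₁, h2⟩ := P073.H953.exists_necks_all (θ := θ / 2) hMθ hβ hβ1 hσ hK0
  refine ⟨min κ₁ (min (θ / 4) 1), by positivity, fun κ κT ε₁ hκ hκ0 hκT hκT0 hε₁ => ?_⟩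
  obtain ⟨t₁, ht₁, h3⟩ := hT.tset hκT hε₁
  refine ⟨t₁, ht₁, fun t₀ ht₀ ht => ?_⟩
  obtain ⟨δ₁, hδ₁, h4⟩ := h3 t₀ ht₀ ht
  refine ⟨δ₁, hδ₁, fun δ₀ hδ₀ hδ => ?_⟩
  have hTS : TSet (θ / 2) (M + θ) κT t₀ δ₀ ε₁ Ω f F T :=
    TSet.mono (h4 δ₀ hδ) (by linarith) (by linarith)
  refine ⟨hTS, ?_⟩
  intro ι α Ti H X v nn hnn O i hi j Q hQ
  subst hi
  filter_upwards [h1 κ t₀ δ₀ j v nn Q hκ ht₀ hδ₀ hnn O.edge (O.squ.mono fun x hx => hx j)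
    ((O.vert i).mono fun x hx hxT => hx hxT j) hQ] with l hl
  obtain ⟨P, hP⟩ := hl
  have hsub : ∀ z ∈ P.J, dyc v (nn l) z ⊆ Ω := fun z hz => P2Cells.sub P hc₀ hz
  refine ⟨P, hP, hsub, ?_⟩
  refine h2 κ hκ (hκ0.trans (min_le_left _ _)) P O.rat hΩ.1 hfc hsub nn hnn ?_ ?_
  · intro z hz s hs k hk η hη
    exact O.gen s ((P073.H953.squ_sub_of_clean hs).trans (hsub z hz)) k hk _ η hη
  · intro y S hS
    exact H732.locsum_953 hTS P (by linarith [hκT0.trans ((min_le_right _ _).trans (min_le_left _ _))])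
      (by positivity) ht₀ hMθ.le (by linarith) hκ.le
      (hκ0.trans ((min_le_right _ _).trans (min_le_right _ _))) y S hS

end Vale.Agent.P073.H989
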