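import Vale.Agent.P073.H989.P2K0
import Vale.Agent.P073.H83.Grid5
import Vale.Agent.P073.H622.PD5
import Vale.Agent.P073.H989.GSet

/-!
# P073, PRE-2, [SUBC]: the good cells of generation `m + d` in the big cubes
-/

namespace Vale.Agent.P073.H989

open MeasureTheory Set Filter Topology Metric Vale.Agent.P073.St Vale.Agent.P073.AB
open Vale.Agent.P073.SQ (ev)
open _root_.P073.Net (dyc dyo)
open Vale.Agent.P073.H234
open scoped ENNReal

/-- the numbers of the cells of generation `m + d` inside of the open cube `Z` -/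
noncomputable def innJ (d : ℕ) (Z : Fin 3 → ℤ) : Finset (Fin 3 → ℤ) :=
  Fintype.piFinset fun k => Finset.Icc (2 ^ d * Z k + 1) (2 ^ d * (Z k + 1) - 2)

open Classical in
/-- the good cells -/
noncomputable def subJ (J : Finset (Fin 3 → ℤ)) (d : ℕ) : Finset (Fin 3 → ℤ) := J.biUnion (innJ d)

/-- the big cube of a cell -/
def par (d : ℕ) (z : Fin 3 → ℤ) : Fin 3 → ℤ := fun k => z k / 2 ^ d

variable {v : V} {m d : ℕ}

theorem mem_innJ {Z z : Fin 3 → ℤ} : z ∈ innJ d Z ↔ dyc v (m + d) z ⊆ dyo v m Z := by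
  rw [dyc_sub_dyo_iff (Nat.le_add_right m d), Nat.add_sub_cancel_left, innJ,
    Fintype.mem_piFinset]
  refine forall_congr' fun k => ?_
  rw [Finset.mem_Icc]
  constructor
  · rintro ⟨h1, h2⟩; exact ⟨h1, by omega⟩
  · rintro ⟨h1, h2⟩; exact ⟨h1, by omega⟩

theorem par_of_mem {Z z : Fin 3 → ℤ} (h : z ∈ innJ d Z) : par d z = Z := by
  funext k
  rw [innJ, Fintype.mem_piFinset] at h
  have h1 := h k
  rw [Finset.mem_Icc] at h1
  have hp : (0:ℤ) < 2 ^ d := by positivity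
  unfold par
  apply le_antisymm
  · have : z k / 2 ^ d < Z k + 1 := by
      rw [Int.ediv_lt_iff_lt_mul hp]
      nlinarith [h1.2]
    omega
  · rw [Int.le_ediv_iff_mul_le hp]
    nlinarith [h1.1]

theorem mem_subJ {J : Finset (Fin 3 → ℤ)} {z : Fin 3 → ℤ} :
    z ∈ subJ J d ↔ ∃ Z ∈ J, z ∈ innJ d Z := by
  classical
  simp [subJ]

theorem pairwise_innJ (J : Finset (Fin 3 → ℤ)) :
    (J : Set (Fin 3 → ℤ)).PairwiseDisjoint (innJ d) := by
  intro Z _ Z' _ hne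
  rw [Function.onFun, Finset.disjoint_left]
  intro z hz hz'
  exact hne ((par_of_mem hz).symm.trans (par_of_mem hz'))

variable {p : ℝ} {ε : ℝ≥0∞} {θ M κ c₀ t₀ δ₀ : ℝ} {j : ℕ} {Ω Λ : Set V} {f : V → V}
  {F : V → Mat} {T : Set V}

theorem subCells (C : P2Cells p ε θ M κ c₀ t₀ δ₀ j Ω Λ f F T v m) (d : ℕ) :
    SubCells C (m + d) (subJ C.J d) (par d) where
  mem z hz := by
    obtain ⟨Z, hZ, h⟩ := mem_subJ.1 hz
    rwa [par_of_mem h]
  sub z hz := by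
    obtain ⟨Z, hZ, h⟩ := mem_subJ.1 hz
    rw [par_of_mem h]
    exact mem_innJ.1 h

/-- different cubes of one generation have disjoint interiors -/
theorem dyo_disj {n : ℕ} {z z' : Fin 3 → ℤ} (h : z ≠ z') : Disjoint (dyo v n z) (dyo v n z') := by
  rw [Set.disjoint_left]
  intro x hx hx'
  apply h
  have h5 := _root_.P073.Net.NC.fine_sub' (m := n) (m' := n) le_rfl hx (P86.dyo_sub_dyc hx')
  funext i
  have h6 := h5 i
  have h3 : (0:ℝ) < 2 ^ n := by positivity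
  have h7 : (z' i : ℝ) ≤ z i := (div_le_div_iff_of_pos_right h3).1 h6.1
  have h8 : (z i : ℝ) + 1 ≤ z' i + 1 := (div_le_div_iff_of_pos_right h3).1 h6.2
  have h7' : z' i ≤ z i := by exact_mod_cast h7
  have h8' : z i + 1 ≤ z' i + 1 := by exact_mod_cast h8
  omega

theorem lint_dyc_dyo (n : ℕ) (z : Fin 3 → ℤ) (H : V → ℝ≥0∞) :
    ∫⁻ x in dyc v n z, H x = ∫⁻ x in dyo v n z, H x := by
  refine setLIntegral_congr ?_
  have h1 : dyo v n z ≤ᵐ[volume] dyc v n z := (P86.dyo_sub_dyc).eventuallyLE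
  have h2 : dyc v n z ≤ᵐ[volume] dyo v n z :=
    ae_le_set.2 (H622.volume_dyc_diff v n z)
  exact h2.antisymm h1

/-- sum over cubes of one generation -/
theorem sum_dyc_le {n : ℕ} (S : Finset (Fin 3 → ℤ)) {B : Set V} (hB : ∀ z ∈ S, dyc v n z ⊆ B)
    (H : V → ℝ≥0∞) : ∑ z ∈ S, ∫⁻ x in dyc v n z, H x ≤ ∫⁻ x in B, H x := by
  simp only [lint_dyc_dyo]
  rw [← lintegral_biUnion_finset (fun z _ z' _ h => dyo_disj h)
    (fun z _ => (H333.isOpen_dyo v n z).measurableSet)]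
  exact lintegral_mono_set (iUnion₂_subset fun z hz => P86.dyo_sub_dyc.trans (hB z hz))

/-- **the energy on the good cells** -/
theorem sub_es1 (C : P2Cells p ε θ M κ c₀ t₀ δ₀ j Ω Λ f F T v m) (d : ℕ) :
    ∑ z ∈ subJ C.J d, ∫⁻ y in dyc v (m + d) z, ‖cl (F y) - C.L (par d z)‖ₑ ^ p ≤ ε := by
  classical
  refine le_trans ?_ C.s1
  rw [subJ, Finset.sum_biUnion (pairwise_innJ C.J)]
  refine Finset.sum_le_sum fun Z _ => ?_
  have h1 : ∑ z ∈ innJ d Z, ∫⁻ y in dyc v (m + d) z, ‖cl (F y) - C.L (par d z)‖ₑ ^ p =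
      ∑ z ∈ innJ d Z, ∫⁻ y in dyc v (m + d) z, ‖cl (F y) - C.L Z‖ₑ ^ p :=
    Finset.sum_congr rfl fun z hz => by rw [par_of_mem hz]
  rw [h1]
  exact sum_dyc_le _ (fun z hz => (mem_innJ.1 hz).trans P86.dyo_sub_dyc) _

/-- the points which are not near the boundary are in the good cells -/
theorem shrink_sub_cells (d : ℕ) (hd : 2 ≤ d) (Z : Fin 3 → ℤ) :
    shrink v m Z (1 / 2 ^ (m + d)) ⊆ ⋃ z ∈ innJ d Z, dyc v (m + d) z := by
  intro x hx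
  have hp : (0:ℝ) < 2 ^ (m + d) := by positivity
  have hle : m ≤ m + d := Nat.le_add_right m d
  have hK : (4:ℤ) ≤ 2 ^ d := by
    calc (4:ℤ) = 2 ^ 2 := by norm_num
      _ ≤ 2 ^ d := pow_le_pow_right₀ (by norm_num) hd
  have key : ∀ k, ∃ w : ℤ, 2 ^ d * Z k + 1 ≤ w ∧ w ≤ 2 ^ d * (Z k + 1) - 2 ∧
      v k + (w : ℝ) / 2 ^ (m + d) ≤ x k ∧ x k ≤ v k + ((w : ℝ) + 1) / 2 ^ (m + d) := by
    intro k
    have h1 := hx k
    have e1 : (Z k : ℝ) / 2 ^ m + 1 / 2 ^ (m + d) =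
        ((2 ^ d * Z k + 1 : ℤ) : ℝ) / 2 ^ (m + d) := by
      rw [div_int hle, Nat.add_sub_cancel_left]
      push_cast
      ring
    have e2 : ((Z k : ℝ) + 1) / 2 ^ m - 1 / 2 ^ (m + d) =
        ((2 ^ d * (Z k + 1) - 1 : ℤ) : ℝ) / 2 ^ (m + d) := by
      rw [div_int1 hle, Nat.add_sub_cancel_left]
      push_cast
      ring
    have g1 : ((2 ^ d * Z k + 1 : ℤ) : ℝ) ≤ 2 ^ (m + d) * (x k - v k) := by
      have : ((2 ^ d * Z k + 1 : ℤ) : ℝ) / 2 ^ (m + d) ≤ x k - v k := by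
        rw [← e1]; linarith [h1.1]
      rw [div_le_iff₀ hp] at this
      linarith
    have g2 : 2 ^ (m + d) * (x k - v k) ≤ ((2 ^ d * (Z k + 1) - 1 : ℤ) : ℝ) := by
      have : x k - v k ≤ ((2 ^ d * (Z k + 1) - 1 : ℤ) : ℝ) / 2 ^ (m + d) := by
        rw [← e2]; linarith [h1.2]
      rw [le_div_iff₀ hp] at this
      linarith
    have g3 : 2 ^ d * Z k + 1 ≤ ⌊2 ^ (m + d) * (x k - v k)⌋ := Int.le_floor.2 g1
    have hb : (⌊2 ^ (m + d) * (x k - v k)⌋ : ℝ) ≤ 2 ^ (m + d) * (x k - v k) := Int.floor_le _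
    have hb' : 2 ^ (m + d) * (x k - v k) < ⌊2 ^ (m + d) * (x k - v k)⌋ + 1 :=
      Int.lt_floor_add_one _
    by_cases hc : ⌊2 ^ (m + d) * (x k - v k)⌋ ≤ 2 ^ d * (Z k + 1) - 2
    · refine ⟨⌊2 ^ (m + d) * (x k - v k)⌋, g3, hc, ?_, ?_⟩
      · have : (⌊2 ^ (m + d) * (x k - v k)⌋ : ℝ) / 2 ^ (m + d) ≤ x k - v k := by
          rw [div_le_iff₀ hp]; linarith
        linarith
      · have : x k - v k ≤ ((⌊2 ^ (m + d) * (x k - v k)⌋ : ℝ) + 1) / 2 ^ (m + d) := by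
          rw [le_div_iff₀ hp]; linarith
        linarith
    · -- `x k` is on the last plane
      have hc' : 2 ^ d * (Z k + 1) - 1 ≤ ⌊2 ^ (m + d) * (x k - v k)⌋ := by omega
      have hc'' : ((2 ^ d * (Z k + 1) - 1 : ℤ) : ℝ) ≤ (⌊2 ^ (m + d) * (x k - v k)⌋ : ℝ) := by
        exact_mod_cast hc'
      refine ⟨2 ^ d * (Z k + 1) - 2, by nlinarith, le_rfl, ?_, ?_⟩
      · have : ((2 ^ d * (Z k + 1) - 2 : ℤ) : ℝ) / 2 ^ (m + d) ≤ x k - v k := by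
          rw [div_le_iff₀ hp]
          push_cast at hc'' ⊢
          linarith
        linarith
      · have : x k - v k ≤ (((2 ^ d * (Z k + 1) - 2 : ℤ) : ℝ) + 1) / 2 ^ (m + d) := by
          rw [le_div_iff₀ hp]
          push_cast at g2 ⊢
          linarith
        linarith
  choose w h1 h2 h3 h4 using key
  refine mem_biUnion (x := w) ?_ fun k => ⟨h3 k, h4 k⟩
  rw [Finset.mem_coe, innJ, Fintype.mem_piFinset]
  exact fun k => Finset.mem_Icc.2 ⟨h1 k, h2 k⟩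

theorem volume_bd_le (d : ℕ) (Z : Fin 3 → ℤ) :
    volume (dyc v m Z \ shrink v m Z (1 / 2 ^ (m + d))) ≤
      ENNReal.ofReal (6 / 2 ^ d) * volume (dyc v m Z) := by
  have h1 := H83.volume_shrink_le v m Z (δ := 0) (r := 1 / 2 ^ (m + d)) le_rfl (by positivity)
  rw [zero_add] at h1
  have h2 : shrink v m Z 0 = dyc v m Z := by
    ext x
    simp only [shrink, add_zero, sub_zero]
    rfl
  rw [h2] at h1
  refine h1.trans (le_of_eq ?_)
  rw [volume_dyc, ← ENNReal.ofReal_mul (by positivity)]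
  congr 1
  rw [pow_add]
  field_simp

/-- **the energy outside of the good cells** -/
theorem sub_es2 (hp : 1 ≤ p) (C : P2Cells p ε θ M κ c₀ t₀ δ₀ j Ω Λ f F T v m) (hM : 0 ≤ M)
    (hΩ : MeasurableSet Ω)
    (hsub : ∀ Z ∈ C.J, dyc v m Z ⊆ Ω) {d : ℕ} (hd : 2 ≤ d) :
    ∫⁻ y in Ω \ ⋃ z ∈ subJ C.J d, dyc v (m + d) z, ‖cl (F y)‖ₑ ^ p ≤
      ε + 2 ^ (p - 1) * (ε + ENNReal.ofReal M ^ p * (ENNReal.ofReal (6 / 2 ^ d) * volume Ω)) := by
  classical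
  have hp0 : 0 ≤ p := by linarith
  set B : (Fin 3 → ℤ) → Set V := fun Z => dyc v m Z \ shrink v m Z (1 / 2 ^ (m + d)) with hB
  have hcov : Ω \ ⋃ z ∈ subJ C.J d, dyc v (m + d) z ⊆
      (Ω \ ⋃ Z ∈ C.J, dyc v m Z) ∪ ⋃ Z ∈ C.J, B Z := by
    rintro x ⟨hx, hxn⟩
    by_cases h : x ∈ ⋃ Z ∈ C.J, dyc v m Z
    · right
      obtain ⟨Z, hZ, hxZ⟩ := mem_iUnion₂.1 h
      refine mem_biUnion hZ ⟨hxZ, fun hs => hxn ?_⟩
      obtain ⟨z, hz, hxz⟩ := mem_iUnion₂.1 (shrink_sub_cells d hd Z hs)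
      exact mem_biUnion (mem_subJ.2 ⟨Z, hZ, hz⟩) hxz
    · exact Or.inl ⟨hx, h⟩
  have hBm : ∀ Z, MeasurableSet (B Z) := by
    intro Z
    refine (P86.isCompact_dyc v m Z).measurableSet.diff ?_
    have : shrink v m Z (1 / 2 ^ (m + d)) = Icc (fun k => v k + Z k / 2 ^ m + 1 / 2 ^ (m + d))
        (fun k => v k + (Z k + 1) / 2 ^ m - 1 / 2 ^ (m + d)) := by
      ext x
      exact ⟨fun h => ⟨fun k => (h k).1, fun k => (h k).2⟩, fun h k => ⟨h.1 k, h.2 k⟩⟩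
    rw [this]
    exact measurableSet_Icc
  have h2t : (2:ℝ≥0∞) ^ (p - 1) ≠ ⊤ := ENNReal.rpow_ne_top_of_nonneg (by linarith) (by simp)
  have hone : ∀ Z ∈ C.J, ∫⁻ y in B Z, ‖cl (F y)‖ₑ ^ p ≤
      2 ^ (p - 1) * ((∫⁻ y in dyc v m Z, ‖cl (F y) - C.L Z‖ₑ ^ p) +
        ENNReal.ofReal M ^ p * (ENNReal.ofReal (6 / 2 ^ d) * volume (dyc v m Z))) := by
    intro Z hZ
    have hL : ‖C.L Z‖ₑ ≤ ENNReal.ofReal M := by
      rw [← ofReal_norm]
      exact ENNReal.ofReal_le_ofReal (ContinuousLinearMap.opNorm_le_bound _ hM (C.above Z hZ))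
    calc ∫⁻ y in B Z, ‖cl (F y)‖ₑ ^ p
        ≤ ∫⁻ y in B Z, 2 ^ (p - 1) * (‖cl (F y) - C.L Z‖ₑ ^ p + ENNReal.ofReal M ^ p) := by
          refine lintegral_mono fun y => ?_
          have h3 : ‖cl (F y)‖ₑ ≤ ‖cl (F y) - C.L Z‖ₑ + ENNReal.ofReal M := by
            have : cl (F y) = (cl (F y) - C.L Z) + C.L Z := by abel
            nth_rewrite 1 [this]
            exact (enorm_add_le (cl (F y) - C.L Z) (C.L Z)).trans (by gcongr)
          exact (ENNReal.rpow_le_rpow h3 hp0).trans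
            (ENNReal.rpow_add_le_mul_rpow_add_rpow _ _ hp)
      _ = 2 ^ (p - 1) * ((∫⁻ y in B Z, ‖cl (F y) - C.L Z‖ₑ ^ p) +
            ENNReal.ofReal M ^ p * volume (B Z)) := by
          rw [lintegral_const_mul' _ _ h2t, lintegral_add_right _ measurable_const,
            lintegral_const, Measure.restrict_apply_univ]
      _ ≤ _ := by
          gcongr
          · exact sdiff_subset
          · exact volume_bd_le d Z
  have hsum : ∑ Z ∈ C.J, volume (dyc v m Z) ≤ volume Ω := by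
    have h3 := sum_dyc_le (v := v) (n := m) C.J (B := Ω) hsub (fun _ => 1)
    simpa using h3
  calc ∫⁻ y in Ω \ ⋃ z ∈ subJ C.J d, dyc v (m + d) z, ‖cl (F y)‖ₑ ^ p
      ≤ ∫⁻ y in (Ω \ ⋃ Z ∈ C.J, dyc v m Z) ∪ ⋃ Z ∈ C.J, B Z, ‖cl (F y)‖ₑ ^ p :=
        lintegral_mono_set hcov
    _ ≤ (∫⁻ y in Ω \ ⋃ Z ∈ C.J, dyc v m Z, ‖cl (F y)‖ₑ ^ p) +
        ∫⁻ y in ⋃ Z ∈ C.J, B Z, ‖cl (F y)‖ₑ ^ p := lintegral_union_le _ _ _
    _ ≤ ε + ∑ Z ∈ C.J, ∫⁻ y in B Z, ‖cl (F y)‖ₑ ^ p := by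
        refine add_le_add C.s2 ?_
        have hu : (⋃ Z ∈ C.J, B Z) = ⋃ Z : C.J, B Z := by
          ext x
          simp only [mem_iUnion, exists_prop, Subtype.exists]
        rw [hu]
        refine (lintegral_iUnion_le _ _).trans (le_of_eq ?_)
        exact Finset.tsum_subtype C.J fun Z => ∫⁻ y in B Z, ‖cl (F y)‖ₑ ^ p
    _ ≤ ε + ∑ Z ∈ C.J, 2 ^ (p - 1) * ((∫⁻ y in dyc v m Z, ‖cl (F y) - C.L Z‖ₑ ^ p) +
        ENNReal.ofReal M ^ p * (ENNReal.ofReal (6 / 2 ^ d) * volume (dyc v m Z))) := by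
        gcongr with Z hZ
        exact hone Z hZ
    _ = ε + 2 ^ (p - 1) * ((∑ Z ∈ C.J, ∫⁻ y in dyc v m Z, ‖cl (F y) - C.L Z‖ₑ ^ p) +
        ENNReal.ofReal M ^ p * (ENNReal.ofReal (6 / 2 ^ d) * ∑ Z ∈ C.J, volume (dyc v m Z))) := by
        rw [← Finset.mul_sum, Finset.sum_add_distrib, ← Finset.mul_sum, ← Finset.mul_sum]
    _ ≤ _ := by
        gcongr
        exact C.s1

end Vale.Agent.P073.H989
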