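import Vale.Agent.P073.H989.Gstar
import Vale.Agent.P073.H989.SubC
import Vale.Agent.P073.H989.Thin2c
import Vale.Agent.P073.H669.BaseI

/-!
# P073, [PRE-2], first stage: the good cells seen from the source and from the target
-/

namespace Vale.Agent.P073.H989

open MeasureTheory Set Filter Topology Metric Vale.Agent.P073.St Vale.Agent.P073.AB
open Vale.Agent.P073.SQ (ev)
open _root_.P073 (ConHomeo)
open _root_.P073.Net (dyc dyo)
open Vale.Agent.P073.H83 (CellsG)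
open Vale.Agent.P073.H234
open scoped ENNReal

/-- fewer conditions for a larger bound of the local sums -/
theorem Necks.mono {θ M β σ σ' : ℝ} {f : V → V} {v : V} {m j : ℕ} {J : Finset (Fin 3 → ℤ)}
    {A : (Fin 3 → ℤ) → V → V} (h : Nonempty (Necks θ M β σ f v m j J A)) (hσ : σ ≤ σ') :
    Nonempty (Necks θ M β σ' f v m j J A) := by
  obtain ⟨N⟩ := h
  exact ⟨{ N with loc := fun y => (N.loc y).trans (div_le_div_of_nonneg_right hσ (by positivity)) }⟩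

theorem CellsG.congr {θ M κ : ℝ} {m₁ n k : ℕ} {Ω Λ : Set V} {f : V → V} {v : V}
    {J : Finset (Fin 3 → ℤ)} {A A' : (Fin 3 → ℤ) → V → V} {L L' : (Fin 3 → ℤ) → V →L[ℝ] V}
    (H : CellsG θ M κ m₁ n k Ω Λ f v J A L) (hA : ∀ z ∈ J, A z = A' z)
    (hL : ∀ z ∈ J, L z = L' z) : CellsG θ M κ m₁ n k Ω Λ f v J A' L' where
  oΩ := H.oΩ
  oΛ := H.oΛ
  bΛ := H.bΛ
  hom := H.hom
  θ0 := H.θ0
  aff z hz := by rw [← hA z hz, ← hL z hz]; exact H.aff z hz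
  below z hz := by rw [← hL z hz]; exact H.below z hz
  above z hz := by rw [← hL z hz]; exact H.above z hz
  sub := H.sub
  close z hz := by rw [← hA z hz]; exact H.close z hz
  small := H.small
  core z hz := by rw [← hA z hz]; exact H.core z hz
  three_le := H.three_le

open Classical in
/-- the affine map of a cell; the identity if the cell is not good -/
noncomputable def Ad (A : (Fin 3 → ℤ) → V → V) (J : Finset (Fin 3 → ℤ)) (d : ℕ) :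
    (Fin 3 → ℤ) → V → V := fun z => if z ∈ subJ J d then A (par d z) else id

open Classical in
/-- its linear part -/
noncomputable def Ld (L : (Fin 3 → ℤ) → V →L[ℝ] V) (J : Finset (Fin 3 → ℤ)) (d : ℕ) :
    (Fin 3 → ℤ) → V →L[ℝ] V :=
  fun z => if z ∈ subJ J d then L (par d z) else ContinuousLinearMap.id ℝ V

theorem Ad_of {A : (Fin 3 → ℤ) → V → V} {J : Finset (Fin 3 → ℤ)} {d : ℕ} {z : Fin 3 → ℤ}
    (hz : z ∈ subJ J d) : Ad A J d z = A (par d z) := by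
  unfold Ad
  rw [if_pos hz]

theorem Ld_of {L : (Fin 3 → ℤ) → V →L[ℝ] V} {J : Finset (Fin 3 → ℤ)} {d : ℕ} {z : Fin 3 → ℤ}
    (hz : z ∈ subJ J d) : Ld L J d z = L (par d z) := by
  unfold Ld
  rw [if_pos hz]

variable {p : ℝ} {ε : ℝ≥0∞} {θ M κ c₀ t₀ δ₀ ε₁ β σ : ℝ} {j m d k₁ k₀ m₁ : ℕ} {Ω Λ : Set V}
  {f : V → V} {F : V → Mat} {T : Set V} {v : V}

theorem Ad_aff (C : P2Cells p ε θ M κ c₀ t₀ δ₀ j Ω Λ f F T v m) (d : ℕ) (z : Fin 3 → ℤ)
    (x y : V) : Ad C.A C.J d z y - Ad C.A C.J d z x = Ld C.L C.J d z (y - x) := by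
  by_cases hz : z ∈ subJ C.J d
  · rw [Ad_of hz, Ld_of hz]
    exact C.aff _ ((subCells C d).mem z hz) x y
  · unfold Ad Ld
    rw [if_neg hz, if_neg hz]
    rfl

/-- the dyadic coefficients -/
theorem Ad_dyad (C : P2Cells p ε θ M κ c₀ t₀ δ₀ j Ω Λ f F T v m) (d : ℕ) :
    ∃ N : ℕ, (∀ z ∈ subJ C.J d, ∀ i k, ∃ a : ℤ, Ld C.L C.J d z (ev k) i = a / 2 ^ N) ∧
      ∀ z ∈ subJ C.J d, ∀ i, ∃ a : ℤ, Ad C.A C.J d z v i = a / 2 ^ N := by
  obtain ⟨N, hN⟩ := C.dyad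
  refine ⟨N, fun z hz => ?_, fun z hz => ?_⟩
  · rw [Ld_of hz]
    exact (hN _ ((subCells C d).mem z hz)).1
  · rw [Ad_of hz]
    exact (hN _ ((subCells C d).mem z hz)).2

/-- **the target grid data** -/
theorem exists_gcells (hΩ : St.IsBoundedDomain Ω) (hΛ : St.IsBoundedDomain Λ)
    (hf : St.IsHomeo Ω Λ f) (rat : RatGood v Ω f F)
    (C : P2Cells p ε θ M κ c₀ t₀ δ₀ j Ω Λ f F T v m)
    (hT : TSet θ M κ t₀ δ₀ ε₁ Ω f F T) (hN : Num θ M κ β)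
    (Nk : Nonempty (Necks θ M β σ f v m j C.J C.A)) (hc₀ : 4 / 2 ^ m < c₀)
    (hσ0 : 0 < σ) (hσ : σ ≤ β / 2) (hσ' : σ ≤ 1 / 40) {k₂ : ℕ}
    (hj : j = d + k₁ + k₀ + k₂) (hk₁ : 3 ≤ k₁)
    (hk₂ : cst θ M β < θ * 2 ^ (k₀ + k₂)) (ks : ℕ) :
    ∃ g : V → V, CellsG θ M (cst θ M β / 2 ^ k₂ / 2 ^ (m + d + k₁ + k₀)) (m + d + ks) (m + d) k₁
      Ω Λ g v (subJ C.J d) (Ad C.A C.J d) (Ld C.L C.J d) := by
  obtain ⟨Nk⟩ := Nk
  have hβ := hN.β0
  have hβ1 := hN.β1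
  have hM := hN.M0
  have hθ := hN.θ0
  have hjj : m + j = m + d + k₁ + k₀ + k₂ := by omega
  have hpm : (0:ℝ) < 2 ^ m := by positivity
  have hle : (1:ℝ) / 2 ^ (m + j) ≤ 1 / 2 ^ m := one_lat m j
  have h1 : β / 2 ^ (m + j) ≤ δ₀ / 2 := by
    have h2 := C.fine
    have h3 : β / 2 ^ (m + j) ≤ β / 2 ^ m := by
      gcongr
      · norm_num
      · omega
    have h4 : β / 2 ^ m ≤ (64 * (M + 1) / 2 ^ m) / 2 := by
      rw [div_div, mul_comm ((2:ℝ) ^ m) 2, ← div_div]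
      gcongr
      linarith
    linarith
  have h2 : 4 / 2 ^ (m + j) < c₀ := by
    refine lt_of_le_of_lt ?_ hc₀
    gcongr
    · norm_num
    · omega
  have e : cst θ M β / 2 ^ (m + j) = cst θ M β / 2 ^ k₂ / 2 ^ (m + d + k₁ + k₀) := by
    rw [hjj, pow_add _ (m + d + k₁ + k₀), div_div, mul_comm ((2:ℝ) ^ k₂)]
  have hp : (0:ℝ) < 2 ^ (k₀ + k₂) := by positivity
  have h3 : cst θ M β / 2 ^ (m + j) < θ * (1 / 2 ^ (m + d + k₁)) := by
    have h4 : cst θ M β / 2 ^ (k₀ + k₂) < θ := by rwa [div_lt_iff₀ hp]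
    have e2 : m + j = (m + d + k₁) + (k₀ + k₂) := by omega
    have hp1 : (0:ℝ) < 1 / 2 ^ (m + d + k₁) := by positivity
    calc cst θ M β / 2 ^ (m + j) = cst θ M β / 2 ^ (k₀ + k₂) * (1 / 2 ^ (m + d + k₁)) := by
          rw [e2, pow_add _ (m + d + k₁) (k₀ + k₂), div_mul_div_comm, mul_one,
            mul_comm ((2:ℝ) ^ (m + d + k₁))]
      _ < θ * (1 / 2 ^ (m + d + k₁)) := mul_lt_mul_of_pos_right h4 hp1
  have hm₁ : 4 / 2 ^ (m + d + ks) ≤ c₀ := by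
    refine le_trans ?_ hc₀.le
    exact div_le_div_of_nonneg_left (by norm_num) (by positivity)
      (pow_le_pow_right₀ (by norm_num) (by omega))
  obtain ⟨g, hg⟩ := exists_gstar hΩ hΛ hf rat (by omega) hT hN Nk h1 h2 hσ0 hσ hσ'
    (subCells C d) (by omega) hk₁ h3 hm₁
  rw [e] at hg
  exact ⟨g.toFun, CellsG.congr hg (fun z hz => (Ad_of hz).symm) fun z hz => (Ld_of hz).symm⟩

/-- **`LocJ`** -/
theorem locJ_sub {κT : ℝ} (HT : TSet θ M κT t₀ δ₀ ε₁ Ω f F T) (hκT : κT ≤ θ / 2) (hθ : 0 < θ)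
    (ht₀ : 0 < t₀) (C : P2Cells p ε θ M κ c₀ t₀ δ₀ j Ω Λ f F T v m) (hκ : 0 ≤ κ) (hκ1 : κ ≤ 1)
    (hθM : θ ≤ M) (hj : d + k₁ ≤ j) {ks : ℕ} (h1 : 32 / 2 ^ ks ≤ θ)
    (h2 : 32 * (M + 1) / 2 ^ k₁ ≤ θ) :
    LocJ v (m + d) (m + d + ks) (subJ C.J d) (Ad C.A C.J d) := by
  have hM : 0 < M := hθ.trans_le hθM
  have hn : (0:ℝ) < 1 / 2 ^ (m + d) := by positivity
  refine locJ_of HT hκT hθ ht₀ C hκ hθM (Nat.le_add_right m d) (by omega) ?_ ?_ ?_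
  · intro z hz
    refine ⟨par d z, (subCells C d).mem z hz,
      ((subCells C d).sub z hz).trans P86.dyo_sub_dyc, Ad_of hz⟩
  · have e : (32:ℝ) * (1 / 2 ^ (m + d + ks)) = 32 / 2 ^ ks * (1 / 2 ^ (m + d)) := by
      rw [pow_add _ (m + d) ks, div_mul_div_comm, mul_one, mul_one_div, mul_comm ((2:ℝ) ^ ks)]
    rw [e]
    exact mul_le_mul_of_nonneg_right h1 hn.le
  · have h3 : (1:ℝ) / 2 ^ (m + j) ≤ 1 / 2 ^ (m + d + k₁) := by
      apply one_div_le_one_div_of_le (by positivity)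
      exact pow_le_pow_right₀ (by norm_num) (by omega)
    calc 32 * (M + κ) * (1 / 2 ^ (m + j)) ≤ 32 * (M + 1) * (1 / 2 ^ (m + d + k₁)) := by gcongr
      _ = 32 * (M + 1) / 2 ^ k₁ * (1 / 2 ^ (m + d)) := by
          rw [pow_add _ (m + d) k₁, div_mul_div_comm, mul_one, mul_one_div,
            mul_comm ((2:ℝ) ^ k₁)]
      _ ≤ θ * (1 / 2 ^ (m + d)) := mul_le_mul_of_nonneg_right h2 hn.le

/-- **`Fine`** -/
theorem fine_sub (hΩ : St.IsBoundedDomain Ω)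
    (C : P2Cells p ε θ M κ c₀ t₀ δ₀ j Ω Λ f F T v m) (hc₀ : 4 / 2 ^ m < c₀) (hk₁ : 2 ≤ k₁) :
    H669.Fine Ω v (m + d) k₁ k₀ (subJ C.J d) := by
  refine H669.Fine.of hΩ.1 (PK.isBounded_of_domain hΩ) hΩ.2.1.nonempty hk₁ fun z hz w hw => ?_
  have hT := specTiles Ω (m + d + k₁ + k₀) v hΩ.1 (PK.isBounded_of_domain hΩ) hΩ.2.1.nonempty
  refine hT.2.2.2.2 w fun x hx => ?_
  have hle : (1:ℝ) / 2 ^ (m + d + k₁ + k₀) ≤ 1 / 2 ^ m := by
    apply one_div_le_one_div_of_le (by positivity)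
    exact pow_le_pow_right₀ (by norm_num) (by omega)
  have h4 : (1:ℝ) / 2 ^ m ≤ 4 / 2 ^ m := by gcongr; norm_num
  obtain ⟨y, hy, hxy⟩ := Touch.near (v := v) (n := m + d) (N := m + d + k₁ + k₀) hw hx
  have h5 := (C.dist _ ((subCells C d).mem z hz) x
    ⟨y, P86.dyo_sub_dyc ((subCells C d).sub z hz hy), hxy.trans (hle.trans h4)⟩).1
  linarith

/-- the energy on the cells -/
theorem es1_sub (C : P2Cells p ε θ M κ c₀ t₀ δ₀ j Ω Λ f F T v m) (d : ℕ) :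
    ∑ z ∈ subJ C.J d, ∫⁻ y in dyc v (m + d) z, ‖cl (F y) - Ld C.L C.J d z‖ₑ ^ p ≤ ε := by
  refine le_trans (le_of_eq ?_) (sub_es1 C d)
  exact Finset.sum_congr rfl fun z hz => by rw [Ld_of hz]

/-- transfer of the result of the net to the maps `Ad` -/
theorem NetRes2.congr {I : Set Idx} {n k₁ k₀ : ℕ} {J : Finset (Fin 3 → ℤ)} {C ε ε' τ : ℝ}
    {A A' : (Fin 3 → ℤ) → V → V} {σ : V → ℝ} {δ : Idx × Fin 3 → ℝ} {h : V → V}
    (H : NetRes2 v I n k₁ k₀ J C ε τ A f F Ω σ δ h) (hA : ∀ z ∈ J, A z = A' z) (hε : ε ≤ ε') :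
    NetRes2 v I n k₁ k₀ J C ε' τ A' f F Ω σ δ h where
  near x hx := (H.near x hx).trans hε
  layer z hz := by rw [← hA z hz]; exact H.layer z hz
  inn z hz := by rw [← hA z hz]; exact H.inn z hz
  box z hz := by rw [← hA z hz]; exact H.box z hz
  gap := H.gap
  own z hz := by rw [← hA z hz]; exact H.own z hz
  osq s h1 h2 h3 := by
    obtain ⟨z, hz, h4, h5, h6⟩ := H.osq s h1 h2 h3
    refine ⟨z, hz, h4, h5, ?_⟩
    rw [← hA z hz]
    exact h6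
  off S h1 h2 h3 h4 := by
    rcases H.off S h1 h2 h3 h4 with h5 | h5
    · exact Or.inl h5
    · refine Or.inr fun D hD => ⟨(h5 D hD).1, fun x hx => ?_⟩
      obtain ⟨z, hz, y, hy, h6, h7⟩ := (h5 D hD).2 x hx
      refine ⟨z, hz, y, hy, h6, ?_⟩
      rw [← hA z hz]
      exact h7
  len := H.len

end Vale.Agent.P073.H989
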