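import Mathlib

open Set

namespace Vale.Agent.P073.H989

/-- The clamp of `t` to `[0, H]`. -/
noncomputable def cl (H t : ℝ) : ℝ := max 0 (min t H)

variable {H s t : ℝ}

theorem cl_nonneg : 0 ≤ cl H t := le_max_left _ _

theorem cl_le (hH : 0 ≤ H) : cl H t ≤ H := max_le hH (min_le_right _ _)

theorem cl_mono (hst : s ≤ t) : cl H s ≤ cl H t :=
  max_le_max le_rfl (min_le_min hst le_rfl)

theorem cl_of_le (ht : t ≤ 0) : cl H t = 0 := max_eq_left ((min_le_left _ _).trans ht)

theorem cl_of_ge (hH : 0 ≤ H) (ht : H ≤ t) : cl H t = H := by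
  rw [cl, min_eq_right ht, max_eq_right hH]

theorem cl_of_mem (h0 : 0 ≤ t) (h1 : t ≤ H) : cl H t = t := by
  rw [cl, min_eq_left h1, max_eq_right h0]

theorem cl_sub_le (hst : s ≤ t) : cl H t - cl H s ≤ t - s := by
  unfold cl
  rcases le_total t H with h1 | h1 <;> rcases le_total s H with h2 | h2 <;>
  simp only [min_eq_left, min_eq_right, h1, h2] <;>
  rcases le_total 0 t with h3 | h3 <;> rcases le_total 0 s with h4 | h4 <;>
  rcases le_total 0 H with h5 | h5 <;>
  simp only [max_eq_left, max_eq_right, h3, h4, h5] <;> linarith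

theorem continuous_cl : Continuous (cl H) := by unfold cl; fun_prop

/-- Total length of the stripes `[b i, b i + H]`, `i < m`, below the level `t`. -/
noncomputable def tot (H : ℝ) (m : ℕ) (b : ℕ → ℝ) (t : ℝ) : ℝ :=
  ∑ i ∈ Finset.range m, cl H (t - b i)

variable {m : ℕ} {b b' : ℕ → ℝ}

theorem tot_succ : tot H (m + 1) b t = tot H m b t + cl H (t - b m) := by
  rw [tot, Finset.sum_range_succ, ← tot]

theorem tot_nonneg : 0 ≤ tot H m b t := Finset.sum_nonneg fun _ _ => cl_nonneg

theorem tot_le (hH : 0 ≤ H) : tot H m b t ≤ m * H := by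
  have : tot H m b t ≤ ∑ i ∈ Finset.range m, H := Finset.sum_le_sum fun _ _ => cl_le hH
  simpa using this

theorem tot_mono (hst : s ≤ t) : tot H m b s ≤ tot H m b t :=
  Finset.sum_le_sum fun i _ => cl_mono (by linarith)

theorem tot_mono' {δ : ℝ} (h : ∀ i < m, b' i - δ ≤ b i) : tot H m b t ≤ tot H m b' (t + δ) :=
  Finset.sum_le_sum fun i hi => cl_mono (by have := h i (Finset.mem_range.1 hi); linarith)

theorem sep_le (hH : 0 ≤ H) (hb : ∀ i, i + 1 < m → b i + H ≤ b (i + 1)) {i j : ℕ} (hij : i < j)
    (hj : j < m) : b i + H ≤ b j := by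
  induction j, hij using Nat.le_induction with
  | base => exact hb i hj
  | succ j hij ih =>
    have h1 := ih (by omega)
    have h2 := hb j hj
    linarith

theorem tot_full (hH : 0 ≤ H) (h : ∀ i < m, b i + H ≤ t) : tot H m b t = m * H := by
  have : tot H m b t = ∑ i ∈ Finset.range m, H :=
    Finset.sum_congr rfl fun i hi => cl_of_ge hH (by have := h i (Finset.mem_range.1 hi); linarith)
  simpa using this

theorem tot_sub_le (hH : 0 ≤ H) (hb : ∀ i, i + 1 < m → b i + H ≤ b (i + 1)) (hst : s ≤ t) :
    tot H m b t - tot H m b s ≤ t - s := by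
  induction m generalizing s t with
  | zero => simp only [tot, Finset.range_zero, Finset.sum_empty]; linarith
  | succ m ih =>
    have ih' : ∀ {s t : ℝ}, s ≤ t → tot H m b t - tot H m b s ≤ t - s :=
      fun h => ih (fun i hi => hb i (by omega)) h
    rw [tot_succ, tot_succ]
    have hfull : ∀ r, b m ≤ r → tot H m b r = m * H := fun r hr =>
      tot_full hH (fun i hi => (sep_le hH hb hi (by omega)).trans hr)
    rcases le_total t (b m) with h1 | h1
    · rw [cl_of_le (by linarith : t - b m ≤ 0), cl_of_le (by linarith : s - b m ≤ 0)]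
      linarith [ih' hst]
    · rcases le_total (b m) s with h2 | h2
      · rw [hfull t h1, hfull s h2]
        have := cl_sub_le (H := H) (by linarith : s - b m ≤ t - b m)
        linarith
      · have h3 := ih' h2
        rw [hfull (b m) le_rfl] at h3
        rw [hfull t h1, cl_of_le (by linarith : s - b m ≤ 0)]
        have := cl_sub_le (H := H) (by linarith : (0 : ℝ) ≤ t - b m)
        rw [cl_of_le le_rfl] at this
        linarith

theorem tot_sub_eq (hH : 0 < H) (hb : ∀ i, i + 1 < m → b i + H ≤ b (i + 1)) (hst : s ≤ t)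
    (hcov : ∀ r, s ≤ r → r ≤ t → ∃ i < m, b i ≤ r ∧ r ≤ b i + H) :
    tot H m b t - tot H m b s = t - s := by
  induction m generalizing s t with
  | zero =>
    obtain ⟨i, hi, _⟩ := hcov s le_rfl hst
    omega
  | succ m ih =>
    rcases hst.eq_or_lt with rfl | hlt
    · simp
    have ih' : ∀ {s t : ℝ}, s ≤ t → (∀ r, s ≤ r → r ≤ t → ∃ i < m, b i ≤ r ∧ r ≤ b i + H) →
        tot H m b t - tot H m b s = t - s :=
      fun h h' => ih (fun i hi => hb i (by omega)) h h'
    have hfull : ∀ r, b m ≤ r → tot H m b r = m * H := fun r hr =>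
      tot_full hH.le (fun i hi => (sep_le hH.le hb hi (by omega)).trans hr)
    -- points below `b m` are covered by the first `m` stripes
    have hcov1 : ∀ r, s ≤ r → r ≤ t → r < b m → ∃ i < m, b i ≤ r ∧ r ≤ b i + H := by
      intro r h1 h2 h3
      obtain ⟨i, hi, h4, h5⟩ := hcov r h1 h2
      rcases Nat.lt_or_ge i m with h | h
      · exact ⟨i, h, h4, h5⟩
      · obtain rfl : i = m := by omega
        linarith
    -- the same for `b m` itself if it is larger than `s`
    have hcov2 : s < b m → b m ≤ t → ∃ i < m, b i ≤ b m ∧ b m ≤ b i + H := by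
      intro h1 h2
      by_contra hcon
      push Not at hcon
      have h3 : ∀ i < m, b i + H < b m := fun i hi =>
        hcon i hi (by have := sep_le hH.le hb hi (by omega); linarith)
      -- choose a point strictly between
      have : ∃ r, s ≤ r ∧ r < b m ∧ ∀ i < m, b i + H < r := by
        have hfin : ∀ n ≤ m, ∃ r, s ≤ r ∧ r < b m ∧ ∀ i < n, b i + H < r := by
          intro n
          induction n with
          | zero => intro _; exact ⟨s, le_rfl, h1, fun i hi => by omega⟩
          | succ n ihn =>
            intro hn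
            obtain ⟨r, hr1, hr2, hr3⟩ := ihn (by omega)
            obtain ⟨r', hr4, hr5⟩ := exists_between (max_lt hr2 (h3 n (by omega)))
            refine ⟨r', hr1.trans ((le_max_left _ _).trans hr4.le), hr5, ?_⟩
            intro i hi
            rcases Nat.lt_or_ge i n with h | h
            · exact (hr3 i h).trans ((le_max_left _ _).trans_lt hr4)
            · obtain rfl : i = n := by omega
              exact (le_max_right _ _).trans_lt hr4
        exact hfin m le_rfl
      obtain ⟨r, hr1, hr2, hr3⟩ := this
      obtain ⟨i, hi, h4, h5⟩ := hcov1 r hr1 (hr2.le.trans h2) hr2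
      linarith [hr3 i hi]
    rw [tot_succ, tot_succ]
    rcases le_or_gt t (b m) with h1 | h1
    · rw [cl_of_le (by linarith : t - b m ≤ 0), cl_of_le (by linarith : s - b m ≤ 0)]
      have : tot H m b t - tot H m b s = t - s := by
        refine ih' hst ?_
        intro r hr1 hr2
        rcases (hr2.trans h1).eq_or_lt with h | h
        · have h4 : r = t := le_antisymm hr2 (h ▸ h1)
          rw [h]
          exact hcov2 (by rw [← h, h4]; exact hlt) (by rw [← h]; exact hr2)
        · exact hcov1 r hr1 hr2 h
      linarith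
    · rcases le_or_gt (b m) s with h2 | h2
      · rw [hfull t h1.le, hfull s h2]
        have h3 : t ≤ b m + H := by
          obtain ⟨i, hi, h4, h5⟩ := hcov t hst le_rfl
          rcases Nat.lt_or_ge i m with h | h
          · have := sep_le hH.le hb h (by omega)
            linarith
          · obtain rfl : i = m := by omega
            exact h5
        rw [cl_of_mem (by linarith) (by linarith), cl_of_mem (by linarith) (by linarith)]
        ring
      · have h3 : tot H m b (b m) - tot H m b s = b m - s := by
          refine ih' h2.le ?_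
          intro r hr1 hr2
          rcases hr2.eq_or_lt with h | h
          · rw [h]; exact hcov2 h2 h1.le
          · exact hcov1 r hr1 (hr2.trans h1.le) h
        have h4 : t ≤ b m + H := by
          obtain ⟨i, hi, h4, h5⟩ := hcov t hst le_rfl
          rcases Nat.lt_or_ge i m with h | h
          · have := sep_le hH.le hb h (by omega)
            linarith
          · obtain rfl : i = m := by omega
            exact h5
        rw [hfull (b m) le_rfl] at h3
        rw [hfull t h1.le, cl_of_le (by linarith : s - b m ≤ 0),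
          cl_of_mem (by linarith) (by linarith)]
        linarith

theorem tot_lip (hH : 0 ≤ H) (hb : ∀ i, i + 1 < m → b i + H ≤ b (i + 1))
    (hb' : ∀ i, i + 1 < m → b' i + H ≤ b' (i + 1)) {δ : ℝ} (hδ : 0 ≤ δ)
    (h : ∀ i < m, |b i - b' i| ≤ δ) : |tot H m b t - tot H m b' t| ≤ δ := by
  rw [abs_le]
  constructor
  · have h1 : tot H m b' t ≤ tot H m b (t + δ) :=
      tot_mono' (fun i hi => by have := (abs_le.1 (h i hi)).2; linarith)
    have h2 := tot_sub_le (t := t + δ) (s := t) hH hb (by linarith)
    linarith
  · have h1 : tot H m b t ≤ tot H m b' (t + δ) :=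
      tot_mono' (fun i hi => by have := (abs_le.1 (h i hi)).1; linarith)
    have h2 := tot_sub_le (t := t + δ) (s := t) hH hb' (by linarith)
    linarith

end Vale.Agent.P073.H989
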