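import Vale.Agent.P073.H989.Stripes
import Vale.Agent.P073.H989.Pack

open Set Metric Topology

namespace Vale.Agent.P073.H989

variable {E : Type*} [NormedAddCommGroup E] [NormedSpace ℝ E]

/-- Data of a packing of stripes. -/
structure IsPack (l : E →L[ℝ] ℝ) (e : E) (a H : ℝ) (m : ℕ) (b : ℕ → E → ℝ) : Prop where
  he : l e = 1
  ha : 0 < a
  hH : 0 < H
  lip : ∀ i < m, ∀ y z, |b i y - b i z| ≤ ‖hp l e (y - z)‖ / a
  sep : ∀ i, i + 1 < m → ∀ y, b i y + H ≤ b (i + 1) y

/-- Total thickness of the stripes below the point `y`. -/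
noncomputable def thick (l : E →L[ℝ] ℝ) (H : ℝ) (m : ℕ) (b : ℕ → E → ℝ) (y : E) : ℝ :=
  tot H m (fun i => b i y) (l y)

namespace IsPack

variable {l : E →L[ℝ] ℝ} {e : E} {a H : ℝ} {m : ℕ} {b : ℕ → E → ℝ}
variable (P : IsPack l e a H m b)
include P

theorem norm_pos : 0 < ‖e‖ := by
  rw [norm_pos_iff]
  rintro rfl
  have := P.he
  simp at this

theorem b_vert {i : ℕ} (hi : i < m) (y : E) (t : ℝ) : b i (y + t • e) = b i y := by
  have := P.lip i hi (y + t • e) y
  rw [add_sub_cancel_left, hp_smul, hp_e P.he, smul_zero, norm_zero, zero_div] at this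
  have h2 := abs_nonpos_iff.1 this
  linarith

theorem l_vert (y : E) (t : ℝ) : l (y + t • e) = l y + t := by simp [P.he]

theorem continuous_b {i : ℕ} (hi : i < m) : Continuous (b i) := continuous_of_hpLip (P.lip i hi)

theorem thick_nonneg (y : E) : 0 ≤ thick l H m b y := by
  have := P.hH
  exact tot_nonneg

theorem thick_le (y : E) : thick l H m b y ≤ m * H := tot_le P.hH.le

theorem thick_congr (y : E) (t : ℝ) :
    thick l H m b (y + t • e) = tot H m (fun i => b i y) (l y + t) := by
  rw [thick, P.l_vert]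
  refine Finset.sum_congr rfl fun i hi => ?_
  show cl H (l y + t - b i (y + t • e)) = cl H (l y + t - b i y)
  rw [P.b_vert (Finset.mem_range.1 hi)]

theorem thick_mono (y : E) {s t : ℝ} (hst : s ≤ t) :
    thick l H m b (y + s • e) ≤ thick l H m b (y + t • e) := by
  rw [P.thick_congr, P.thick_congr]
  exact tot_mono (by linarith)

theorem thick_sub_le (y : E) {s t : ℝ} (hst : s ≤ t) :
    thick l H m b (y + t • e) - thick l H m b (y + s • e) ≤ t - s := by
  rw [P.thick_congr, P.thick_congr]
  have := tot_sub_le (b := fun i => b i y) (m := m) P.hH.le (fun i hi => P.sep i hi y)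
    (by linarith : l y + s ≤ l y + t)
  linarith

theorem thick_lip (y z : E) :
    |thick l H m b y - thick l H m b z| ≤ ‖hp l e (y - z)‖ / a + |l y - l z| := by
  have ha := P.ha
  have hq : 0 ≤ ‖hp l e (y - z)‖ / a := by positivity
  -- compare at the same height
  set z' : E := z + (l y - l z) • e with hz'
  have h1 : |thick l H m b y - thick l H m b z'| ≤ ‖hp l e (y - z)‖ / a := by
    have h2 : thick l H m b z' = tot H m (fun i => b i z) (l y) := by
      rw [hz', P.thick_congr]; congr 1; ring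
    rw [h2, thick]
    exact tot_lip P.hH.le (fun i hi => P.sep i hi y) (fun i hi => P.sep i hi z) hq
      (fun i hi => P.lip i hi y z)
  have h3 : |thick l H m b z' - thick l H m b z| ≤ |l y - l z| := by
    have h0 : z = z + (0 : ℝ) • e := by simp
    rcases le_total 0 (l y - l z) with h | h
    · rw [abs_of_nonneg h, abs_le]
      have h4 := P.thick_mono z h
      have h5 := P.thick_sub_le z h
      rw [← h0, ← hz'] at h4 h5
      constructor <;> linarith
    · rw [abs_of_nonpos h, abs_le]
      have h4 := P.thick_mono z h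
      have h5 := P.thick_sub_le z h
      rw [← h0, ← hz'] at h4 h5
      constructor <;> linarith
  calc |thick l H m b y - thick l H m b z|
      = |(thick l H m b y - thick l H m b z') + (thick l H m b z' - thick l H m b z)| := by
        congr 1; ring
    _ ≤ _ := (abs_add_le _ _).trans (add_le_add h1 h3)

theorem continuous_thick : Continuous (thick l H m b) := by
  have h : ∀ i ∈ Finset.range m, Continuous (fun y : E => cl H (l y - b i y)) := fun i hi =>
    continuous_cl.comp (l.continuous.sub (P.continuous_b (Finset.mem_range.1 hi)))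
  exact continuous_finsetSum _ h

/-- On the interior of the stripes, the thickness grows with slope one in direction `e`. -/
theorem thick_eq_of_segment (y : E) {s t : ℝ} (hst : s ≤ t)
    (h : ∀ r, s ≤ r → r ≤ t → y + r • e ∈ stripe l H m b) :
    thick l H m b (y + t • e) - thick l H m b (y + s • e) = t - s := by
  rw [P.thick_congr, P.thick_congr]
  have := tot_sub_eq (b := fun i => b i y) (m := m) P.hH (fun i hi => P.sep i hi y)
    (by linarith : l y + s ≤ l y + t) (by
      intro r h1 h2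
      obtain ⟨i, hi, h3, h4⟩ := h (r - l y) (by linarith) (by linarith)
      rw [P.l_vert, P.b_vert hi] at h3 h4
      exact ⟨i, hi, by linarith, by linarith⟩)
  linarith

theorem isClosed_stripe : IsClosed (stripe l H m b) := by
  have : stripe l H m b = ⋃ i ∈ Finset.range m, {y | b i y ≤ l y ∧ l y ≤ b i y + H} := by
    ext y
    simp only [stripe, mem_ofPred_eq, mem_iUnion, Finset.mem_range, exists_prop]
  rw [this]
  refine (Finset.range m).finite_toSet.isClosed_biUnion (fun i hi => ?_)
  have hi' : i < m := by simpa using hi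
  exact (isClosed_le (P.continuous_b hi') l.continuous).inter
    (isClosed_le l.continuous ((P.continuous_b hi').add continuous_const))

/-- Off the closed stripes the thickness is locally constant. -/
theorem eventually_thick_eq {y : E} (hy : y ∉ stripe l H m b) :
    ∀ᶠ z in 𝓝 y, thick l H m b z = thick l H m b y := by
  have h : ∀ i ∈ Finset.range m, ∀ᶠ z in 𝓝 y, cl H (l z - b i z) = cl H (l y - b i y) := by
    intro i hi
    have hi' : i < m := Finset.mem_range.1 hi
    have hcont : Continuous (fun z : E => l z - b i z) := l.continuous.sub (P.continuous_b hi')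
    have hnot : ¬ (b i y ≤ l y ∧ l y ≤ b i y + H) := fun hc => hy ⟨i, hi', hc.1, hc.2⟩
    rcases lt_or_ge (l y) (b i y) with h1 | h1
    · have : ∀ᶠ z in 𝓝 y, l z - b i z < 0 :=
        hcont.continuousAt.eventually_lt continuousAt_const (by linarith)
      filter_upwards [this] with z hz
      rw [cl_of_le hz.le, cl_of_le (by linarith)]
    · have h2 : b i y + H < l y := by
        by_contra hc
        exact hnot ⟨h1, not_lt.1 hc⟩
      have : ∀ᶠ z in 𝓝 y, H < l z - b i z :=
        continuousAt_const.eventually_lt hcont.continuousAt (by linarith)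
      filter_upwards [this] with z hz
      rw [cl_of_ge P.hH.le hz.le, cl_of_ge P.hH.le (by linarith)]
  have h' := (Filter.eventually_all_finset (Finset.range m)).2 h
  filter_upwards [h'] with z hz
  exact Finset.sum_congr rfl hz

/-- In the interior of the stripes, locally `thick y = l y - c (hp y)`. -/
theorem thick_interior {y : E} {r : ℝ} (hr : ball y r ⊆ stripe l H m b) {z w : E}
    (hz : z ∈ ball y r) (hw : w ∈ ball y r) (hzw : hp l e z = hp l e w) :
    l z - thick l H m b z = l w - thick l H m b w := by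
  have key : ∀ z w : E, z ∈ ball y r → w ∈ ball y r → hp l e z = hp l e w → l z ≤ l w →
      l z - thick l H m b z = l w - thick l H m b w := by
    intro z w hz hw hzw hle
    have hw' : w = z + (l w - l z) • e := by
      have h1 : w - z = (l w - l z) • e := by
        have h2 : w = hp l e w + l w • e := by simp [hp]
        have h3 : z = hp l e z + l z • e := by simp [hp]
        rw [h2, h3, hzw]
        have h4 : l (hp l e w + l w • e) = l w := by rw [← h2]
        have h5 : l (hp l e w + l z • e) = l z := by rw [← hzw, ← h3]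
        rw [h4, h5, sub_smul]; abel
      rw [← h1]; abel
    have h6 := P.thick_eq_of_segment z (s := 0) (t := l w - l z) (by linarith) (by
      intro q h1 h2
      apply hr
      rcases (sub_nonneg.2 hle).eq_or_lt with h0 | h0
      · have : q = 0 := by linarith
        simpa [this] using hz
      · have hseg : z + q • e ∈ segment ℝ z w := by
          rw [segment_eq_image']
          refine ⟨q / (l w - l z), ⟨by positivity, by rw [div_le_one h0]; exact h2⟩, ?_⟩
          have : w - z = (l w - l z) • e := by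
            nth_rewrite 1 [hw']; abel
          show z + (q / (l w - l z)) • (w - z) = z + q • e
          rw [this, smul_smul, div_mul_cancel₀ _ h0.ne']
        exact (convex_ball y r).segment_subset hz hw hseg)
    rw [← hw'] at h6
    simp only [zero_smul, add_zero, sub_zero] at h6
    linarith
  rcases le_total (l z) (l w) with h | h
  · exact key z w hz hw hzw h
  · exact (key w z hw hz hzw.symm h).symm

omit P in
theorem norm_hp_le (w : E) : ‖hp l e w‖ ≤ (1 + ‖l‖ * ‖e‖) * ‖w‖ := by
  have h1 : |l w| ≤ ‖l‖ * ‖w‖ := l.le_opNorm w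
  calc ‖hp l e w‖ ≤ ‖w‖ + ‖l w • e‖ := norm_sub_le _ _
    _ = ‖w‖ + |l w| * ‖e‖ := by rw [norm_smul, Real.norm_eq_abs]
    _ ≤ ‖w‖ + (‖l‖ * ‖w‖) * ‖e‖ := by gcongr
    _ = _ := by ring

end IsPack

/-- The squeezing map. -/
noncomputable def sqz (l : E →L[ℝ] ℝ) (e : E) (θ H : ℝ) (m : ℕ) (b : ℕ → E → ℝ) (χ : E → ℝ)
    (y : E) : E := y - (θ * χ y * thick l H m b y) • e

/-- Hypotheses on the cut-off. -/
structure IsCut (e : E) (θ H L : ℝ) (m : ℕ) (χ : E → ℝ) : Prop where
  th0 : 0 ≤ θ
  th1 : θ < 1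
  L0 : 0 ≤ L
  c0 : ∀ y, 0 ≤ χ y
  c1 : ∀ y, χ y ≤ 1
  cL : ∀ y z, |χ y - χ z| ≤ L * ‖y - z‖
  small : L * ‖e‖ * (m * H) ≤ (1 - θ) / 2

section

variable {l : E →L[ℝ] ℝ} {e : E} {a H θ L : ℝ} {m : ℕ} {b : ℕ → E → ℝ} {χ : E → ℝ}
variable (P : IsPack l e a H m b) (C : IsCut e θ H L m χ)
include P

theorem hp_sqz (y : E) : hp l e (sqz l e θ H m b χ y) = hp l e y := by
  rw [sqz, sub_eq_add_neg, ← neg_smul, hp_add_smul_e P.he]

theorem l_sqz (y : E) :
    l (sqz l e θ H m b χ y) = l y - θ * χ y * thick l H m b y := by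
  simp [sqz, P.he]

omit P in
theorem sqz_of_zero {y : E} (hy : χ y = 0) : sqz l e θ H m b χ y = y := by simp [sqz, hy]

include C

theorem sqz_dist (y : E) : ‖sqz l e θ H m b χ y - y‖ ≤ m * H * ‖e‖ := by
  have h1 : sqz l e θ H m b χ y - y = -((θ * χ y * thick l H m b y) • e) := by
    rw [sqz]; abel
  rw [h1, norm_neg, norm_smul, Real.norm_eq_abs]
  have h2 := P.thick_le y
  have h3 := P.thick_nonneg y
  have h4 : 0 ≤ θ * χ y := mul_nonneg C.th0 (C.c0 y)
  have h5 : θ * χ y ≤ 1 := mul_le_one₀ C.th1.le (C.c0 y) (C.c1 y)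
  rw [abs_of_nonneg (mul_nonneg h4 h3)]
  refine mul_le_mul_of_nonneg_right ?_ (norm_nonneg _)
  calc θ * χ y * thick l H m b y ≤ 1 * thick l H m b y := mul_le_mul_of_nonneg_right h5 h3
    _ ≤ m * H := by rw [one_mul]; exact h2

theorem sqz_vert (y : E) {s t : ℝ} (hst : s ≤ t) :
    (1 - θ) / 2 * (t - s) ≤
      l (sqz l e θ H m b χ (y + t • e)) - l (sqz l e θ H m b χ (y + s • e)) := by
  rw [l_sqz P, l_sqz P, P.l_vert, P.l_vert]
  have h1 := P.thick_sub_le y hst
  have h2 := P.thick_mono y hst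
  have h3 := P.thick_nonneg (y + s • e)
  have h4 := P.thick_le (y + s • e)
  have h5 : |χ (y + t • e) - χ (y + s • e)| ≤ L * ‖e‖ * (t - s) := by
    have := C.cL (y + t • e) (y + s • e)
    have h6 : y + t • e - (y + s • e) = (t - s) • e := by rw [sub_smul]; abel
    have h7 : |t - s| = t - s := abs_of_nonneg (by linarith)
    rw [h6, norm_smul, Real.norm_eq_abs, h7] at this
    linarith
  have h6 : χ (y + t • e) - χ (y + s • e) ≤ L * ‖e‖ * (t - s) := (le_abs_self _).trans h5
  have h7 := C.c0 (y + t • e)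
  have h8 := C.c1 (y + t • e)
  set ct := χ (y + t • e)
  set cs := χ (y + s • e)
  set Dt := thick l H m b (y + t • e)
  set Ds := thick l H m b (y + s • e)
  have h9 : ct * (Dt - Ds) ≤ t - s := by
    calc ct * (Dt - Ds) ≤ 1 * (Dt - Ds) := mul_le_mul_of_nonneg_right h8 (by linarith)
      _ ≤ t - s := by linarith
  have h10 : (ct - cs) * Ds ≤ (1 - θ) / 2 * (t - s) := by
    have hs : 0 ≤ L * ‖e‖ * (t - s) :=
      mul_nonneg (mul_nonneg C.L0 (norm_nonneg _)) (by linarith)
    calc (ct - cs) * Ds ≤ (L * ‖e‖ * (t - s)) * Ds := mul_le_mul_of_nonneg_right h6 h3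
      _ ≤ (L * ‖e‖ * (t - s)) * (m * H) := mul_le_mul_of_nonneg_left h4 hs
      _ = (L * ‖e‖ * (m * H)) * (t - s) := by ring
      _ ≤ (1 - θ) / 2 * (t - s) := mul_le_mul_of_nonneg_right C.small (by linarith)
  have h11 : ct * Dt - cs * Ds ≤ (t - s) + (1 - θ) / 2 * (t - s) := by
    have : ct * Dt - cs * Ds = ct * (Dt - Ds) + (ct - cs) * Ds := by ring
    linarith
  have h12 : θ * (ct * Dt - cs * Ds) ≤ θ * (t - s) + (1 - θ) / 2 * (t - s) := by
    have h13 : θ * (ct * Dt - cs * Ds) ≤ θ * ((t - s) + (1 - θ) / 2 * (t - s)) :=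
      mul_le_mul_of_nonneg_left h11 C.th0
    have h14 : 0 ≤ (1 - θ) / 2 * (t - s) :=
      mul_nonneg (by linarith [C.th1]) (by linarith)
    have h15 : θ * ((1 - θ) / 2 * (t - s)) ≤ 1 * ((1 - θ) / 2 * (t - s)) :=
      mul_le_mul_of_nonneg_right C.th1.le h14
    nlinarith
  have h16 : θ * (ct * Dt - cs * Ds) = θ * ct * Dt - θ * cs * Ds := by ring
  nlinarith

/-- Bound for the scalar part. -/
theorem sqz_scalar (y z : E) :
    |θ * χ y * thick l H m b y - θ * χ z * thick l H m b z| ≤
      ‖hp l e (y - z)‖ / a + |l y - l z| + L * (m * H) * ‖y - z‖ := by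
  have h1 := P.thick_lip y z
  have h2 := C.cL y z
  have h3 := P.thick_nonneg z
  have h4 := P.thick_le z
  have h5 : θ * χ y * thick l H m b y - θ * χ z * thick l H m b z
      = θ * (χ y * (thick l H m b y - thick l H m b z) + (χ y - χ z) * thick l H m b z) := by
    ring
  rw [h5, abs_mul, abs_of_nonneg C.th0]
  have h6 : |χ y * (thick l H m b y - thick l H m b z) + (χ y - χ z) * thick l H m b z|
      ≤ (‖hp l e (y - z)‖ / a + |l y - l z|) + L * ‖y - z‖ * (m * H) := by
    refine (abs_add_le _ _).trans (add_le_add ?_ ?_)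
    · rw [abs_mul, abs_of_nonneg (C.c0 y)]
      calc χ y * |thick l H m b y - thick l H m b z|
          ≤ 1 * |thick l H m b y - thick l H m b z| :=
            mul_le_mul_of_nonneg_right (C.c1 y) (abs_nonneg _)
        _ ≤ _ := by rw [one_mul]; exact h1
    · rw [abs_mul, abs_of_nonneg h3]
      exact mul_le_mul h2 h4 h3 (mul_nonneg C.L0 (norm_nonneg _))
  calc θ * _ ≤ 1 * |χ y * (thick l H m b y - thick l H m b z) + (χ y - χ z) * thick l H m b z| :=
        mul_le_mul_of_nonneg_right C.th1.le (abs_nonneg _)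
    _ ≤ _ := by rw [one_mul]; refine h6.trans (le_of_eq ?_); ring

/-- Lipschitz constant of the scalar part. -/
noncomputable def kap (l : E →L[ℝ] ℝ) (e : E) (a L H : ℝ) (m : ℕ) : ℝ :=
  (1 + ‖l‖ * ‖e‖) / a + ‖l‖ + L * (m * H)

theorem kap_nonneg : 0 ≤ kap l e a L H m := by
  have := P.ha; have := P.hH; have := C.L0
  unfold kap; positivity

theorem sqz_scalar' (y z : E) :
    |θ * χ y * thick l H m b y - θ * χ z * thick l H m b z| ≤ kap l e a L H m * ‖y - z‖ := by
  have ha := P.ha
  refine (sqz_scalar P C y z).trans ?_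
  have h1 : ‖hp l e (y - z)‖ / a ≤ (1 + ‖l‖ * ‖e‖) * ‖y - z‖ / a :=
    div_le_div_of_nonneg_right (IsPack.norm_hp_le _) ha.le
  have h2 : |l y - l z| ≤ ‖l‖ * ‖y - z‖ := by
    rw [← map_sub]; exact l.le_opNorm _
  calc _ ≤ (1 + ‖l‖ * ‖e‖) * ‖y - z‖ / a + ‖l‖ * ‖y - z‖ + L * (m * H) * ‖y - z‖ := by
        gcongr
    _ = _ := by rw [kap]; ring

theorem sqz_lip (y z : E) : ‖sqz l e θ H m b χ y - sqz l e θ H m b χ z‖ ≤
    (1 + kap l e a L H m * ‖e‖) * ‖y - z‖ := by
  have h1 : sqz l e θ H m b χ y - sqz l e θ H m b χ z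
      = (y - z) - (θ * χ y * thick l H m b y - θ * χ z * thick l H m b z) • e := by
    rw [sqz, sqz, sub_smul]; abel
  rw [h1]
  calc _ ≤ ‖y - z‖ + |θ * χ y * thick l H m b y - θ * χ z * thick l H m b z| * ‖e‖ := by
        refine (norm_sub_le _ _).trans (le_of_eq ?_)
        rw [norm_smul, Real.norm_eq_abs]
    _ ≤ ‖y - z‖ + (kap l e a L H m * ‖y - z‖) * ‖e‖ := by
        gcongr; exact sqz_scalar' P C y z
    _ = _ := by ring

/-- The squeezing map is expanding up to a constant: lower bi-Lipschitz bound. -/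
theorem sqz_lower (y z : E) : ‖y - z‖ ≤
    ((1 + ‖l‖ * ‖e‖) + 2 / (1 - θ) * (‖l‖ + (1 + kap l e a L H m * ‖e‖) * ‖l‖
      * (1 + ‖l‖ * ‖e‖)) * ‖e‖) * ‖sqz l e θ H m b χ y - sqz l e θ H m b χ z‖ := by
  set T := sqz l e θ H m b χ with hT
  set κ := 1 + kap l e a L H m * ‖e‖ with hκ
  have hκ0 : 0 ≤ κ := by have := kap_nonneg P C; positivity
  have hth : 0 < 1 - θ := by linarith [C.th1]
  set w : E := z + (l y - l z) • e with hw
  have hhp : hp l e w = hp l e z := hp_add_smul_e P.he _ _
  have hlw : l w = l y := by rw [hw, P.l_vert]; ring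
  have hyw : y - w = hp l e (y - z) := by
    have h1 : l (y - w) = 0 := by rw [map_sub, hlw, sub_self]
    have h2 : y - w = hp l e (y - w) := by rw [hp, h1]; simp
    rw [h2, hp_sub, hhp, hp_sub]
  have hhpT : hp l e (y - z) = hp l e (T y - T z) := by
    rw [hp_sub, hp_sub, hT, hp_sqz P, hp_sqz P]
  have hA : ‖hp l e (y - z)‖ ≤ (1 + ‖l‖ * ‖e‖) * ‖T y - T z‖ := by
    rw [hhpT]; exact IsPack.norm_hp_le _
  have hB : |l (T y) - l (T w)| ≤ ‖l‖ * (κ * ‖hp l e (y - z)‖) := by
    rw [← map_sub]
    refine (l.le_opNorm _).trans ?_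
    rw [← hyw]
    exact mul_le_mul_of_nonneg_left (sqz_lip P C y w) (norm_nonneg _)
  have hC : (1 - θ) / 2 * |l y - l z| ≤ |l (T w) - l (T z)| := by
    rcases le_total 0 (l y - l z) with h | h
    · have := sqz_vert P C z h
      rw [zero_smul, add_zero, sub_zero] at this
      rw [abs_of_nonneg h]
      exact this.trans (le_abs_self _)
    · have := sqz_vert P C z h
      rw [zero_smul, add_zero] at this
      rw [abs_of_nonpos h, abs_sub_comm]
      have h2 : (1 - θ) / 2 * (0 - (l y - l z)) = (1 - θ) / 2 * (-(l y - l z)) := by ring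
      rw [h2] at this
      exact this.trans (le_abs_self _)
  have hD : |l (T w) - l (T z)| ≤ ‖l‖ * ‖T y - T z‖ + ‖l‖ * (κ * ‖hp l e (y - z)‖) := by
    have h1 : l (T w) - l (T z) = (l (T y) - l (T z)) - (l (T y) - l (T w)) := by ring
    rw [h1]
    refine (abs_sub _ _).trans (add_le_add ?_ hB)
    rw [← map_sub]; exact l.le_opNorm _
  have hE : |l y - l z| ≤ 2 / (1 - θ) * (‖l‖ + κ * ‖l‖ * (1 + ‖l‖ * ‖e‖)) * ‖T y - T z‖ := by
    have h1 : |l y - l z| = 2 / (1 - θ) * ((1 - θ) / 2 * |l y - l z|) := by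
      field_simp
    rw [h1, mul_assoc]
    refine mul_le_mul_of_nonneg_left ?_ (by positivity)
    refine hC.trans (hD.trans ?_)
    have h2 : ‖l‖ * (κ * ‖hp l e (y - z)‖) ≤ ‖l‖ * (κ * ((1 + ‖l‖ * ‖e‖) * ‖T y - T z‖)) := by
      gcongr
    calc _ ≤ ‖l‖ * ‖T y - T z‖ + ‖l‖ * (κ * ((1 + ‖l‖ * ‖e‖) * ‖T y - T z‖)) := by gcongr
      _ = _ := by ring
  have hF : y - z = hp l e (y - z) + (l y - l z) • e := by
    rw [hp, map_sub]; abel
  calc ‖y - z‖ = ‖hp l e (y - z) + (l y - l z) • e‖ := by rw [← hF]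
    _ ≤ ‖hp l e (y - z)‖ + |l y - l z| * ‖e‖ := by
        refine (norm_add_le _ _).trans (le_of_eq ?_)
        rw [norm_smul, Real.norm_eq_abs]
    _ ≤ (1 + ‖l‖ * ‖e‖) * ‖T y - T z‖
        + (2 / (1 - θ) * (‖l‖ + κ * ‖l‖ * (1 + ‖l‖ * ‖e‖)) * ‖T y - T z‖) * ‖e‖ := by
        gcongr
    _ = _ := by ring

omit P [NormedSpace ℝ E] in
theorem continuous_chi : Continuous χ := by
  rw [continuous_iff_continuousAt]
  intro y
  rw [ContinuousAt, tendsto_iff_dist_tendsto_zero]
  refine squeeze_zero (fun _ => dist_nonneg) (fun z => ?_) (g := fun z => L * ‖z - y‖) ?_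
  · rw [Real.dist_eq]; exact C.cL z y
  · have hc : Continuous (fun z => L * ‖z - y‖) := by fun_prop
    simpa using hc.tendsto y

theorem continuous_sqz : Continuous (sqz l e θ H m b χ) := by
  have h1 := continuous_chi C
  have h2 := P.continuous_thick
  unfold sqz; fun_prop

theorem sqz_injective : Function.Injective (sqz l e θ H m b χ) := by
  intro y z h
  have := sqz_lower P C y z
  rw [h, sub_self, norm_zero, mul_zero] at this
  exact sub_eq_zero.1 (norm_le_zero_iff.1 this)

theorem sqz_surjective : Function.Surjective (sqz l e θ H m b χ) := by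
  intro w
  have hmH : 0 ≤ (m : ℝ) * H := by have := P.hH; positivity
  set φ : ℝ → ℝ := fun t => l (sqz l e θ H m b χ (hp l e w + t • e)) with hφ
  have hl0 : l (hp l e w) = 0 := by simp [hp, P.he]
  have hval : ∀ t : ℝ, φ t = t - θ * χ (hp l e w + t • e) * thick l H m b (hp l e w + t • e) := by
    intro t
    rw [hφ]
    simp only
    rw [l_sqz P, P.l_vert, hl0, zero_add]
  have hbd : ∀ t : ℝ, 0 ≤ θ * χ (hp l e w + t • e) * thick l H m b (hp l e w + t • e) ∧
      θ * χ (hp l e w + t • e) * thick l H m b (hp l e w + t • e) ≤ m * H := by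
    intro t
    have h2 := P.thick_le (hp l e w + t • e)
    have h3 := P.thick_nonneg (hp l e w + t • e)
    have h4 : 0 ≤ θ * χ (hp l e w + t • e) := mul_nonneg C.th0 (C.c0 _)
    have h5 : θ * χ (hp l e w + t • e) ≤ 1 := mul_le_one₀ C.th1.le (C.c0 _) (C.c1 _)
    refine ⟨mul_nonneg h4 h3, ?_⟩
    calc _ ≤ 1 * thick l H m b (hp l e w + t • e) := mul_le_mul_of_nonneg_right h5 h3
      _ ≤ m * H := by rw [one_mul]; exact h2
  have hcont : Continuous φ := by
    have := continuous_sqz P C
    have h1 : Continuous (fun t : ℝ => hp l e w + t • e) := by fun_prop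
    exact l.continuous.comp (this.comp h1)
  have hmem : l w ∈ Icc (φ (l w)) (φ (l w + m * H)) := by
    rw [mem_Icc, hval, hval]
    have h1 := hbd (l w)
    have h2 := hbd (l w + m * H)
    constructor <;> linarith
  obtain ⟨t, _, ht⟩ := intermediate_value_Icc (by linarith : l w ≤ l w + m * H)
    hcont.continuousOn hmem
  refine ⟨hp l e w + t • e, ?_⟩
  set q := sqz l e θ H m b χ (hp l e w + t • e) with hq
  have h1 : hp l e q = hp l e w := by
    rw [hq, hp_sqz P, hp_add_smul_e P.he]
    rw [hp, hl0]; simp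
  have h2 : l q = l w := ht
  have h3 : q = hp l e q + l q • e := by simp [hp]
  have h4 : w = hp l e w + l w • e := by simp [hp]
  rw [h3, h1, h2, ← h4]

/-- The squeezing map preserves every set which contains the support of the cut-off. -/
theorem sqz_image {U : Set E} (hU : ∀ y, χ y ≠ 0 → y ∈ U) :
    sqz l e θ H m b χ '' U = U := by
  apply Subset.antisymm
  · rintro _ ⟨y, hy, rfl⟩
    by_contra hcon
    have h0 : χ (sqz l e θ H m b χ y) = 0 := by
      by_contra h; exact hcon (hU _ h)
    have h1 := sqz_of_zero (l := l) (e := e) (θ := θ) (H := H) (m := m) (b := b) h0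
    have h2 := sqz_injective P C h1
    rw [h2] at hcon
    exact hcon hy
  · intro w hw
    obtain ⟨y, rfl⟩ := sqz_surjective P C w
    by_cases hy : y ∈ U
    · exact ⟨y, hy, rfl⟩
    · have h0 : χ y = 0 := by
        by_contra h; exact hy (hU _ h)
      rw [sqz_of_zero h0] at hw
      exact absurd hw hy

end

end Vale.Agent.P073.H989
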