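import Vale.Agent.P073.H989.DifR
import Vale.Agent.P073.RED.Zero
import Vale.Agent.P073.RED.Aff907
import Vale.Agent.P073.PK.Sob560b

/-!
# P073, block B09, [HYB]: one box

The map which is `φ` in the open box `R` and `f` outside, for `φ` which is close to `f` at the
boundary (`Bz`), is a homeomorphism (`homeo_hyb1`), a Sobolev map (`sob_hyb1`), and good on the
net of almost every origin (`ae_rat_hyb1`).
-/

open Set Metric Topology Filter MeasureTheory
open scoped ENNReal ContDiff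

namespace Vale.Agent.P073.H989

open Vale.Agent.P073.AB (cl RatGood)
open Vale.Agent.P073.St (V Mat)
open Vale.Agent.P073.SQ (ev)
open Vale.Agent.P073.RED (Q0)

/-! ### Homeomorphisms -/

/-- the inverse of an injective continuous map on a compact set is continuous -/
theorem continuousOn_inv {C : Set V} (hC : IsCompact C) {g G : V → V} (hg : ContinuousOn g C)
    (hG : ∀ x ∈ C, G (g x) = x) : ContinuousOn G (g '' C) := by
  rw [continuousOn_iff_isClosed]
  intro t ht
  refine ⟨g '' (C ∩ t), ((hC.inter_right ht).image_of_continuousOn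
    (hg.mono inter_subset_left)).isClosed, ?_⟩
  ext y
  constructor
  · rintro ⟨hy, x, hx, rfl⟩
    refine ⟨⟨x, ⟨hx, ?_⟩, rfl⟩, x, hx, rfl⟩
    have : G (g x) ∈ t := hy
    rwa [hG x hx] at this
  · rintro ⟨⟨x, ⟨hx, hxt⟩, rfl⟩, hy⟩
    refine ⟨?_, hy⟩
    show G (g x) ∈ t
    rwa [hG x hx]

/-- **the single hybrid is a homeomorphism** -/
theorem homeo_hyb1 {Ω Λ R : Set V} {f φ g : V → V} {ε : ℝ} (hΛ : IsOpen Λ)
    (hf : St.IsHomeo Ω Λ f) (hR : IsOpen R) (hRc : IsCompact (closure R)) (hRΩ : closure R ⊆ Ω)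
    (hφ : St.IsHomeo R (f '' R) φ) (hb : Bz R f φ ε) (h1 : EqOn g φ R) (h2 : EqOn g f (Ω \ R)) :
    St.IsHomeo Ω Λ g := by
  classical
  have hRs : R ⊆ Ω := subset_closure.trans hRΩ
  have hfR : IsOpen (f '' R) := isOpen_image hΛ hf hR hRs
  obtain ⟨h, ⟨f1, f2⟩, f3, f4⟩ := hf
  obtain ⟨k, ⟨p1, p2⟩, p3, p4⟩ := hφ
  have hgc : ContinuousOn g Ω := hb.continuousOn hR f3 p3 h1 h2
  have hfRΛ : f '' R ⊆ Λ := by
    rintro _ ⟨x, hx, rfl⟩
    exact (f1 x (hRs hx)).1
  set G : V → V := fun y => if y ∈ f '' R then k y else h y with hG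
  have G1 : ∀ y ∈ f '' R, G y = k y := fun y hy => if_pos hy
  have G2 : ∀ y, y ∉ f '' R → G y = h y := fun y hy => if_neg hy
  have hfn : ∀ x ∈ Ω, x ∉ R → f x ∉ f '' R := by
    rintro x hx hxR ⟨x', hx', he⟩
    apply hxR
    rw [← (f1 x hx).2, ← he, (f1 x' (hRs hx')).2]
    exact hx'
  have i1 : ∀ x ∈ Ω, g x ∈ Λ ∧ G (g x) = x := by
    intro x hx
    by_cases hxR : x ∈ R
    · have e := p1 x hxR
      rw [h1 hxR]
      exact ⟨hfRΛ e.1, by rw [G1 _ e.1, e.2]⟩
    · have e := f1 x hx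
      rw [h2 ⟨hx, hxR⟩]
      exact ⟨e.1, by rw [G2 _ (hfn x hx hxR), e.2]⟩
  have i2 : ∀ y ∈ Λ, G y ∈ Ω ∧ g (G y) = y := by
    intro y hy
    by_cases hyR : y ∈ f '' R
    · have e := p2 y hyR
      rw [G1 y hyR]
      exact ⟨hRs e.1, by rw [h1 e.1, e.2]⟩
    · have e := f2 y hy
      have hn : h y ∉ R := fun hh => hyR ⟨h y, hh, e.2⟩
      rw [G2 y hyR]
      exact ⟨e.1, by rw [h2 ⟨e.1, hn⟩, e.2]⟩
  refine ⟨G, ⟨i1, i2⟩, hgc, ?_⟩
  have hC : ContinuousOn G (g '' closure R) :=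
    continuousOn_inv hRc (hgc.mono hRΩ) fun x hx => (i1 x (hRΩ hx)).2
  have hCc : IsClosed (g '' closure R) := (hRc.image_of_continuousOn (hgc.mono hRΩ)).isClosed
  intro y hy
  by_cases hyR : y ∈ f '' R
  · have e : G =ᶠ[𝓝 y] k := Filter.eventuallyEq_of_mem (hfR.mem_nhds hyR) fun z hz => G1 z hz
    exact ((p4.continuousAt (hfR.mem_nhds hyR)).congr e.symm).continuousWithinAt
  · have hsub : 𝓝[Λ] y ≤ 𝓝[g '' closure R] y ⊔ 𝓝[Λ \ f '' R] y := by
      rw [← nhdsWithin_union]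
      refine nhdsWithin_mono y fun z hz => ?_
      by_cases hzR : z ∈ f '' R
      · refine Or.inl ⟨k z, subset_closure (p2 z hzR).1, ?_⟩
        rw [h1 (p2 z hzR).1, (p2 z hzR).2]
      · exact Or.inr ⟨hz, hzR⟩
    refine Tendsto.mono_left (tendsto_sup.2 ⟨?_, ?_⟩) hsub
    · by_cases hyC : y ∈ g '' closure R
      · exact hC y hyC
      · have h5 : 𝓝[g '' closure R] y = ⊥ := by
          refine not_neBot.1 fun hn => hyC ?_
          rw [← hCc.closure_eq]
          exact mem_closure_iff_nhdsWithin_neBot.2 hn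
        rw [h5]
        exact tendsto_bot
    · have e : Tendsto h (𝓝[Λ \ f '' R] y) (𝓝 (h y)) :=
        (f4 y hy).mono_left (nhdsWithin_mono y sdiff_subset)
      rw [G2 y hyR]
      refine e.congr' ?_
      filter_upwards [self_mem_nhdsWithin] with z hz
      exact (G2 z hz.2).symm

/-! ### Sobolev maps -/

theorem isSobolev_congr {q : ℝ} {Ω : Set V} {f g : V → V} {F H : V → Mat}
    (hΩ : MeasurableSet Ω) (h : St.IsSobolev q Ω f F) (hg : EqOn g f Ω) (hH : EqOn H F Ω) :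
    St.IsSobolev q Ω g H := by
  have hm : ∀ᵐ x ∂(volume.restrict Ω), x ∈ Ω := ae_restrict_mem hΩ
  refine ⟨fun i => ?_, fun i j => ?_, fun φ hφ i j => ?_⟩
  · refine MemLp.ae_eq ?_ (h.1 i)
    filter_upwards [hm] with x hx
    rw [hg hx]
  · refine MemLp.ae_eq ?_ (h.2.1 i j)
    filter_upwards [hm] with x hx
    rw [hH hx]
  · have h1 := h.2.2 φ hφ i j
    unfold St.int at h1 ⊢
    have e1 : ∫ x in Ω, φ x * H x i j = ∫ x in Ω, φ x * F x i j :=
      setIntegral_congr_fun hΩ fun x hx => by simp only [hH hx]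
    have e2 : ∫ x in Ω, St.pd φ x j * g x i = ∫ x in Ω, St.pd φ x j * f x i :=
      setIntegral_congr_fun hΩ fun x hx => by simp only [hg hx]
    rw [e1, e2, h1]

/-- the diagonal map -/
noncomputable def dg (a : V) (ha : ∀ i, 0 < a i) : V ≃L[ℝ] V :=
  LinearEquiv.toContinuousLinearEquiv
    { toFun := fun x i => a i * x i
      invFun := fun x i => x i / a i
      map_add' := fun x y => by funext i; show a i * (x i + y i) = a i * x i + a i * y i; ring
      map_smul' := fun c x => by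
        funext i; show a i * (c * x i) = c * (a i * x i); ring
      left_inv := fun x => by
        funext i; show a i * x i / a i = x i
        field_simp [(ha i).ne']
      right_inv := fun x => by
        funext i; show a i * (x i / a i) = x i
        field_simp [(ha i).ne'] }

theorem dg_apply {a : V} (ha : ∀ i, 0 < a i) (x : V) (i : Fin 3) : dg a ha x i = a i * x i := rfl

theorem dg_symm_apply {a : V} (ha : ∀ i, 0 < a i) (x : V) (i : Fin 3) :
    (dg a ha).symm x i = x i / a i := rfl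

/-- **extension by zero** from an open box -/
theorem zero_box {q : ℝ} (hq : 1 ≤ q) {a b : V} (hab : ∀ i, a i < b i) {u : V → V} {U : V → Mat}
    (hU : St.IsSobolev q (obox a b) u U) (huc : ContinuousOn u (obox a b))
    (hz : ∀ x, x ∉ obox a b → Tendsto u (𝓝[obox a b] x) (𝓝 0)) :
    St.IsSobolev q univ ((obox a b).indicator u) ((obox a b).indicator U) := by
  have hc : ∀ i, 0 < (b - a) i := fun i => sub_pos.2 (hab i)
  set B := dg (b - a) hc with hB
  have hpre : ∀ y : V, a + B y ∈ obox a b ↔ y ∈ Q0 := by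
    intro y
    rw [mem_obox]
    refine forall_congr' fun i => ?_
    have h1 := hc i
    show (a i < a i + (b - a) i * y i ∧ a i + (b - a) i * y i < b i) ↔ 0 < y i ∧ y i < 1
    have h2 : (b - a) i = b i - a i := rfl
    rw [h2] at h1 ⊢
    constructor
    · rintro ⟨h3, h4⟩
      constructor
      · by_contra hcon
        push Not at hcon
        nlinarith
      · by_contra hcon
        push Not at hcon
        nlinarith
    · rintro ⟨h3, h4⟩
      constructor
      · nlinarith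
      · nlinarith
  have e1 : (fun y => a + B y) ⁻¹' obox a b = Q0 := by
    ext y
    exact hpre y
  have s1 := RED.specAff q (obox a b) u U B a 1 hq (isOpen_obox a b) hU
  rw [e1] at s1
  have hcont : Continuous fun y => a + B y := by fun_prop
  have s2 := RED.specZero q _ _ hq s1 (by
      simp only [one_smul]
      exact huc.comp hcont.continuousOn fun y hy => (hpre y).2 hy) (by
      intro x hx
      simp only [one_smul]
      have hxR : a + B x ∉ obox a b := by
        rw [hpre]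
        intro hxQ
        rw [RED.isOpen_Q0.frontier_eq] at hx
        exact hx.2 hxQ
      refine (hz _ hxR).comp ?_
      refine tendsto_nhdsWithin_iff.2 ⟨(hcont.tendsto x).mono_left nhdsWithin_le_nhds, ?_⟩
      filter_upwards [self_mem_nhdsWithin] with y hy
      exact (hpre y).2 hy)
  have s3 := RED.specAff q univ _ _ B.symm (-B.symm a) 1 hq isOpen_univ s2.2
  rw [preimage_univ] at s3
  have e2 : ∀ y : V, a + B (-B.symm a + B.symm y) = y := by
    intro y
    rw [map_add, map_neg, B.apply_symm_apply, B.apply_symm_apply]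
    abel
  have e3 : ∀ y : V, (-B.symm a + B.symm y ∈ Q0) ↔ y ∈ obox a b := by
    intro y
    rw [← hpre, e2]
  refine isSobolev_congr MeasurableSet.univ s3 (fun y _ => ?_) (fun y _ => ?_)
  · simp only [one_smul]
    by_cases hy : y ∈ obox a b
    · rw [indicator_of_mem hy, indicator_of_mem ((e3 y).2 hy), e2]
    · rw [indicator_of_notMem hy, indicator_of_notMem fun h => hy ((e3 y).1 h)]
  · funext i j
    have hk : ∀ k : Fin 3, B.symm (ev j) k = if k = j then 1 / (b - a) j else 0 := by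
      intro k
      rw [hB, dg_symm_apply]
      by_cases hkj : k = j
      · subst hkj
        rw [if_pos rfl]
        simp [ev]
      · rw [if_neg hkj]
        simp [ev, hkj]
    have hl : ∀ k l : Fin 3, B (ev k) l = if l = k then (b - a) k else 0 := by
      intro k l
      rw [hB, dg_apply]
      by_cases hlk : l = k
      · subst hlk
        rw [if_pos rfl]
        simp [ev]
      · rw [if_neg hlk]
        simp [ev, hlk]
    simp only [hk, mul_ite, mul_zero, Finset.sum_ite_eq', Finset.mem_univ, if_true]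
    by_cases hy : y ∈ obox a b
    · rw [indicator_of_mem hy, indicator_of_mem ((e3 y).2 hy), e2]
      simp only [hl, mul_ite, mul_zero, Finset.sum_ite_eq', Finset.mem_univ, if_true]
      have := (hc j).ne'
      field_simp
    · rw [indicator_of_notMem hy, indicator_of_notMem fun h => hy ((e3 y).1 h)]
      simp

/-- **the single hybrid is a Sobolev map** -/
theorem sob_hyb1 {q : ℝ} (hq : 1 ≤ q) {Ω : Set V} {a b : V} (hab : ∀ i, a i < b i)
    {f φ g : V → V} {F Φ H : V → Mat} {ε : ℝ} (hΩ : IsOpen Ω) (hv : volume Ω ≠ ⊤)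
    (hRΩ : obox a b ⊆ Ω) (hF : St.IsSobolev q Ω f F) (hfc : ContinuousOn f Ω)
    (hΦ : St.IsSobolev q (obox a b) φ Φ) (hφc : ContinuousOn φ (obox a b))
    (hb : Bz (obox a b) f φ ε) (h1 : EqOn g φ (obox a b)) (h2 : EqOn g f (Ω \ obox a b))
    (H1 : EqOn H Φ (obox a b)) (H2 : EqOn H F (Ω \ obox a b)) : St.IsSobolev q Ω g H := by
  have hR := isOpen_obox a b
  have hvR : volume (obox a b) ≠ ⊤ := ((measure_mono hRΩ).trans_lt hv.lt_top).ne
  have s1 := RED.isSobolev_sub hq hR hvR hΦ (RED.isSobolev_mono hR hRΩ hF)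
  have s2 := RED.isSobolev_mono hΩ (subset_univ Ω)
    (zero_box hq hab s1 (hφc.sub (hfc.mono hRΩ)) fun x hx => hb.tendsto hx)
  have s3 := RED.isSobolev_sub hq hΩ hv hF
    (RED.isSobolev_sub hq hΩ hv (RED.isSobolev_sub hq hΩ hv hF s2) hF)
  refine isSobolev_congr hΩ.measurableSet s3 (fun x hx => ?_) (fun x hx => ?_)
  · by_cases hxR : x ∈ obox a b
    · simp only [indicator_of_mem hxR, h1 hxR]
      abel
    · simp only [indicator_of_notMem hxR, h2 ⟨hx, hxR⟩]
      simp
  · by_cases hxR : x ∈ obox a b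
    · simp only [indicator_of_mem hxR, H1 hxR]
      abel
    · simp only [indicator_of_notMem hxR, H2 ⟨hx, hxR⟩]
      simp

/-- **the single hybrid is good** on the net of almost every origin -/
theorem ae_rat_hyb1 {q : ℝ} (hq : 1 ≤ q) {Ω : Set V} {a b : V} (hab : ∀ i, a i < b i)
    {f φ g : V → V} {F Φ H : V → Mat} {ε : ℝ} (hΩ : IsOpen Ω) (hv : volume Ω ≠ ⊤)
    (hRΩ : obox a b ⊆ Ω) (hF : St.IsSobolev q Ω f F) (hfc : ContinuousOn f Ω)
    (hΦ : St.IsSobolev q (obox a b) φ Φ) (hφc : ContinuousOn φ (obox a b))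
    (hb : Bz (obox a b) f φ ε) (h1 : EqOn g φ (obox a b)) (h2 : EqOn g f (Ω \ obox a b))
    (H1 : EqOn H Φ (obox a b)) (H2 : EqOn H F (Ω \ obox a b)) : ∀ᵐ v : V, RatGood v Ω g H :=
  PK.ae_ratGood hq hΩ hv (hb.continuousOn (isOpen_obox a b) hfc hφc h1 h2)
    (sob_hyb1 hq hab hΩ hv hRΩ hF hfc hΦ hφc hb h1 h2 H1 H2)

/-! ### Rational boxes -/

theorem homeo_hyb1_of {Ω Λ R : Set V} {f φ g : V → V} {ε : ℝ} (hΛ : IsOpen Λ)
    (hf : St.IsHomeo Ω Λ f) (hR : R ∈ ratBoxes Ω) (hφ : St.IsHomeo R (f '' R) φ)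
    (hb : Bz R f φ ε) (h1 : EqOn g φ R) (h2 : EqOn g f (Ω \ R)) : St.IsHomeo Ω Λ g :=
  homeo_hyb1 hΛ hf (domain_of_ratBoxes hR).1 (isCompact_closure_of_ratBoxes hR)
    (closure_sub_of_ratBoxes hR) hφ hb h1 h2

theorem sob_hyb1_of {q : ℝ} (hq : 1 ≤ q) {Ω R : Set V} {f φ g : V → V} {F Φ H : V → Mat} {ε : ℝ}
    (hΩ : IsOpen Ω) (hv : volume Ω ≠ ⊤) (hR : R ∈ ratBoxes Ω) (hF : St.IsSobolev q Ω f F)
    (hfc : ContinuousOn f Ω) (hΦ : St.IsSobolev q R φ Φ) (hφc : ContinuousOn φ R)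
    (hb : Bz R f φ ε) (h1 : EqOn g φ R) (h2 : EqOn g f (Ω \ R)) (H1 : EqOn H Φ R)
    (H2 : EqOn H F (Ω \ R)) : St.IsSobolev q Ω g H := by
  have hs := subset_closure.trans (closure_sub_of_ratBoxes hR)
  obtain ⟨r, hr, rfl⟩ := hR
  exact sob_hyb1 hq (fun i => by exact_mod_cast hr.1 i) hΩ hv hs hF hfc hΦ hφc hb h1 h2 H1 H2

theorem ae_rat_hyb1_of {q : ℝ} (hq : 1 ≤ q) {Ω R : Set V} {f φ g : V → V} {F Φ H : V → Mat}
    {ε : ℝ} (hΩ : IsOpen Ω) (hv : volume Ω ≠ ⊤) (hR : R ∈ ratBoxes Ω)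
    (hF : St.IsSobolev q Ω f F) (hfc : ContinuousOn f Ω) (hΦ : St.IsSobolev q R φ Φ)
    (hφc : ContinuousOn φ R) (hb : Bz R f φ ε) (h1 : EqOn g φ R) (h2 : EqOn g f (Ω \ R))
    (H1 : EqOn H Φ R) (H2 : EqOn H F (Ω \ R)) : ∀ᵐ v : V, RatGood v Ω g H :=
  PK.ae_ratGood hq hΩ hv (hb.continuousOn (domain_of_ratBoxes hR).1 hfc hφc h1 h2)
    (sob_hyb1_of hq hΩ hv hR hF hfc hΦ hφc hb h1 h2 H1 H2)

end Vale.Agent.P073.H989
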