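import Vale.Agent.P073.H989.P2Tset

/-!
# P073, [P2g]: the big good cubes (`H234.P2Cells`)
-/

namespace Vale.Agent.P073.H989

open MeasureTheory Set Filter Topology Metric Vale.Agent.P073.St Vale.Agent.P073.AB
open Vale.Agent.P073.SQ (ev)
open _root_.P073.Net (dyc dyo)
open Vale.Agent.P073.H79 (EdgeLeb)
open Vale.Agent.P073.H194 (idx sInt)
open Vale.Agent.P073.H333 (idx_mem tendsto_pow_half exists_infDist dyc_near lintegral_pert
  sum_volume_le exists_round)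
open scoped ENNReal

variable {p : ℝ} {Ω Λ : Set V} {f : V → V} {F : V → Mat}

/-- the pointwise data of a big cube `z` of generation `m`, at the point `x` -/
structure P2Pt (F : V → Mat) (T : Set V) (η : ℝ) (j : ℕ) (v : V) (m : ℕ) (z : Fin 3 → ℤ) (x : V) :
    Prop where
  mem : x ∈ T
  memz : x ∈ dyc v m z
  vert : ∀ a : Fin 3 → ℤ, pt v (m + j) a ∈ dyc v m z → pt v (m + j) a ∈ T
  own : ∀ e : Idx × Fin 3, e.1.1 = m + j → edge v e ⊆ dyc v m z →
    eInt v e (fun y => ENNReal.ofReal ‖cl (F y) (ev e.2) - cl (F x) (ev e.2)‖) ≤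
      ENNReal.ofReal (η / 2 ^ (m + j))
  squ : ∀ s : Idx × Fin 3, s.1.1 = m + j → squ v s ⊆ dyc v m z →
    sInt v s (fun y => ‖cl (F y) - cl (F x)‖ₑ ^ (2:ℝ)) ≤ ENNReal.ofReal (η / 4 ^ (m + j))

theorem sInt_const (v : V) (s : Idx × Fin 3) (c : ℝ≥0∞) :
    sInt v s (fun _ => c) = c * ENNReal.ofReal (1 / 4 ^ s.1.1) := by
  unfold sInt
  rw [setLIntegral_const, volume_dyc]
  have h1 : (2:ℝ≥0∞) ^ s.1.1 = ENNReal.ofReal (2 ^ s.1.1) := by
    rw [ENNReal.ofReal_pow (by norm_num)]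
    norm_num
  rw [h1, mul_comm, mul_assoc, ← ENNReal.ofReal_mul (by positivity)]
  congr 2
  have : (4:ℝ) ^ s.1.1 = 2 ^ s.1.1 * 2 ^ s.1.1 := by
    rw [← mul_pow]; norm_num
  rw [this]
  field_simp

/-- the square integral of a perturbation by a constant -/
theorem sInt_pert {v : V} {s : Idx × Fin 3} {G : V → V →L[ℝ] V} {L L' : V →L[ℝ] V} {a b : ℝ}
    (ha : 0 ≤ a) (hb : 0 ≤ b)
    (h1 : sInt v s (fun y => ‖G y - L‖ₑ ^ (2:ℝ)) ≤ ENNReal.ofReal (a / 4 ^ s.1.1))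
    (h2 : ‖L - L'‖ ≤ b) :
    sInt v s (fun y => ‖G y - L'‖ₑ ^ (2:ℝ)) ≤ ENNReal.ofReal (2 * (a + b ^ 2) / 4 ^ s.1.1) := by
  have h3 : ∀ y, ‖G y - L'‖ₑ ^ (2:ℝ) ≤ 2 * ‖G y - L‖ₑ ^ (2:ℝ) + 2 * ENNReal.ofReal (b ^ 2) := by
    intro y
    have e : G y - L' = (G y - L) + (L - L') := by abel
    have h4 : ‖L - L'‖ₑ ≤ ENNReal.ofReal b := by
      rw [← ofReal_norm]
      exact ENNReal.ofReal_le_ofReal h2
    calc ‖G y - L'‖ₑ ^ (2:ℝ) ≤ (‖G y - L‖ₑ + ‖L - L'‖ₑ) ^ (2:ℝ) := by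
          rw [e]
          refine ENNReal.rpow_le_rpow ?_ (by norm_num)
          show ((‖(G y - L) + (L - L')‖₊ : NNReal) : ℝ≥0∞) ≤ (‖G y - L‖₊ : ℝ≥0∞) + ‖L - L'‖₊
          exact_mod_cast nnnorm_add_le _ _
      _ ≤ 2 ^ ((2:ℝ) - 1) * (‖G y - L‖ₑ ^ (2:ℝ) + ‖L - L'‖ₑ ^ (2:ℝ)) :=
          ENNReal.rpow_add_le_mul_rpow_add_rpow _ _ (by norm_num)
      _ = 2 * ‖G y - L‖ₑ ^ (2:ℝ) + 2 * ‖L - L'‖ₑ ^ (2:ℝ) := by
          rw [show (2:ℝ) - 1 = 1 by norm_num, ENNReal.rpow_one, mul_add]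
      _ ≤ _ := by
          gcongr
          calc ‖L - L'‖ₑ ^ (2:ℝ) ≤ ENNReal.ofReal b ^ (2:ℝ) :=
                ENNReal.rpow_le_rpow h4 (by norm_num)
            _ = _ := by
                rw [ENNReal.ofReal_rpow_of_nonneg hb (by norm_num)]
                norm_num
  calc sInt v s (fun y => ‖G y - L'‖ₑ ^ (2:ℝ))
      ≤ sInt v s (fun y => 2 * ‖G y - L‖ₑ ^ (2:ℝ) + 2 * ENNReal.ofReal (b ^ 2)) := by
        unfold sInt
        gcongr with y
        exact h3 _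
    _ ≤ 2 * sInt v s (fun y => ‖G y - L‖ₑ ^ (2:ℝ)) +
        sInt v s (fun _ => 2 * ENNReal.ofReal (b ^ 2)) := by
        unfold sInt
        rw [lintegral_add_right' _ (by fun_prop), lintegral_const_mul' _ _ (by norm_num)]
        exact le_of_eq (by ring)
    _ ≤ 2 * ENNReal.ofReal (a / 4 ^ s.1.1) +
        2 * ENNReal.ofReal (b ^ 2) * ENNReal.ofReal (1 / 4 ^ s.1.1) := by
        rw [sInt_const]
        gcongr
    _ = ENNReal.ofReal (2 * (a + b ^ 2) / 4 ^ s.1.1) := by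
        have h2' : (2:ℝ≥0∞) = ENNReal.ofReal 2 := by norm_num
        rw [h2', ← ENNReal.ofReal_mul (by norm_num), ← ENNReal.ofReal_mul (by norm_num),
          ← ENNReal.ofReal_mul (by positivity), ← ENNReal.ofReal_add (by positivity)
          (by positivity)]
        congr 1
        ring

/-- the edge integral of a perturbation by a constant -/
theorem eInt_pert {v : V} {e : Idx × Fin 3} {G : V → V →L[ℝ] V} {L L' : V →L[ℝ] V} {a b : ℝ}
    (ha : 0 ≤ a) (hb : 0 ≤ b)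
    (h1 : eInt v e (fun y => ENNReal.ofReal ‖G y (ev e.2) - L (ev e.2)‖) ≤
      ENNReal.ofReal (a / 2 ^ e.1.1))
    (h2 : ∀ w, ‖L' w - L w‖ ≤ b * ‖w‖) :
    eInt v e (fun y => ENNReal.ofReal ‖G y (ev e.2) - L' (ev e.2)‖) ≤
      ENNReal.ofReal ((a + b) / 2 ^ e.1.1) := by
  have h3 : eInt v e (fun y => ENNReal.ofReal ‖G y (ev e.2) - L' (ev e.2)‖) ≤
      eInt v e (fun y => ENNReal.ofReal ‖G y (ev e.2) - L (ev e.2)‖) +
        ENNReal.ofReal (b / 2 ^ e.1.1) := by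
    unfold eInt
    have h4 : ENNReal.ofReal (b / 2 ^ e.1.1) =
        ENNReal.ofReal (1 / 2 ^ e.1.1) * ∫⁻ _t in Icc (0:ℝ) 1, ENNReal.ofReal b := by
      rw [setLIntegral_const, Real.volume_Icc, sub_zero, ENNReal.ofReal_one, mul_one,
        ← ENNReal.ofReal_mul (by positivity)]
      congr 1
      ring
    rw [h4, ← mul_add, ← lintegral_add_right' _ (by fun_prop)]
    gcongr with t
    rw [← ENNReal.ofReal_add (norm_nonneg _) hb]
    apply ENNReal.ofReal_le_ofReal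
    have h5 := h2 (ev e.2)
    rw [norm_ev, mul_one] at h5
    set y : V := pt v e.1.1 e.1.2 + t • ((1 / 2 ^ e.1.1 : ℝ) • (ev e.2 : V))
    have h6 : G y (ev e.2) - L' (ev e.2) =
        (G y (ev e.2) - L (ev e.2)) - (L' (ev e.2) - L (ev e.2)) := by abel
    rw [h6]
    exact (norm_sub_le _ _).trans (add_le_add le_rfl h5)
  refine h3.trans ?_
  refine (add_le_add_left h1 _).trans (le_of_eq ?_)
  rw [← ENNReal.ofReal_add (by positivity) (by positivity)]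
  congr 1
  ring

end Vale.Agent.P073.H989
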