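import Vale.Agent.P073.H911.VolForms
import Vale.Agent.P073.H803.Blk1

/-!
# P073, [CHAIN-B]: the local energies of the boxes

* `blkM`: the cells of the box with margin `r`, `volume_sdiff_blkM`;
* `solid_le`: the sum over the solid cubes of a box which are not deep;
* `aff_le`: the energy of the affine map;
* `box_one`: everything in one box, `box_loc`: the sum over the boxes which meet a set `A`.
-/

namespace Vale.Agent.P073.H989

open MeasureTheory Set Filter Topology Metric Vale.Agent.P073.St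
open Vale.Agent.P073.AB (Idx cl)
open Vale.Agent.P073.H696 (HF am Boxes blk blkS deep)
open Vale.Agent.P073.H911
open P073.Net (dyc dyo)
open scoped ENNReal NNReal

/-! ### Blocks with a general margin -/

/-- the cells of generation `n` of the box `k`, with a margin of `r` cells -/
def blkM (r : ℕ) (k : Idx) (n : ℕ) : Set (Fin 3 → ℤ) :=
  {z | ∀ i, 2 ^ (n - k.1) * k.2 i + r ≤ z i ∧ z i + (r + 1) ≤ 2 ^ (n - k.1) * (k.2 i + 1)}

theorem blkM_three (k : Idx) (n : ℕ) : blkM 3 k n = blk k n := by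
  ext z
  simp only [blkM, blk, Set.mem_ofPred_eq]
  refine forall_congr' fun i => ?_
  norm_num

theorem blkM_anti {r r' : ℕ} (h : r ≤ r') (k : Idx) (n : ℕ) : blkM r' k n ⊆ blkM r k n := by
  intro z hz i
  have h1 := hz i
  have h2 : (r : ℤ) ≤ r' := by exact_mod_cast h
  exact ⟨by linarith [h1.1], by linarith [h1.2]⟩

/-- the block with margin `r` contains an open cube -/
theorem ball_sub_blkM (v : V) (r : ℕ) {k : Idx} {n : ℕ} (hn : k.1 ≤ n) :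
    ball (ctr v k.1 k.2) ((1 - 2 * r / 2 ^ (n - k.1)) * hs k.1) ⊆
      ⋃ z ∈ blkM r k n, dyc v n z := by
  intro y hy
  obtain ⟨a, rfl⟩ := Nat.exists_eq_add_of_le hn
  rw [Nat.add_sub_cancel_left] at hy
  have hp1 : (0 : ℝ) < 2 ^ k.1 := by positivity
  have hp2 : (0 : ℝ) < 2 ^ a := by positivity
  have e : (2 : ℝ) ^ (k.1 + a) = 2 ^ k.1 * 2 ^ a := pow_add _ _ _
  refine mem_iUnion₂.2 ⟨idx v (k.1 + a) y, ?_, hc_sub_dyc v _ _ (mem_hc_idx v _ y)⟩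
  intro i
  rw [Nat.add_sub_cancel_left]
  have h1 : |y i - ctr v k.1 k.2 i| < (1 - 2 * r / 2 ^ a) * hs k.1 := by
    rw [mem_ball, dist_pi_lt_iff (pos_of_mem_ball hy)] at hy
    simpa [Real.dist_eq] using hy i
  rw [abs_lt] at h1
  simp only [ctr, hs] at h1
  have h2 : (2 : ℝ) ^ a * k.2 i + r < (y i - v i) * (2 ^ k.1 * 2 ^ a) := by
    have h3 := h1.1
    have h4 : (k.2 i : ℝ) / 2 ^ k.1 + r / (2 ^ k.1 * 2 ^ a) < y i - v i := by
      have e1 : (k.2 i : ℝ) / 2 ^ k.1 + r / (2 ^ k.1 * 2 ^ a) =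
        (k.2 i + 1 / 2) / 2 ^ k.1 - (1 - 2 * r / 2 ^ a) * (1 / 2 ^ k.1 / 2) := by
        field_simp
        ring
      rw [e1]
      linarith
    have h5 := mul_lt_mul_of_pos_right h4 (show (0 : ℝ) < 2 ^ k.1 * 2 ^ a by positivity)
    refine lt_of_le_of_lt (le_of_eq ?_) h5
    field_simp
  have h6 : (y i - v i) * (2 ^ k.1 * 2 ^ a) < 2 ^ a * (k.2 i + 1) - r := by
    have h3 := h1.2
    have h4 : y i - v i < (k.2 i + 1) / 2 ^ k.1 - r / (2 ^ k.1 * 2 ^ a) := by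
      have e1 : ((k.2 i : ℝ) + 1) / 2 ^ k.1 - r / (2 ^ k.1 * 2 ^ a) =
        (k.2 i + 1 / 2) / 2 ^ k.1 + (1 - 2 * r / 2 ^ a) * (1 / 2 ^ k.1 / 2) := by
        field_simp
        ring
      rw [e1]
      linarith
    have h5 := mul_lt_mul_of_pos_right h4 (show (0 : ℝ) < 2 ^ k.1 * 2 ^ a by positivity)
    refine lt_of_lt_of_le h5 (le_of_eq ?_)
    field_simp
  have hidx : idx v (k.1 + a) y i = ⌊(y i - v i) * (2 ^ k.1 * 2 ^ a)⌋ := by
    simp only [idx, e]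
  rw [hidx]
  constructor
  · rw [Int.le_floor]
    push_cast
    linarith
  · have h7 : ⌊(y i - v i) * (2 ^ k.1 * 2 ^ a)⌋ < (2 ^ a * (k.2 i + 1) - r : ℤ) := by
      rw [Int.floor_lt]
      push_cast
      linarith
    omega

/-- volume of the box without the block with margin `r` -/
theorem volume_sdiff_blkM (v : V) (r : ℕ) {k : Idx} {n : ℕ} (hn : k.1 ≤ n) :
    volume (dyc v k.1 k.2 \ ⋃ z ∈ blkM r k n, dyc v n z) ≤
      ENNReal.ofReal (6 * r / 2 ^ (n - k.1)) * volume (dyc v k.1 k.2) := by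
  rcases le_total ((2 * r : ℝ) / 2 ^ (n - k.1)) 1 with h1 | h1
  · have h2 := volume_sdiff_ball (ctr v k.1 k.2) (hs_pos k.1)
      (show 0 ≤ (2 * r : ℝ) / 2 ^ (n - k.1) by positivity) h1
    rw [dyc_eq]
    refine (measure_mono (sdiff_subset_sdiff_right (ball_sub_blkM v r hn))).trans
      (h2.trans (le_of_eq ?_))
    congr 2
    ring
  · have h2 : (1 : ℝ) ≤ 6 * r / 2 ^ (n - k.1) := by
      have e : (6 * r : ℝ) / 2 ^ (n - k.1) = 3 * (2 * r / 2 ^ (n - k.1)) := by ring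
      rw [e]
      linarith
    calc volume (dyc v k.1 k.2 \ ⋃ z ∈ blkM r k n, dyc v n z) ≤ 1 * volume (dyc v k.1 k.2) := by
          rw [one_mul]
          exact measure_mono sdiff_subset
      _ ≤ _ := by
          gcongr
          rw [← ENNReal.ofReal_one]
          exact ENNReal.ofReal_le_ofReal h2

/-! ### Cubes with disjoint interiors -/

theorem measurableSet_dyc (v : V) (m : ℕ) (z : Fin 3 → ℤ) : MeasurableSet (dyc v m z) := by
  rw [dyc_eq]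
  exact measurableSet_closedBall

/-- the interior of a dyadic cube has full volume -/
theorem volume_dyc_dyo (v : V) (m : ℕ) (z : Fin 3 → ℤ) :
    volume (dyc v m z \ dyo v m z) = 0 := by
  have h1 := volume_sdiff_ball (ctr v m z) (hs_pos m) (show (0 : ℝ) ≤ 0 by norm_num) (by norm_num)
  have h2 : ball (ctr v m z) (hs m) ⊆ dyo v m z := by
    intro y hy i
    have h3 : |y i - ctr v m z i| < hs m := by
      rw [mem_ball, dist_pi_lt_iff (hs_pos m)] at hy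
      simpa [Real.dist_eq] using hy i
    rw [abs_lt] at h3
    simp only [ctr, hs] at h3
    have e1 : (z i : ℝ) / 2 ^ m = (z i + 1 / 2) / 2 ^ m - 1 / 2 ^ m / 2 := by ring
    have e2 : ((z i : ℝ) + 1) / 2 ^ m = (z i + 1 / 2) / 2 ^ m + 1 / 2 ^ m / 2 := by ring
    exact ⟨by rw [e1]; linarith [h3.1], by rw [e2]; linarith [h3.2]⟩
  refine le_antisymm ?_ bot_le
  rw [dyc_eq]
  refine (measure_mono (sdiff_subset_sdiff_right h2)).trans ?_
  simpa using h1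

/-- volumes of cubes with disjoint interiors in a measurable set (up to boundaries) -/
theorem tsum_vol_le {v : V} {Q : Set Idx}
    (hQ : ∀ q ∈ Q, ∀ q' ∈ Q, q ≠ q' → Disjoint (dyo v q.1 q.2) (dyo v q'.1 q'.2)) {M : Set V}
    (hM : MeasurableSet M) (h : ∀ q ∈ Q, dyo v q.1 q.2 ⊆ M) :
    ∑' q : {q : Idx // q ∈ Q}, volume (dyc v q.1.1 q.1.2) ≤ volume M := by
  have h3 := tsum_dyc_le (v := v) (k := fun q : {q : Idx // q ∈ Q} => q.1) (S := M)
    (fun q q' hqq => hQ q.1 q.2 q'.1 q'.2 fun h => hqq (Subtype.ext h))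
    hM.nullMeasurableSet (fun _ => 1)
  simp only [lintegral_const, Measure.restrict_apply MeasurableSet.univ, univ_inter,
    one_mul] at h3
  refine le_trans (ENNReal.tsum_le_tsum fun q => ?_) h3
  calc volume (dyc v q.1.1 q.1.2)
      ≤ volume ((dyc v q.1.1 q.1.2 ∩ M) ∪ (dyc v q.1.1 q.1.2 \ dyo v q.1.1 q.1.2)) := by
        refine measure_mono fun y hy => ?_
        by_cases hy' : y ∈ dyo v q.1.1 q.1.2
        · exact Or.inl ⟨hy, h q.1 q.2 hy'⟩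
        · exact Or.inr ⟨hy, hy'⟩
    _ ≤ volume (dyc v q.1.1 q.1.2 ∩ M) + volume (dyc v q.1.1 q.1.2 \ dyo v q.1.1 q.1.2) :=
        measure_union_le _ _
    _ = _ := by rw [volume_dyc_dyo, add_zero]

/-! ### The solid cubes -/

theorem ball_deep_mem {v : V} {m : ℕ} {z : Fin 3 → ℤ} {c : ℝ} (hc : 0 < c) {y : V}
    (hy : y ∈ closedBall (ctr v m z) ((1 - 2 * c) * hs m)) : y ∈ dyo v m z := by
  have hm := hs_pos m
  intro i
  have h1 : |y i - ctr v m z i| ≤ (1 - 2 * c) * hs m := by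
    rw [← Real.dist_eq]
    exact (dist_le_pi_dist y (ctr v m z) i).trans (mem_closedBall.1 hy)
  rw [abs_le] at h1
  have h2 : (1 - 2 * c) * hs m < hs m := by nlinarith
  simp only [ctr] at h1
  have e1 : (z i : ℝ) / 2 ^ m = (z i + 1 / 2) / 2 ^ m - hs m := by unfold hs; ring
  have e2 : ((z i : ℝ) + 1) / 2 ^ m = (z i + 1 / 2) / 2 ^ m + hs m := by unfold hs; ring
  exact ⟨by rw [e1]; linarith [h1.1], by rw [e2]; linarith [h1.2]⟩

/-- a small cube in a cell of the block which is not deep does not meet the deeper cubes -/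
theorem disj_deep {v : V} {n : Idx → ℕ} {k q : Idx} {c : ℝ} (hc : 0 < c)
    (hq : 1 / 2 ^ q.1 ≤ c / 2 ^ n k) {z : Fin 3 → ℤ} (hz : z ∈ blk k (n k))
    (hqz : dyc v q.1 q.2 ⊆ dyc v (n k) z) (hqd : ¬ dyc v q.1 q.2 ⊆ deep v n (3 * c) k) :
    Disjoint (dyc v q.1 q.2) (deep v n (4 * c) k) := by
  rw [Set.disjoint_left]
  intro y hy hyd
  obtain ⟨z', hz', hyz'⟩ := mem_iUnion₂.1 hyd
  rw [deep_ball_eq] at hyz'
  have e : z' = z := H803.eq_of_dyo (ball_deep_mem (by linarith) hyz') (hqz hy)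
  subst e
  refine hqd fun y' hy' => mem_iUnion₂.2 ⟨z', hz, ?_⟩
  rw [deep_ball_eq, mem_closedBall]
  have h1 : dist y' y ≤ 1 / 2 ^ q.1 := by
    have := dyc_subset_closedBall hy hy'
    rwa [mem_closedBall] at this
  have h2 := mem_closedBall.1 hyz'
  have h3 : c / 2 ^ n k = 2 * c * hs (n k) := by unfold hs; ring
  calc dist y' (ctr v (n k) z') ≤ dist y' y + dist y (ctr v (n k) z') := dist_triangle _ _ _
    _ ≤ 2 * c * hs (n k) + (1 - 2 * (4 * c)) * hs (n k) := by linarith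
    _ = (1 - 2 * (3 * c)) * hs (n k) := by ring

/-- **the solid cubes of the box which are not deep** -/
theorem solid_le {v : V} {S : Set Idx} {n : Idx → ℕ} {k : Idx} {c E₀ Eb : ℝ} {Eq : Idx → ℝ}
    {r : ℕ} (hr : 3 ≤ r)
    (hS : ∀ q ∈ S, ∀ q' ∈ S, q ≠ q' → Disjoint (dyo v q.1 q.2) (dyo v q'.1 q'.2))
    (hn : k.1 ≤ n k) (hc : 0 < c) (hc1 : c ≤ 1 / 16)
    (hsz : ∀ q ∈ S, dyc v q.1 q.2 ⊆ dyc v k.1 k.2 → 1 / 2 ^ q.1 ≤ c / 2 ^ n k)
    (h1 : ∀ q ∈ S, dyc v q.1 q.2 ⊆ dyc v k.1 k.2 → Eq q ≤ Eb)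
    (h2 : ∀ q ∈ S, ∀ z ∈ blkM r k (n k), dyc v q.1 q.2 ⊆ dyc v (n k) z → Eq q ≤ E₀) :
    ∑' q : {q : Idx // q ∈ S ∧ dyc v q.1 q.2 ⊆ dyc v k.1 k.2 ∧
      ¬ dyc v q.1 q.2 ⊆ deep v n (3 * c) k},
      ENNReal.ofReal (Eq q.1) * volume (dyc v q.1.1 q.1.2) ≤
    (ENNReal.ofReal E₀ * ENNReal.ofReal (18 / 2 ^ (n k - k.1) + 24 * c) +
      ENNReal.ofReal Eb * ENNReal.ofReal (6 * r / 2 ^ (n k - k.1))) *
      volume (dyc v k.1 k.2) := by
  classical
  set T1 : Set Idx := {q | q ∈ S ∧ (dyc v q.1 q.2 ⊆ dyc v k.1 k.2 ∧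
    ¬ dyc v q.1 q.2 ⊆ deep v n (3 * c) k) ∧ ∃ z ∈ blkM r k (n k), dyc v q.1 q.2 ⊆ dyc v (n k) z}
    with hT1
  set T2 : Set Idx := {q | q ∈ S ∧ dyc v q.1 q.2 ⊆ dyc v k.1 k.2 ∧
    ∀ z ∈ blkM r k (n k), ¬ dyc v q.1 q.2 ⊆ dyc v (n k) z} with hT2
  set f : Idx → ℝ≥0∞ := fun q => ENNReal.ofReal (Eq q) * volume (dyc v q.1 q.2) with hf
  have hsub : {q : Idx | q ∈ S ∧ dyc v q.1 q.2 ⊆ dyc v k.1 k.2 ∧
      ¬ dyc v q.1 q.2 ⊆ deep v n (3 * c) k} ⊆ T1 ∪ T2 := by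
    rintro q ⟨hq1, hq2, hq3⟩
    by_cases h : ∃ z ∈ blkM r k (n k), dyc v q.1 q.2 ⊆ dyc v (n k) z
    · exact Or.inl ⟨hq1, ⟨hq2, hq3⟩, h⟩
    · push Not at h
      exact Or.inr ⟨hq1, hq2, h⟩
  have hgen : ∀ q ∈ S, dyc v q.1 q.2 ⊆ dyc v k.1 k.2 → n k ≤ q.1 := by
    intro q hq hqk
    have h3 := hsz q hq hqk
    by_contra hlt
    have h4 : q.1 + 1 ≤ n k := by omega
    have h5 : (2 : ℝ) ^ (q.1 + 1) ≤ 2 ^ n k := pow_le_pow_right₀ (by norm_num) h4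
    rw [pow_succ] at h5
    have h6 : (0 : ℝ) < 2 ^ q.1 := by positivity
    rw [div_le_div_iff₀ h6 (by positivity)] at h3
    nlinarith
  have hm1 : MeasurableSet (dyc v k.1 k.2 \ deep v n (4 * c) k) :=
    (measurableSet_dyc _ _ _).diff (measurableSet_deep _ _ _ _)
  have hm2 : MeasurableSet (dyc v k.1 k.2 \ ⋃ z ∈ blkM r k (n k), dyc v (n k) z) :=
    (measurableSet_dyc _ _ _).diff
      (MeasurableSet.biUnion (to_countable _) fun _ _ => measurableSet_dyc _ _ _)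
  have hdd : ∀ q : Idx, dyo v q.1 q.2 ⊆ dyc v q.1 q.2 := fun q =>
    (dyo_sub_hc _ _ _).trans (hc_sub_dyc _ _ _)
  have hs1 : ∑' q : T1, f q ≤ ENNReal.ofReal E₀ *
      (ENNReal.ofReal (18 / 2 ^ (n k - k.1) + 24 * c) * volume (dyc v k.1 k.2)) := by
    calc ∑' q : T1, f q ≤ ∑' q : T1, ENNReal.ofReal E₀ * volume (dyc v q.1.1 q.1.2) := by
          refine ENNReal.tsum_le_tsum fun q => ?_
          obtain ⟨z, hz, hqz⟩ := q.2.2.2
          simp only [hf]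
          gcongr
          exact h2 q.1 q.2.1 z hz hqz
      _ = ENNReal.ofReal E₀ * ∑' q : T1, volume (dyc v q.1.1 q.1.2) := ENNReal.tsum_mul_left
      _ ≤ ENNReal.ofReal E₀ * volume (dyc v k.1 k.2 \ deep v n (4 * c) k) := by
          gcongr
          refine tsum_vol_le (fun q hq q' hq' => hS q hq.1 q' hq'.1) hm1 fun q hq => ?_
          obtain ⟨z, hz, hqz⟩ := hq.2.2
          have hdis := disj_deep hc (hsz q hq.1 hq.2.1.1) (blkM_three k (n k) ▸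
            blkM_anti hr k (n k) hz) hqz hq.2.1.2
          exact fun y hy => ⟨hq.2.1.1 (hdd q hy), Set.disjoint_left.1 hdis (hdd q hy)⟩
      _ ≤ _ := by
          gcongr
          refine (volume_sdiff_deep v n hn (by linarith) (by linarith)).trans (le_of_eq ?_)
          congr 2
          ring
  have hs2 : ∑' q : T2, f q ≤ ENNReal.ofReal Eb *
      (ENNReal.ofReal (6 * r / 2 ^ (n k - k.1)) * volume (dyc v k.1 k.2)) := by
    calc ∑' q : T2, f q ≤ ∑' q : T2, ENNReal.ofReal Eb * volume (dyc v q.1.1 q.1.2) := by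
          refine ENNReal.tsum_le_tsum fun q => ?_
          simp only [hf]
          gcongr
          exact h1 q.1 q.2.1 q.2.2.1
      _ = ENNReal.ofReal Eb * ∑' q : T2, volume (dyc v q.1.1 q.1.2) := ENNReal.tsum_mul_left
      _ ≤ ENNReal.ofReal Eb *
          volume (dyc v k.1 k.2 \ ⋃ z ∈ blkM r k (n k), dyc v (n k) z) := by
          gcongr
          refine tsum_vol_le (fun q hq q' hq' => hS q hq.1 q' hq'.1) hm2 fun q hq => ?_
          refine fun y hy => ⟨hq.2.1 (hdd q hy), fun hy' => ?_⟩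
          obtain ⟨z, hz, hyz⟩ := mem_iUnion₂.1 hy'
          exact hq.2.2 z hz (H803.sub_of_dyo (hgen q hq.1 hq.2.1) hy hyz)
      _ ≤ _ := by
          gcongr
          exact volume_sdiff_blkM v r hn
  calc ∑' q : {q : Idx // q ∈ S ∧ dyc v q.1 q.2 ⊆ dyc v k.1 k.2 ∧
      ¬ dyc v q.1 q.2 ⊆ deep v n (3 * c) k}, f q.1
      ≤ ∑' q : (T1 ∪ T2 : Set Idx), f q := ENNReal.tsum_mono_subtype f hsub
    _ ≤ ∑' q : T1, f q + ∑' q : T2, f q := ENNReal.tsum_union_le f T1 T2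
    _ ≤ _ := (add_le_add hs1 hs2).trans (le_of_eq (by ring))

/-! ### One box -/

section box

variable {p ε M₀ : ℝ} {cc : ℝ≥0∞} {τ φ κ μ : V → ℝ} {s : V → ℕ} {Ω Λ : Set V} {f : V → V}
  {F : V → Mat} {v : V} {nn : ℕ → ℕ} {K : Set Idx} {x : Idx → V}

/-- the energy of the affine map of the box -/
theorem aff_le (B : Boxes p ε M₀ cc τ φ κ μ s Ω Λ f F v nn K x) (hp : 1 ≤ p)
    (hF : St.IsSobolev p Ω f F) {k : Idx} (hk : k ∈ K) :
    ‖cl (F (x k))‖ₑ ^ p * volume (dyc v k.1 k.2) ≤ ENNReal.ofReal (2 ^ (p - 1)) *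
      ((∫⁻ y in dyc v k.1 k.2, HF p Ω F y) +
        ENNReal.ofReal (κ (x k)) * volume (dyc v k.1 k.2)) := by
  have hsub : dyc v k.1 k.2 ⊆ Ω := (B.pt k hk).2.1
  have h2 : (2 : ℝ≥0∞) ^ (p - 1) = ENNReal.ofReal (2 ^ (p - 1)) := by
    rw [← ENNReal.ofReal_rpow_of_pos (by norm_num)]; norm_num
  have hH : ∫⁻ y in dyc v k.1 k.2, HF p Ω F y = ∫⁻ y in dyc v k.1 k.2, ‖cl (F y)‖ₑ ^ p := by
    refine setLIntegral_congr_fun (measurableSet_dyc _ _ _) fun y hy => ?_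
    simp only [HF]
    rw [indicator_of_mem (hsub hy)]
  rw [← h2, hH]
  calc ‖cl (F (x k))‖ₑ ^ p * volume (dyc v k.1 k.2)
      = ∫⁻ _y in dyc v k.1 k.2, ‖cl (F (x k))‖ₑ ^ p := by rw [setLIntegral_const]
    _ ≤ ∫⁻ y in dyc v k.1 k.2, 2 ^ (p - 1) * (‖cl (F y)‖ₑ ^ p +
          ‖cl (F y) - cl (F (x k))‖ₑ ^ p) := lintegral_mono fun y => by
        have h := enorm_rpow_add_le hp (cl (F (x k))) (cl (F y))
        have e : ‖cl (F (x k)) - cl (F y)‖ₑ = ‖cl (F y) - cl (F (x k))‖ₑ :=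
          enorm_sub_rev (E := V →L[ℝ] V) _ _
        rw [e] at h
        exact h
    _ = 2 ^ (p - 1) * ((∫⁻ y in dyc v k.1 k.2, ‖cl (F y)‖ₑ ^ p) +
        ∫⁻ y in dyc v k.1 k.2, ‖cl (F y) - cl (F (x k))‖ₑ ^ p) := by
          rw [lintegral_const_mul' _ _ (two_rpow_ne_top p),
            lintegral_add_right' _ (aem_sub hF hsub _)]
    _ ≤ _ := by
          gcongr
          exact B.leb k hk

/-- **everything in one box**: `Bk`: constant of the passive cubes, `X`: the solid cubes -/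
theorem box_one (B : Boxes p ε M₀ cc τ φ κ μ s Ω Λ f F v nn K x) (hp : 1 ≤ p)
    (hF : St.IsSobolev p Ω f F) {n : ℕ} {k : Idx} (hk : k ∈ K) (hn : k.1 ≤ n)
    {Bk δ₁ δ₂ ε₀ : ℝ} {tolD X : ℝ≥0∞} (hB : 0 ≤ Bk) (hκ : 0 ≤ κ (x k)) (hδ₁ : 0 ≤ δ₁)
    (hδ₂ : 0 ≤ δ₂) (htol : ENNReal.ofReal Bk * tolD ≤ ENNReal.ofReal δ₂ * volume (dyc v k.1 k.2))
    (hX : X ≤ ENNReal.ofReal δ₁ * volume (dyc v k.1 k.2))
    (hnum : 36 * 2 ^ (p - 1) * (Bk * (‖cl (F (x k))‖ ^ p * (18 / 2 ^ (n - k.1)) + κ (x k))) +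
      2 ^ (p - 1) * κ (x k) + δ₁ + δ₂ ≤ ε₀) :
    ENNReal.ofReal Bk * (36 * (∫⁻ y in dyc v k.1 k.2 \ blkS v k n, HF p Ω F y) + tolD) +
      (X + ‖cl (F (x k))‖ₑ ^ p * volume (dyc v k.1 k.2)) ≤
    ENNReal.ofReal (2 ^ (p - 1)) * (∫⁻ y in dyc v k.1 k.2, HF p Ω F y) +
      ENNReal.ofReal ε₀ * volume (dyc v k.1 k.2) := by
  have hp0 : 0 ≤ p := by linarith
  have hm : MeasurableSet (blkS v k n) :=
    MeasurableSet.biUnion (to_countable _) fun _ _ => measurableSet_dyc _ _ _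
  set W : ℝ≥0∞ := volume (dyc v k.1 k.2) with hW
  set N : ℝ := ‖cl (F (x k))‖ ^ p with hN
  have hN0 : 0 ≤ N := Real.rpow_nonneg (norm_nonneg _) _
  have hNe : ‖cl (F (x k))‖ₑ ^ p = ENNReal.ofReal N := by
    rw [← ofReal_norm, ENNReal.ofReal_rpow_of_nonneg (norm_nonneg _) hp0]
  have hP0 : (0 : ℝ) ≤ 2 ^ (p - 1) := by positivity
  have hT : (0 : ℝ) ≤ 18 / 2 ^ (n - k.1) := by positivity
  have h1 : ∫⁻ y in dyc v k.1 k.2 \ blkS v k n, HF p Ω F y ≤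
      ENNReal.ofReal (2 ^ (p - 1) * (N * (18 / 2 ^ (n - k.1)) + κ (x k))) * W := by
    refine (int_HF_le B hp hF hk ((measurableSet_dyc _ _ _).diff hm) sdiff_subset).trans ?_
    calc ENNReal.ofReal (2 ^ (p - 1)) * (‖cl (F (x k))‖ₑ ^ p *
          volume (dyc v k.1 k.2 \ blkS v k n) + ENNReal.ofReal (κ (x k)) * W)
        ≤ ENNReal.ofReal (2 ^ (p - 1)) * (ENNReal.ofReal N *
          (ENNReal.ofReal (18 / 2 ^ (n - k.1)) * W) + ENNReal.ofReal (κ (x k)) * W) := by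
          rw [hNe]
          gcongr
          exact volume_sdiff_blkS v hn
      _ = _ := by
          rw [ENNReal.ofReal_mul hP0, ENNReal.ofReal_add (by positivity) hκ,
            ENNReal.ofReal_mul hN0]
          ring
  have h2 : ENNReal.ofReal Bk * (36 * (∫⁻ y in dyc v k.1 k.2 \ blkS v k n, HF p Ω F y)) ≤
      ENNReal.ofReal (36 * 2 ^ (p - 1) * (Bk * (N * (18 / 2 ^ (n - k.1)) + κ (x k)))) * W := by
    calc ENNReal.ofReal Bk * (36 * (∫⁻ y in dyc v k.1 k.2 \ blkS v k n, HF p Ω F y))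
        ≤ ENNReal.ofReal Bk * (36 *
          (ENNReal.ofReal (2 ^ (p - 1) * (N * (18 / 2 ^ (n - k.1)) + κ (x k))) * W)) := by gcongr
      _ = (ENNReal.ofReal Bk * ENNReal.ofReal 36 *
          ENNReal.ofReal (2 ^ (p - 1) * (N * (18 / 2 ^ (n - k.1)) + κ (x k)))) * W := by
          rw [show ENNReal.ofReal 36 = 36 by norm_num]
          ring
      _ = _ := by
          rw [← ENNReal.ofReal_mul hB, ← ENNReal.ofReal_mul (by positivity)]
          congr 2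
          ring
  have h3 := aff_le B hp hF hk
  have h4 : ENNReal.ofReal (2 ^ (p - 1)) * (ENNReal.ofReal (κ (x k)) * W) =
      ENNReal.ofReal (2 ^ (p - 1) * κ (x k)) * W := by
    rw [ENNReal.ofReal_mul hP0]
    ring
  have h5 : ‖cl (F (x k))‖ₑ ^ p * W ≤ ENNReal.ofReal (2 ^ (p - 1)) *
      (∫⁻ y in dyc v k.1 k.2, HF p Ω F y) + ENNReal.ofReal (2 ^ (p - 1) * κ (x k)) * W := by
    rw [← h4, ← mul_add]
    exact h3
  calc ENNReal.ofReal Bk * (36 * (∫⁻ y in dyc v k.1 k.2 \ blkS v k n, HF p Ω F y) + tolD) +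
      (X + ‖cl (F (x k))‖ₑ ^ p * W)
      = ENNReal.ofReal Bk * (36 * (∫⁻ y in dyc v k.1 k.2 \ blkS v k n, HF p Ω F y)) +
        ENNReal.ofReal Bk * tolD + (X + ‖cl (F (x k))‖ₑ ^ p * W) := by ring
    _ ≤ ENNReal.ofReal (36 * 2 ^ (p - 1) * (Bk * (N * (18 / 2 ^ (n - k.1)) + κ (x k)))) * W +
        ENNReal.ofReal δ₂ * W + (ENNReal.ofReal δ₁ * W + (ENNReal.ofReal (2 ^ (p - 1)) *
        (∫⁻ y in dyc v k.1 k.2, HF p Ω F y) + ENNReal.ofReal (2 ^ (p - 1) * κ (x k)) * W)) :=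
        add_le_add (add_le_add h2 htol) (add_le_add hX h5)
    _ = ENNReal.ofReal (2 ^ (p - 1)) * (∫⁻ y in dyc v k.1 k.2, HF p Ω F y) +
        (ENNReal.ofReal (36 * 2 ^ (p - 1) * (Bk * (N * (18 / 2 ^ (n - k.1)) + κ (x k)))) +
        ENNReal.ofReal (2 ^ (p - 1) * κ (x k)) + ENNReal.ofReal δ₁ + ENNReal.ofReal δ₂) * W := by
        ring
    _ ≤ _ := by
        gcongr
        rw [← ENNReal.ofReal_add (by positivity) (by positivity),
          ← ENNReal.ofReal_add (by positivity) hδ₁, ← ENNReal.ofReal_add (by positivity) hδ₂]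
        exact ENNReal.ofReal_le_ofReal hnum

end box

/-! ### The boxes which meet a set -/

/-- a cube of size at most `r₀` which meets `A` is near `A` -/
theorem dyc_sub_near {v : V} {q : Idx} {r₀ : ℝ} (hq : 1 / 2 ^ q.1 ≤ r₀) {A : Set V}
    (h : (dyc v q.1 q.2 ∩ A).Nonempty) : dyc v q.1 q.2 ⊆ {y | infDist y A ≤ r₀} := by
  obtain ⟨a, ha, haA⟩ := h
  intro y hy
  have h1 : dist y a ≤ 1 / 2 ^ q.1 := by
    have := dyc_subset_closedBall ha hy
    rwa [mem_closedBall] at this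
  exact (infDist_le_dist_of_mem haA).trans (h1.trans hq)

theorem measurableSet_near {Ω : Set V} (hΩ : IsOpen Ω) (A : Set V) (r₀ : ℝ) :
    MeasurableSet {y | y ∈ Ω ∧ infDist y A ≤ r₀} :=
  hΩ.measurableSet.inter (isClosed_le (continuous_infDist_pt A) continuous_const).measurableSet

/-- **the sum over the boxes which meet `A`** -/
theorem box_loc {Ω : Set V} (hΩ : IsOpen Ω) {v : V} {K : Set Idx} {H : V → ℝ≥0∞} {r₀ : ℝ}
    (hK : ∀ k ∈ K, dyc v k.1 k.2 ⊆ Ω ∧ 1 / 2 ^ k.1 ≤ r₀)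
    (hd : ∀ k ∈ K, ∀ k' ∈ K, k ≠ k' → Disjoint (dyo v k.1 k.2) (dyo v k'.1 k'.2))
    {e : Idx → ℝ≥0∞} {C ε₀ : ℝ≥0∞}
    (he : ∀ k ∈ K, e k ≤ C * (∫⁻ y in dyc v k.1 k.2, H y) + ε₀ * volume (dyc v k.1 k.2))
    (A : Set V) :
    ∑' k : {k : Idx // k ∈ K ∧ (dyc v k.1 k.2 ∩ A).Nonempty}, e k.1 ≤
      C * (∫⁻ y in {y | y ∈ Ω ∧ infDist y A ≤ r₀}, H y) + ε₀ * volume Ω := by
  have hd' : Pairwise (Function.onFun Disjoint
      fun k : {k : Idx // k ∈ K ∧ (dyc v k.1 k.2 ∩ A).Nonempty} => dyo v k.1.1 k.1.2) :=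
    fun k k' hkk => hd k.1 k.2.1 k'.1 k'.2.1 fun h => hkk (Subtype.ext h)
  have h1 := tsum_dyc_le (v := v) (k := fun k : {k : Idx // k ∈ K ∧
    (dyc v k.1 k.2 ∩ A).Nonempty} => k.1) hd' (measurableSet_near hΩ A r₀).nullMeasurableSet H
  have h2 := tsum_dyc_le (v := v) (k := fun k : {k : Idx // k ∈ K ∧
    (dyc v k.1 k.2 ∩ A).Nonempty} => k.1) hd' hΩ.measurableSet.nullMeasurableSet fun _ => 1
  simp only [lintegral_const, Measure.restrict_apply MeasurableSet.univ, univ_inter,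
    one_mul] at h2
  calc ∑' k : {k : Idx // k ∈ K ∧ (dyc v k.1 k.2 ∩ A).Nonempty}, e k.1
      ≤ ∑' k : {k : Idx // k ∈ K ∧ (dyc v k.1 k.2 ∩ A).Nonempty},
        (C * (∫⁻ y in dyc v k.1.1 k.1.2 ∩ {y | y ∈ Ω ∧ infDist y A ≤ r₀}, H y) +
          ε₀ * volume (dyc v k.1.1 k.1.2 ∩ Ω)) := by
        refine ENNReal.tsum_le_tsum fun k => (he k.1 k.2.1).trans ?_
        have h3 := hK k.1 k.2.1
        rw [inter_eq_left.2 h3.1, inter_eq_left.2 (show dyc v k.1.1 k.1.2 ⊆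
          {y | y ∈ Ω ∧ infDist y A ≤ r₀} from fun y hy =>
            ⟨h3.1 hy, dyc_sub_near h3.2 k.2.2 hy⟩)]
    _ = C * (∑' k : {k : Idx // k ∈ K ∧ (dyc v k.1 k.2 ∩ A).Nonempty},
        ∫⁻ y in dyc v k.1.1 k.1.2 ∩ {y | y ∈ Ω ∧ infDist y A ≤ r₀}, H y) +
        ε₀ * ∑' k : {k : Idx // k ∈ K ∧ (dyc v k.1 k.2 ∩ A).Nonempty},
          volume (dyc v k.1.1 k.1.2 ∩ Ω) := by
        rw [ENNReal.tsum_add, ENNReal.tsum_mul_left, ENNReal.tsum_mul_left]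
    _ ≤ _ := by gcongr

end Vale.Agent.P073.H989
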