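import Vale.Agent.P073.H989.GSet
import Vale.Agent.P073.H911.Thin
import Mathlib.MeasureTheory.Measure.Decomposition.RadonNikodym

/-!
# P073, block B06: the choice of the good cubes, exponent at least three
-/

namespace Vale.Agent.P073.H989

open MeasureTheory Set Filter Topology Metric Vale.Agent.P073.St
open Vale.Agent.P073.AB (cl FinDist)
open Vale.Agent.P073.PK (IsSob.memLp_cl IsSob.aesm IsSob.lintegral_ne_top)
open P073.Net (dyc dyo)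
open scoped ENNReal NNReal

variable {p : ℝ} {Ω Λ : Set V} {f : V → V} {F : V → Mat}

/-- Absolute continuity, in the `ε`-`δ` form, of an image measure. -/
theorem exists_delta {G : Set V} (hf : AEMeasurable f (volume.restrict G))
    {k : V → ℝ≥0∞} (hki : ∫⁻ x in G, k x ≠ ⊤)
    (hac : ∀ B : Set V, volume B = 0 → volume (G ∩ f ⁻¹' B) = 0) {ε : ℝ≥0∞} (hε : ε ≠ 0) :
    ∃ δ : ℝ≥0∞, δ ≠ 0 ∧ ∀ B : Set V, MeasurableSet B → volume B ≤ δ →
      ∫⁻ x in G ∩ f ⁻¹' B, k x ≤ ε := by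
  set μ : Measure V := (volume.restrict G).withDensity k with hμ
  have hμf : IsFiniteMeasure μ := by
    refine ⟨?_⟩
    rw [hμ, withDensity_apply _ MeasurableSet.univ, Measure.restrict_univ]
    exact lt_top_iff_ne_top.2 hki
  have hμac : μ ≪ volume.restrict G := withDensity_absolutelyContinuous _ _
  have hfμ : AEMeasurable f μ := hf.mono_ac hμac
  set ν : Measure V := μ.map f with hν
  have hνf : IsFiniteMeasure ν := Measure.isFiniteMeasure_map μ f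
  have hνac : ν ≪ (volume : Measure V) := by
    refine Measure.AbsolutelyContinuous.mk fun B hBm hB => ?_
    rw [hν, Measure.map_apply_of_aemeasurable hfμ hBm]
    refine hμac ?_
    have h1 : NullMeasurableSet (f ⁻¹' B) (volume.restrict G) := hf.nullMeasurable hBm
    rw [Measure.restrict_apply₀ h1, inter_comm]
    exact hac B hB
  obtain ⟨δ, hδ, h1⟩ := exists_pos_setLIntegral_lt_of_measure_lt (μ := (volume : Measure V))
    (f := ν.rnDeriv volume) (by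
      exact (Measure.lintegral_rnDeriv_lt_top ν volume).ne) hε
  refine ⟨min (δ / 2) 1, ?_, fun B hBm hB => ?_⟩
  · exact (lt_min (ENNReal.half_pos hδ.ne') one_pos).ne'
  · have h2 : volume B < δ := by
      by_cases hδt : δ = ⊤
      · rw [hδt]
        exact lt_of_le_of_lt (hB.trans (min_le_right _ _)) ENNReal.one_lt_top
      · exact lt_of_le_of_lt (hB.trans (min_le_left _ _)) (ENNReal.half_lt_self hδ.ne' hδt)
    have h3 := h1 B h2
    have h4 : ν B ≤ ε := by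
      rw [← Measure.withDensity_rnDeriv_eq ν volume hνac, withDensity_apply _ hBm]
      exact h3.le
    rw [hν, Measure.map_apply_of_aemeasurable hfμ hBm, hμ,
      withDensity_apply'] at h4
    refine le_trans (le_of_eq ?_) h4
    rw [inter_comm, ← Measure.restrict_restrict₀ (hf.nullMeasurable hBm)]

/-- the rest of the image: the points not covered by the affine images of the shrunk cubes -/
def rest (Λ : Set V) (f : V → V) (F : V → Mat) (v : V) (K : Set (ℕ × (Fin 3 → ℤ)))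
    (x : ℕ × (Fin 3 → ℤ) → V) (κ : ℕ × (Fin 3 → ℤ) → ℝ) : Set V :=
  Λ \ ⋃ k ∈ K, H911.aff f (fun y => cl (F y)) (x k) '' H911.shr v k.1 k.2 (κ k)

/-- **The choice of the good cubes**, `p ≥ 3`, finite distortion. -/
theorem choice3 (hp : 3 ≤ p) (hΩ : St.IsBoundedDomain Ω) (hΛ : St.IsBoundedDomain Λ)
    (hf : St.IsHomeo Ω Λ f) (hF : St.IsSobolev p Ω f F) (hFD : FinDist Ω F) {Q : V → Prop}
    (hQ : ∀ᵐ x ∂(volume : Measure V), x ∈ Ω → NonSing (F x) → Q x) {ε : ℝ≥0∞} (hε : ε ≠ 0) (v : V)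
    {P : V → ℝ → ℕ → (Fin 3 → ℤ) → Prop}
    (hP : ∀ x, GoodPt p Ω f F x → Q x → ∀ κ > 0, ∃ M : ℕ, ∀ m ≥ M, ∀ z, x ∈ dyc v m z → P x κ m z)
    {κ₀ : V → ℝ} (hκ₀ : ∀ x, GoodPt p Ω f F x → Q x → 0 < κ₀ x) {w : V → ℝ≥0∞}
    (hw : ∀ y ∈ Λ, ∃ B : NNReal, ∀ᶠ z in 𝓝 y, w z ≤ B) {c : ℝ≥0∞} (hc0 : c ≠ 0)
    {h : ℝ} (hh : 0 < h) {τ : H911.E3 → ℝ} (hτL : ∀ x y, τ y ≤ τ x + dist y x)
    (hτ : ∀ y, WithLp.ofLp y ∈ Λ → 0 < τ y) :
    ∃ (K : Set (ℕ × (Fin 3 → ℤ))) (x : ℕ × (Fin 3 → ℤ) → V) (κ : ℕ × (Fin 3 → ℤ) → ℝ),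
      (∀ k ∈ K, GoodPt p Ω f F (x k) ∧ Q (x k) ∧ x k ∈ dyc v k.1 k.2 ∧ dyc v k.1 k.2 ⊆ Ω ∧
        0 < κ k ∧ κ k ≤ κ₀ (x k) ∧ κ k ≤ 1 / 2 ∧ P (x k) (κ k) k.1 k.2 ∧
        ∫⁻ y in dyc v k.1 k.2, ‖cl (F y) - cl (F (x k))‖ₑ ^ p ≤
          ENNReal.ofReal (κ k) * volume (dyc v k.1 k.2)) ∧
      (∀ k ∈ K, ∀ y ∈ dyc v k.1 k.2,
        ‖f y - H911.aff f (fun y => cl (F y)) (x k) y‖ ≤ κ k / 2 ^ k.1 ∧
        ∃ y', ‖y' - y‖ ≤ κ k / 4 / 2 ^ k.1 ∧ f y = H911.aff f (fun y => cl (F y)) (x k) y') ∧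
      (∀ k ∈ K, H911.aff f (fun y => cl (F y)) (x k) '' H911.shr v k.1 k.2 (κ k) ⊆
        f '' dyo v k.1 k.2) ∧
      (∀ k ∈ K, ∀ k' ∈ K, k ≠ k' → Disjoint (dyo v k.1 k.2) (dyo v k'.1 k'.2)) ∧
      (∀ C ⊆ Ω, IsCompact C → {k ∈ K | (dyc v k.1 k.2 ∩ C).Nonempty}.Finite) ∧
      ∫⁻ y in rest Λ f F v K x κ, w y ≤ c ∧
      IsOpen (H911.up (rest Λ f F v K x κ)) ∧ IsOpen (rest Λ f F v K x κ) ∧
      Bornology.IsBounded (H911.up (rest Λ f F v K x κ)) ∧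
      COL605.Thin volume h (H911.up (rest Λ f F v K x κ)) τ ∧
      ∫⁻ y in Ω ∩ f ⁻¹' rest Λ f F v K x κ, ‖cl (F y)‖ₑ ^ p ≤ ε := by
  have hp1 : 1 ≤ p := by linarith
  have hp0 : 0 < p := by linarith
  have hΩo := hΩ.1
  have hΛo := hΛ.1
  have hvΩ : volume Ω ≠ ⊤ := PK.volume_ne_top_of_domain hΩ
  have hbΛ : Bornology.IsBounded Λ := PK.isBounded_of_domain hΛ
  have hfc : ContinuousOn f Ω := by
    obtain ⟨h, -, h1, -⟩ := hf
    exact h1
  obtain ⟨G, hGm, hG, hG0, hGi, hGac⟩ := exists_good_of hp hΩo hvΩ hΛo hf hF hQ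
  have hGΩ : G ⊆ Ω := fun x hx => (hG x hx).1.mem
  have hFi : ∫⁻ x in Ω, ‖cl (F x)‖ₑ ^ p ≠ ⊤ := IsSob.lintegral_ne_top hp1 hF
  obtain ⟨δ, hδ0, hδ⟩ := exists_delta
    ((hfc.aemeasurable hΩo.measurableSet).mono_measure (Measure.restrict_mono hGΩ le_rfl))
    (ne_top_of_le_ne_top hFi (lintegral_mono_set hGΩ)) hGac hε
  -- the weight
  set c' : ℝ≥0∞ := min c 1 with hc'
  have hc'0 : c' ≠ 0 := (lt_min (pos_iff_ne_zero.2 hc0) one_pos).ne'
  have hc't : c' ≠ ⊤ := ne_top_of_le_ne_top ENNReal.one_ne_top (min_le_right _ _)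
  set δ' : ℝ≥0∞ := min δ 1 with hδ'
  have hδ'0 : δ' ≠ 0 := (lt_min (pos_iff_ne_zero.2 hδ0) one_pos).ne'
  have hδ't : δ' ≠ ⊤ := ne_top_of_le_ne_top ENNReal.one_ne_top (min_le_right _ _)
  have hat : c' / δ' ≠ ⊤ := ENNReal.div_ne_top hc't hδ'0
  have ha0 : c' / δ' ≠ 0 := ENNReal.div_ne_zero.2 ⟨hc'0, hδ't⟩
  have hwb : ∀ y ∈ Λ, ∃ B : NNReal, ∀ᶠ z in 𝓝 y, w z + c' / δ' ≤ B := by
    intro y hy
    obtain ⟨B, hB⟩ := hw y hy
    refine ⟨B + (c' / δ').toNNReal, ?_⟩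
    filter_upwards [hB] with z hz
    rw [ENNReal.coe_add, ENNReal.coe_toNNReal hat]
    gcongr
  have hPP : ∀ x ∈ G, ∀ κ > 0, ∃ M : ℕ, ∀ m ≥ M, ∀ z, x ∈ dyc v m z → (P x κ m z ∧
      ∫⁻ y in dyc v m z, ‖cl (F y) - cl (F x)‖ₑ ^ p ≤
        ENNReal.ofReal κ * volume (dyc v m z)) := by
    intro x hx κ hκ
    obtain ⟨M₁, h1⟩ := hP x (hG x hx).1 (hG x hx).2 κ hκ
    obtain ⟨M₂, h2⟩ := (hG x hx).1.exists_gen (η := ENNReal.ofReal κ) (by simpa using hκ)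
    refine ⟨max M₁ M₂, fun m hm z hz => ⟨h1 m (le_of_max_le_left hm) z hz,
      (h2 m (le_of_max_le_right hm) v z hz).2⟩⟩
  obtain ⟨K, x, κ, h1, h2, h3, h4, h5, h6, h7, h8, h9⟩ := H911.exists_cubes_thin hΩo hΛo hbΛ hf hGΩ
    hGi (fun x hx => (hG x hx).1.der) (fun x hx => (hG x hx).1.det_ne) v hPP
    (fun x hx => hκ₀ x (hG x hx).1 (hG x hx).2) hwb hc'0 hh hτL hτ
  have hRo : IsOpen (rest Λ f F v K x κ) := by
    have : rest Λ f F v K x κ = (fun y : V => (WithLp.toLp 2 y : H911.E3)) ⁻¹'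
        H911.up (rest Λ f F v K x κ) := by
      ext y
      simp [H911.up]
    rw [this]
    exact h7.preimage (PiLp.continuous_toLp 2 _)
  have hRm := hRo.measurableSet
  have hRv : volume (rest Λ f F v K x κ) ≤ δ := by
    have h10 : (c' / δ') * volume (rest Λ f F v K x κ) ≤ c' := by
      rw [← setLIntegral_const]
      exact (lintegral_mono fun y => le_add_self).trans h6
    have h11 : volume (rest Λ f F v K x κ) ≤ c' / (c' / δ') := by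
      rw [ENNReal.le_div_iff_mul_le (Or.inl ha0) (Or.inl hat), mul_comm]
      exact h10
    refine h11.trans (le_trans (le_of_eq ?_) (min_le_left δ 1))
    rw [← hδ']
    rw [div_eq_mul_inv, ENNReal.inv_div (Or.inl hδ't) (Or.inl hδ'0), ENNReal.mul_div_cancel hc'0 hc't]
  refine ⟨K, x, κ, fun k hk => ?_, h2, h3, h4, h5, ?_, h7, hRo, h8, h9, ?_⟩
  · obtain ⟨a1, a2, a3, a4, a5, a6, a7, a8⟩ := h1 k hk
    exact ⟨(hG _ a1).1, (hG _ a1).2, a2, a3, a4, a5, a6, a7, a8⟩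
  · exact ((lintegral_mono fun y => le_self_add).trans h6).trans (min_le_left _ _)
  · set R := rest Λ f F v K x κ with hR
    have hsub : Ω ∩ f ⁻¹' R ⊆ (G ∩ f ⁻¹' R) ∪ (Ω \ G) := by
      rintro y ⟨hy1, hy2⟩
      by_cases hy : y ∈ G
      · exact Or.inl ⟨hy, hy2⟩
      · exact Or.inr ⟨hy1, hy⟩
    have hzero : ∫⁻ y in Ω \ G, ‖cl (F y)‖ₑ ^ p = 0 := by
      have h10 : ∀ᵐ y ∂(volume.restrict (Ω \ G)), ‖cl (F y)‖ₑ ^ p = 0 := by
        rw [ae_restrict_iff' (hΩo.measurableSet.diff hGm)]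
        filter_upwards [hFD, measure_eq_zero_iff_ae_notMem.1 hG0] with y hy1 hy2 hy3
        rcases hy1 hy3.1 with h | h
        · have : F y = 0 := funext fun i => funext fun j => h i j
          have h0 : cl (F y) = 0 := by
            ext u i
            rw [PK.cl_apply, this]
            simp
          have h00 : ‖cl (F y)‖ₑ = 0 := by
            rw [h0]
            exact enorm_zero (E := V →L[ℝ] V)
          rw [h00, ENNReal.zero_rpow_of_pos hp0]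
        · exact absurd ⟨⟨hy3.1, h⟩, hy3.2⟩ hy2
      rw [lintegral_congr_ae h10, lintegral_zero]
    calc ∫⁻ y in Ω ∩ f ⁻¹' R, ‖cl (F y)‖ₑ ^ p
        ≤ ∫⁻ y in (G ∩ f ⁻¹' R) ∪ (Ω \ G), ‖cl (F y)‖ₑ ^ p := lintegral_mono_set hsub
      _ ≤ (∫⁻ y in G ∩ f ⁻¹' R, ‖cl (F y)‖ₑ ^ p) + ∫⁻ y in Ω \ G, ‖cl (F y)‖ₑ ^ p :=
          lintegral_union_le _ _ _
      _ ≤ ε := by
          rw [hzero, add_zero]
          exact hδ R hRm hRv

end Vale.Agent.P073.H989
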