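import Vale.Agent.P073.H989.GSet
import Vale.Agent.P073.H79.EdgeLeb2
import Vale.Agent.P073.H333.NetInDefs
import Vale.Agent.P073.AB.Tiles907

/-!
# P073, block A15 (CHOICE), part 1: one good cube, and the choice of the good cubes of one
generation
-/

namespace Vale.Agent.P073.H989

open MeasureTheory Set Filter Topology Metric Vale.Agent.P073.St
open Vale.Agent.P073.AB (cl FinDist Idx edge eInt Part EdgeOf tiles rho boxR boxB shrink)
open Vale.Agent.P073.PK (IsSob.memLp_cl IsSob.aesm IsSob.lintegral_ne_top)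
open Vale.Agent.P073.SQ (ev)
open Vale.Agent.P073.H194 (idx)
open Vale.Agent.P073.H79 (EdgeLeb)
open P073.Net (dyc dyo)
open scoped ENNReal NNReal

variable {p : ℝ} {Ω Λ : Set V} {f : V → V} {F : V → Mat}

/-- a good cube `(n, z)` with its good point `x` -/
structure GC (p θ M : ℝ) (Ω : Set V) (f : V → V) (F : V → Mat) (v : V) (n j : ℕ) (κ : ℝ)
    (x : V) (z : Fin 3 → ℤ) : Prop where
  mem : x ∈ dyc v n z
  sub : dyc v n z ⊆ Ω
  pt : GoodPt p Ω f F x
  below : ∀ w, θ * ‖w‖ ≤ ‖cl (F x) w‖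
  above : ∀ w, ‖cl (F x) w‖ ≤ M * ‖w‖
  close : ∀ y ∈ dyc v n z, ‖f y - (f x + cl (F x) (y - x))‖ ≤ κ / 2 ^ n
  own : ∀ e : Idx × Fin 3, e.1.1 = n + j → edge v e ⊆ dyc v n z →
    eInt v e (fun y => ENNReal.ofReal ‖cl (F y) (ev e.2) - cl (F x) (ev e.2)‖) ≤
      ENNReal.ofReal (κ / 2 ^ (n + j))
  leb : ∫⁻ y in dyc v n z, ‖cl (F y) - cl (F x)‖ₑ ^ p ≤ ENNReal.ofReal κ * volume (dyc v n z)

theorem mem_dyc_idx (v : V) (n : ℕ) (x : V) : x ∈ dyc v n (idx v n x) := by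
  intro k
  have hp : (0:ℝ) < 2 ^ n := by positivity
  have h1 := Int.floor_le (2 ^ n * (x k - v k))
  have h2 := Int.lt_floor_add_one (2 ^ n * (x k - v k))
  have e1 : (idx v n x k : ℝ) / 2 ^ n ≤ x k - v k := by
    rw [div_le_iff₀ hp, mul_comm]
    exact h1
  have e2 : x k - v k < ((idx v n x k : ℝ) + 1) / 2 ^ n := by
    rw [lt_div_iff₀ hp, mul_comm]
    exact h2
  constructor <;> linarith

/-- at a good point all small cubes are good -/
theorem eventually_gc {θ M : ℝ} (hΩ : IsOpen Ω) {v x : V} {nn : ℕ → ℕ} (hnn : StrictMono nn)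
    (hx : GoodPt p Ω f F x) (hθ : ∀ w, θ * ‖w‖ ≤ ‖cl (F x) w‖) (hM : ∀ w, ‖cl (F x) w‖ ≤ M * ‖w‖)
    (he : EdgeLeb v nn (Ω.indicator fun x => cl (F x)) x) (j : ℕ) {κ : ℝ} (hκ : 0 < κ) :
    ∀ᶠ l in atTop, GC p θ M Ω f F v (nn l) j κ x (idx v (nn l) x) := by
  obtain ⟨N, hN⟩ := hx.exists_gen (η := ENNReal.ofReal κ) (by simpa using hκ)
  have h1 := hx.der.isLittleO.bound hκ
  obtain ⟨δ, hδ, hb⟩ := Metric.eventually_nhds_iff_ball.1 h1
  have h4 : Tendsto (fun n : ℕ => (1 / 2 ^ n : ℝ)) atTop (𝓝 0) := by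
    have := tendsto_pow_atTop_nhds_zero_of_lt_one (r := (1 / 2 : ℝ)) (by norm_num) (by norm_num)
    simpa [one_div_pow] using this
  filter_upwards [he.own hΩ hx.mem hnn j hκ, hnn.tendsto_atTop.eventually_ge_atTop N,
    (h4.comp hnn.tendsto_atTop).eventually_lt_const hδ] with l h5 h6 h7
  have hmem := mem_dyc_idx v (nn l) x
  refine ⟨hmem, h5.1, hx, hθ, hM, fun y hy => ?_, h5.2, (hN _ h6 v _ hmem).2⟩
  have h8 : dist y x ≤ 1 / 2 ^ nn l := dyc_subset_closedBall hmem hy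
  have h9 := hb y (lt_of_le_of_lt h8 h7)
  have e1 : f y - (f x + cl (F x) (y - x)) = f y - f x - cl (F x) (y - x) := by abel
  rw [e1]
  refine h9.trans ?_
  rw [← dist_eq_norm, div_eq_mul_one_div]
  gcongr

/-- **Egorov for cells**: for large generations the cells with a point where `S l` holds carry
almost all the mass. -/
theorem exists_cells {μ : Measure V} [IsFiniteMeasure μ] {S : ℕ → V → Prop} {T : Set V}
    (hS : ∀ᵐ x ∂μ, x ∈ T → ∀ᶠ l in atTop, S l x) (v : V) (nn : ℕ → ℕ) {ε : ℝ≥0∞} (hε : ε ≠ 0)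
    {K : Set V} (hK : IsCompact K) (hT : μ univ ≤ μ (T ∩ K) + ε) :
    ∀ᶠ l in atTop, ∃ (J : Finset (Fin 3 → ℤ)) (x : (Fin 3 → ℤ) → V),
      (∀ z ∈ J, S l (x z) ∧ x z ∈ K ∧ x z ∈ T ∧ idx v (nn l) (x z) = z) ∧
      μ (⋃ z ∈ J, dyc v (nn l) z)ᶜ ≤ ε + ε := by
  set G : ℕ → Set V := fun l => {x | x ∈ T ∩ K ∧ ∀ l' ≥ l, S l' x} with hG
  have hmono : Monotone G := fun a b hab x hx => ⟨hx.1, fun l' hl' => hx.2 l' (hab.trans hl')⟩
  have h1 := tendsto_measure_iUnion_atTop (μ := μ) hmono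
  have h2 : μ (⋃ l, G l) = μ (T ∩ K) := by
    refine measure_congr ?_
    filter_upwards [hS] with x hx
    refine propext ⟨fun h => ?_, fun h => ?_⟩
    · obtain ⟨l, hl⟩ := mem_iUnion.1 h
      exact hl.1
    · obtain ⟨l, hl⟩ := eventually_atTop.1 (hx h.1)
      exact mem_iUnion.2 ⟨l, h, hl⟩
  rw [h2] at h1
  have h3 : ∀ᶠ l in atTop, μ (T ∩ K) ≤ μ (G l) + ε := by
    by_cases h0 : μ (T ∩ K) = 0
    · exact Eventually.of_forall fun l => by rw [h0]; exact zero_le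
    have h5 : μ (T ∩ K) - ε < μ (T ∩ K) :=
      ENNReal.sub_lt_self (measure_ne_top μ _) h0 hε
    filter_upwards [h1.eventually_const_lt h5] with l hl
    exact tsub_le_iff_right.1 hl.le
  filter_upwards [h3] with l hl
  classical
  -- the cells
  have hfin : {z : Fin 3 → ℤ | (dyc v (nn l) z ∩ K).Nonempty}.Finite := by
    obtain ⟨R, hR⟩ := hK.isBounded.subset_closedBall (v : V)
    have hp : (0:ℝ) < 2 ^ nn l := by positivity
    set B : ℤ := ⌈2 ^ nn l * (|R| + 1)⌉ + 2 with hB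
    have hBr : (2:ℝ) ^ nn l * (|R| + 1) + 2 ≤ B := by
      have := Int.le_ceil ((2:ℝ) ^ nn l * (|R| + 1))
      rw [hB]
      push_cast
      linarith
    refine (Set.Finite.pi' fun _ : Fin 3 => Set.finite_Icc (-B) B).subset ?_
    rintro z ⟨y, hy, hyK⟩ k
    have h6 := hR hyK
    rw [mem_closedBall, dist_pi_le_iff' ] at h6
    have h7 := h6 k
    rw [Real.dist_eq, abs_le] at h7
    have h8 := hy k
    have h9 : (z k : ℝ) / 2 ^ nn l ≤ |R| := by linarith [le_abs_self R]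
    have h10 : -|R| ≤ ((z k : ℝ) + 1) / 2 ^ nn l := by linarith [le_abs_self R]
    rw [div_le_iff₀ hp] at h9
    rw [le_div_iff₀ hp] at h10
    have h11 : (z k : ℝ) ≤ B := by nlinarith
    have h12 : -(B : ℝ) ≤ z k := by nlinarith
    exact ⟨by exact_mod_cast h12, by exact_mod_cast h11⟩
  set J₀ : Set (Fin 3 → ℤ) := {z | ∃ x ∈ G l, idx v (nn l) x = z} with hJ₀
  have hJf : J₀.Finite := hfin.subset (by
    rintro z ⟨x, hx, rfl⟩
    exact ⟨x, mem_dyc_idx v _ x, hx.1.2⟩)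
  have hch : ∀ z : Fin 3 → ℤ, ∃ x : V, z ∈ J₀ → (x ∈ G l ∧ idx v (nn l) x = z) := by
    intro z
    by_cases hz : z ∈ J₀
    · obtain ⟨x, hx⟩ := hz
      exact ⟨x, fun _ => hx⟩
    · exact ⟨0, fun h => absurd h hz⟩
  choose x hx using hch
  refine ⟨hJf.toFinset, x, fun z hz => ?_, ?_⟩
  · rw [Set.Finite.mem_toFinset] at hz
    obtain ⟨h6, h7⟩ := hx z hz
    exact ⟨h6.2 l le_rfl, h6.1.2, h6.1.1, h7⟩
  · have hsub : G l ⊆ ⋃ z ∈ hJf.toFinset, dyc v (nn l) z := by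
      intro y hy
      refine mem_iUnion₂.2 ⟨idx v (nn l) y, ?_, mem_dyc_idx v _ y⟩
      rw [Set.Finite.mem_toFinset]
      exact ⟨y, hy, rfl⟩
    have hm : MeasurableSet (⋃ z ∈ hJf.toFinset, dyc v (nn l) z) :=
      Finset.measurableSet_biUnion _ fun z _ => by
        have : IsClosed (dyc v (nn l) z) := by
          have e : dyc v (nn l) z = ⋂ k : Fin 3, {x : V | v k + z k / 2 ^ nn l ≤ x k ∧
              x k ≤ v k + (z k + 1) / 2 ^ nn l} := by
            ext x; simp [dyc]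
          rw [e]
          exact isClosed_iInter fun k => (isClosed_le continuous_const (continuous_apply k)).inter
            (isClosed_le (continuous_apply k) continuous_const)
        exact this.measurableSet
    rw [measure_compl hm (measure_ne_top μ _), tsub_le_iff_right]
    calc μ univ ≤ μ (T ∩ K) + ε := hT
      _ ≤ (μ (G l) + ε) + ε := by gcongr
      _ ≤ (μ (⋃ z ∈ hJf.toFinset, dyc v (nn l) z) + ε) + ε := by gcongr
      _ = _ := by ring

end Vale.Agent.P073.H989
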