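import Vale.Agent.P073.H989.ChoiceA
import Mathlib.MeasureTheory.Measure.Regular

/-!
# P073, block A15 (CHOICE), part 2: the good cubes of one generation, exponent above two
-/

namespace Vale.Agent.P073.H989

open MeasureTheory Set Filter Topology Metric Vale.Agent.P073.St
open Vale.Agent.P073.AB (cl FinDist Idx edge eInt Part EdgeOf tiles rho boxR boxB shrink)
open Vale.Agent.P073.PK (IsSob.memLp_cl IsSob.aesm IsSob.lintegral_ne_top)
open Vale.Agent.P073.SQ (ev)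
open Vale.Agent.P073.H194 (idx)
open Vale.Agent.P073.H79 (EdgeLeb)
open P073.Net (dyc dyo)
open scoped ENNReal NNReal

variable {p : ℝ} {Ω Λ : Set V} {f : V → V} {F : V → Mat}

/-- the energy measure -/
noncomputable def enm (p : ℝ) (Ω : Set V) (F : V → Mat) : Measure V :=
  (volume.restrict Ω).withDensity fun x => ‖cl (F x)‖ₑ ^ p

theorem enm_apply {A : Set V} (hA : MeasurableSet A) :
    enm p Ω F A = ∫⁻ x in A ∩ Ω, ‖cl (F x)‖ₑ ^ p := by
  rw [enm, withDensity_apply _ hA, Measure.restrict_restrict hA]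

theorem isFiniteMeasure_enm (h : ∫⁻ x in Ω, ‖cl (F x)‖ₑ ^ p ≠ ⊤) :
    IsFiniteMeasure (enm p Ω F) := by
  refine ⟨?_⟩
  rw [enm_apply MeasurableSet.univ, univ_inter]
  exact lt_top_iff_ne_top.2 h

theorem enm_ac : enm p Ω F ≪ (volume : Measure V) :=
  (withDensity_absolutelyContinuous _ _).trans Measure.absolutelyContinuous_restrict

theorem cl_eq_zero_of {M : Mat} (h : ∀ i j, M i j = 0) : cl M = 0 := by
  ext u i
  rw [PK.cl_apply]
  simp [h]

/-- no energy off the points of full rank -/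
theorem ae_enm (hp : 0 < p) (hΩ : IsOpen Ω) (hF : St.IsSobolev p Ω f F) (hFD : FinDist Ω F) :
    ∀ᵐ x ∂(enm p Ω F), x ∈ Ω ∧ NonSing (F x) := by
  have hm : AEMeasurable (fun x => ‖cl (F x)‖ₑ ^ p) (volume.restrict Ω) :=
    ((IsSob.aesm hF).enorm).pow_const p
  unfold enm
  rw [ae_withDensity_iff' hm]
  filter_upwards [ae_restrict_of_ae hFD, ae_restrict_mem hΩ.measurableSet] with x h1 h2 h3
  refine ⟨h2, ?_⟩
  rcases h1 h2 with h | h
  · exfalso
    apply h3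
    rw [cl_eq_zero_of h]
    have : ‖(0 : V →L[ℝ] V)‖ₑ = 0 := enorm_zero (E := V →L[ℝ] V)
    rw [this, ENNReal.zero_rpow_of_pos hp]
  · exact h

theorem exists_below {M : Mat} (h : NonSing M) : ∃ θ > 0, ∀ w, θ * ‖w‖ ≤ ‖cl M w‖ := by
  have hi : (cl M : V →ₗ[ℝ] V).ker = ⊥ := by
    rw [LinearMap.ker_eq_bot']
    intro v hv
    apply h
    have : cl M v = 0 := hv
    rw [← this]
    funext i
    rw [PK.cl_apply]
    rfl
  obtain ⟨C, hC, h1⟩ := LinearMap.exists_antilipschitzWith _ hi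
  refine ⟨(C : ℝ)⁻¹, by positivity, fun w => ?_⟩
  have h2 := h1.le_mul_dist w 0
  rw [dist_zero_right, map_zero, dist_zero_right] at h2
  have h3 : ‖w‖ ≤ C * ‖cl M w‖ := h2
  rw [inv_mul_le_iff₀ (by positivity)]
  exact h3

/-- a compact subset with almost all the volume and energy -/
theorem exists_core (hΩ : IsOpen Ω) (hv : volume Ω ≠ ⊤) (h : ∫⁻ x in Ω, ‖cl (F x)‖ₑ ^ p ≠ ⊤)
    {ε : ℝ≥0∞} (hε : ε ≠ 0) : ∃ K ⊆ Ω, IsCompact K ∧ volume (Ω \ K) ≤ ε ∧
      ∫⁻ x in Ω \ K, ‖cl (F x)‖ₑ ^ p ≤ ε := by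
  have h1 := isFiniteMeasure_enm h
  have h2 : IsFiniteMeasure ((volume : Measure V).restrict Ω) :=
    ⟨by rw [Measure.restrict_apply_univ]; exact lt_top_iff_ne_top.2 hv⟩
  set ν : Measure V := enm p Ω F + volume.restrict Ω with hν
  have hνΩ : ν Ω ≠ ⊤ := measure_ne_top ν Ω
  obtain ⟨K, hKΩ, hK, hKν⟩ := hΩ.measurableSet.exists_isCompact_sdiff_lt hνΩ hε
  refine ⟨K, hKΩ, hK, ?_, ?_⟩
  · have h3 : volume (Ω \ K) = (volume.restrict Ω) (Ω \ K) := by
      rw [Measure.restrict_apply (hΩ.measurableSet.diff hK.measurableSet),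
        inter_eq_left.2 sdiff_subset]
    rw [h3]
    refine le_trans ?_ hKν.le
    rw [hν, Measure.add_apply]
    exact le_add_self
  · have h3 : ∫⁻ x in Ω \ K, ‖cl (F x)‖ₑ ^ p = enm p Ω F (Ω \ K) := by
      rw [enm_apply (hΩ.measurableSet.diff hK.measurableSet), inter_eq_left.2 sdiff_subset]
    rw [h3]
    refine le_trans ?_ hKν.le
    rw [hν, Measure.add_apply]
    exact le_self_add

/-- **The good cubes of one generation.** -/
theorem exists_choice (hp : 2 < p) (hΩ : St.IsBoundedDomain Ω) (hΛ : St.IsBoundedDomain Λ)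
    (hf : St.IsHomeo Ω Λ f) (hF : St.IsSobolev p Ω f F) (hFD : FinDist Ω F) {ε : ℝ≥0∞}
    (hε : ε ≠ 0) :
    ∃ θ > 0, ∃ M > 0, ∃ K ⊆ Ω, IsCompact K ∧ volume (Ω \ K) ≤ ε ∧
      (∫⁻ x in Ω \ K, ‖cl (F x)‖ₑ ^ p ≤ ε) ∧
      ∀ (v : V) (nn : ℕ → ℕ), StrictMono nn →
        (∀ᵐ x : V, EdgeLeb v nn (Ω.indicator fun x => cl (F x)) x) →
        ∀ Q : ℕ → V → Prop,
          (∀ᵐ x ∂(volume : Measure V), x ∈ Ω → NonSing (F x) → ∀ᶠ l in atTop, Q l x) →
        ∀ (j : ℕ) (κ : ℝ), 0 < κ →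
        ∀ᶠ l in atTop, ∃ (J : Finset (Fin 3 → ℤ)) (x : (Fin 3 → ℤ) → V),
          (∀ z ∈ J, GC p θ M Ω f F v (nn l) j κ (x z) z ∧ x z ∈ K ∧ Q l (x z) ∧
            idx v (nn l) (x z) = z) ∧
          ∫⁻ y in Ω \ ⋃ z ∈ J, dyc v (nn l) z, ‖cl (F y)‖ₑ ^ p ≤ ε := by
  have hp1 : 1 ≤ p := by linarith
  have hp0 : 0 < p := by linarith
  have hΩo := hΩ.1
  have hvΩ : volume Ω ≠ ⊤ := PK.volume_ne_top_of_domain hΩ
  have hFi : ∫⁻ x in Ω, ‖cl (F x)‖ₑ ^ p ≠ ⊤ := IsSob.lintegral_ne_top hp1 hF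
  have hfin := isFiniteMeasure_enm hFi
  set μ := enm p Ω F with hμ
  -- a quarter
  set η : ℝ≥0∞ := min (ε / 2 / 2) 1 with hη
  have hη0 : η ≠ 0 := by
    refine (lt_min ?_ one_pos).ne'
    exact ENNReal.half_pos (ENNReal.half_pos hε).ne'
  have hη4 : η + η + (η + η) ≤ ε := by
    have h1 : η ≤ ε / 2 / 2 := min_le_left _ _
    calc η + η + (η + η) ≤ (ε / 2 / 2 + ε / 2 / 2) + (ε / 2 / 2 + ε / 2 / 2) := by gcongr
      _ = ε := by rw [ENNReal.add_halves, ENNReal.add_halves]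
  have hηε : η ≤ ε := le_trans (by rw [add_assoc]; exact le_self_add) hη4
  obtain ⟨K, hKΩ, hK, hKv, hKe⟩ := exists_core hΩo hvΩ hFi hη0
  -- the constants
  set T : ℕ → Set V := fun i => {x | x ∈ Ω ∧ NonSing (F x) ∧
    ∀ w, (1 / ((i : ℝ) + 1)) * ‖w‖ ≤ ‖cl (F x) w‖ ∧ ‖cl (F x) w‖ ≤ ((i : ℝ) + 1) * ‖w‖} with hT
  have hTm : Monotone T := by
    intro a b hab x hx
    refine ⟨hx.1, hx.2.1, fun w => ?_⟩
    have hab' : (a : ℝ) ≤ b := by exact_mod_cast hab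
    obtain ⟨h1, h2⟩ := hx.2.2 w
    refine ⟨le_trans ?_ h1, h2.trans ?_⟩
    · gcongr
    · gcongr
  have hTu : μ univ = μ (⋃ i, T i) := by
    refine measure_congr ?_
    filter_upwards [ae_enm hp0 hΩo hF hFD] with x hx
    refine propext ⟨fun _ => ?_, fun _ => mem_univ x⟩
    obtain ⟨θ, hθ, h1⟩ := exists_below hx.2
    obtain ⟨i₁, hi₁⟩ := exists_nat_one_div_lt hθ
    obtain ⟨i₂, hi₂⟩ := exists_nat_ge ‖cl (F x)‖
    refine mem_iUnion.2 ⟨max i₁ i₂, hx.1, hx.2, fun w => ⟨?_, ?_⟩⟩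
    · refine le_trans ?_ (h1 w)
      refine mul_le_mul_of_nonneg_right (le_trans ?_ hi₁.le) (norm_nonneg _)
      have : (i₁ : ℝ) ≤ (max i₁ i₂ : ℕ) := by exact_mod_cast le_max_left _ _
      exact one_div_le_one_div_of_le (by positivity) (by linarith)
    · refine ((cl (F x)).le_opNorm w).trans ?_
      refine mul_le_mul_of_nonneg_right (le_trans hi₂ ?_) (norm_nonneg _)
      have : (i₂ : ℝ) ≤ (max i₁ i₂ : ℕ) := by exact_mod_cast le_max_right _ _
      linarith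
  obtain ⟨i, hi⟩ : ∃ i, μ univ ≤ μ (T i) + η := by
    by_cases h0 : μ univ = 0
    · exact ⟨0, by rw [h0]; exact zero_le⟩
    have h1 := tendsto_measure_iUnion_atTop (μ := μ) hTm
    rw [← hTu] at h1
    have h5 : μ univ - η < μ univ := ENNReal.sub_lt_self (measure_ne_top μ _) h0 hη0
    obtain ⟨i, hi⟩ := (h1.eventually_const_lt h5).exists
    exact ⟨i, tsub_le_iff_right.1 hi.le⟩
  refine ⟨1 / ((i : ℝ) + 1), by positivity, (i : ℝ) + 1, by positivity, K, hKΩ, hK,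
    hKv.trans hηε, hKe.trans hηε, fun v nn hnn hEL Q hQ j κ hκ => ?_⟩
  have hKc : μ Kᶜ ≤ η := by
    rw [hμ, enm_apply hK.measurableSet.compl]
    refine le_trans (le_of_eq ?_) hKe
    rw [inter_comm]
    rfl
  have hTK : μ univ ≤ μ (T i ∩ K) + (η + η) := by
    calc μ univ ≤ μ (T i) + η := hi
      _ ≤ (μ (T i ∩ K) + μ Kᶜ) + η := by
          gcongr
          refine (measure_mono ?_).trans (measure_union_le _ _)
          intro x hx
          by_cases h : x ∈ K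
          · exact Or.inl ⟨hx, h⟩
          · exact Or.inr h
      _ ≤ (μ (T i ∩ K) + η) + η := by gcongr
      _ = _ := by ring
  have hae : ∀ᵐ x ∂μ, x ∈ T i → ∀ᶠ l in atTop,
      (GC p (1 / ((i : ℝ) + 1)) ((i : ℝ) + 1) Ω f F v (nn l) j κ x (idx v (nn l) x) ∧ Q l x) := by
    refine enm_ac.ae_le ?_
    filter_upwards [ae_goodPt hp hΩo hvΩ hΛ.1 hf hF, hEL, hQ] with x h1 h2 h3 h4
    exact (eventually_gc hΩo hnn (h1 h4.1 h4.2.1) (fun w => (h4.2.2 w).1) (fun w => (h4.2.2 w).2)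
      h2 j hκ).and (h3 h4.1 h4.2.1)
  have hηη : η + η ≠ 0 := fun h => hη0 (add_eq_zero.1 h).1
  filter_upwards [exists_cells (μ := μ) hae v nn hηη hK hTK] with l hl
  obtain ⟨J, x, h1, h2⟩ := hl
  refine ⟨J, x, fun z hz => ?_, ?_⟩
  · obtain ⟨⟨h3, h4⟩, h5, -, h6⟩ := h1 z hz
    rw [h6] at h3
    exact ⟨h3, h5, h4, h6⟩
  · have hm : MeasurableSet (⋃ z ∈ J, dyc v (nn l) z) :=
      Finset.measurableSet_biUnion _ fun z _ => by
        have : IsClosed (dyc v (nn l) z) := by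
          have e : dyc v (nn l) z = ⋂ k : Fin 3, {x : V | v k + z k / 2 ^ nn l ≤ x k ∧
              x k ≤ v k + (z k + 1) / 2 ^ nn l} := by
            ext x; simp [dyc]
          rw [e]
          exact isClosed_iInter fun k => (isClosed_le continuous_const (continuous_apply k)).inter
            (isClosed_le (continuous_apply k) continuous_const)
        exact this.measurableSet
    rw [hμ, enm_apply hm.compl] at h2
    rw [sdiff_eq, inter_comm]
    exact h2.trans hη4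

end Vale.Agent.P073.H989
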