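import Vale.Agent.P073.H333.ChoiceB

/-!
# P073, [P2g]: the choice of the good cells, any exponent, any pointwise predicate

`choice_core_of`: if `Q l x` holds for all large `l`, for almost every point `x` with an invertible
derivative, then for all large generations the cubes which contain a point with `Q l x` carry
almost all the energy.
-/

namespace Vale.Agent.P073.H989

open MeasureTheory Set Filter Topology Metric Vale.Agent.P073.St Vale.Agent.P073.AB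
open Vale.Agent.P073.SQ (ev)
open _root_.P073.Net (dyc dyo)
open Vale.Agent.P073.H194 (idx)
open Vale.Agent.P073.H333 (exists_le_add finite_idx nonSing_of_below isClosed_dycB exists_bounds
  idx_mem tendsto_pow_half)
open scoped ENNReal

/-- **The core of the choice**, exponent `1 ≤ p`, with a free predicate `Q`, and a uniformity
statement (Egorov) for the monotone sequence of predicates `P`. -/
theorem choice_core_egorov {p : ℝ} (hp1 : 1 ≤ p) {Ω : Set V} (hΩ : St.IsBoundedDomain Ω)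
    {f : V → V} {F : V → Mat}
    (hF : St.IsSobolev p Ω f F) (hFD : FinDist Ω F) {ε : ℝ≥0∞} (hε : ε ≠ 0) :
    ∃ θ > 0, ∃ M > 0, ∃ K₀ ⊆ Ω, IsCompact K₀ ∧ ∀ (P : ℕ → V → Prop),
      (∀ i x, P i x → P (i + 1) x) →
      (∀ᵐ x ∂(volume : Measure V), x ∈ Ω → NonSing (F x) → ∃ i, P i x) →
      ∃ i, ∀ (v : V) (nn : ℕ → ℕ) (Q : ℕ → V → Prop),
      (∀ᵐ x ∂(volume : Measure V), x ∈ Ω → NonSing (F x) → P i x → ∀ᶠ l in atTop, Q l x) →
      ∀ᶠ l in atTop, ∃ (Z : Finset (Fin 3 → ℤ)) (x : (Fin 3 → ℤ) → V),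
        (∀ z ∈ Z, x z ∈ K₀ ∧ idx v (nn l) (x z) = z ∧ (∀ w, θ * ‖w‖ ≤ ‖cl (F (x z)) w‖) ∧
          (∀ w, ‖cl (F (x z)) w‖ ≤ M * ‖w‖) ∧ P i (x z) ∧ Q l (x z)) ∧
        ∫⁻ y in Ω \ ⋃ z ∈ Z, dyc v (nn l) z, ‖cl (F y)‖ₑ ^ p ≤ ε := by
  classical
  have hp0 : 0 < p := by linarith
  have hb := PK.isBounded_of_domain hΩ
  have hm : AEMeasurable (fun x => ‖cl (F x)‖ₑ ^ p) (volume.restrict Ω) :=
    (PK.IsSob.aesm hF).enorm.pow_const p
  set μ : Measure V := (volume.restrict Ω).withDensity (fun x => ‖cl (F x)‖ₑ ^ p) with hμ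
  have hμt : μ univ = ∫⁻ x in Ω, ‖cl (F x)‖ₑ ^ p := by
    rw [hμ, withDensity_apply _ MeasurableSet.univ, Measure.restrict_univ]
  have : IsFiniteMeasure μ := ⟨by
    rw [hμt]; exact (PK.IsSob.lintegral_ne_top hp1 hF).lt_top⟩
  have hac : ∀ {q : V → Prop}, (∀ᵐ x ∂(volume.restrict Ω), q x) → ∀ᵐ x ∂μ, q x := fun h =>
    (withDensity_absolutelyContinuous _ _).ae_le h
  have hε2 : ε / 2 ≠ 0 := (ENNReal.half_pos hε).ne'
  have hε4 : ε / 2 / 2 ≠ 0 := (ENNReal.half_pos hε2).ne'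
  -- the exhaustion
  let E : ℕ → Set V := fun n => {x | x ∈ closedBall (0:V) n ∧ 1 / ((n:ℝ) + 1) ≤ infDist x Ωᶜ ∧
    x ∈ Ω ∧ (∀ w, (1 / ((n:ℝ) + 1)) * ‖w‖ ≤ ‖cl (F x) w‖) ∧
    ∀ w, ‖cl (F x) w‖ ≤ ((n:ℝ) + 1) * ‖w‖}
  have hEmono : Monotone E := by
    intro m n hmn x hx
    obtain ⟨h1, h2, h3, h4, h5⟩ := hx
    have hmn' : (m:ℝ) ≤ n := by exact_mod_cast hmn
    have h6 : 1 / ((n:ℝ) + 1) ≤ 1 / ((m:ℝ) + 1) :=
      one_div_le_one_div_of_le (by positivity) (by linarith)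
    refine ⟨closedBall_subset_closedBall hmn' h1, h6.trans h2, h3, fun w => ?_, fun w => ?_⟩
    · exact (mul_le_mul_of_nonneg_right h6 (norm_nonneg _)).trans (h4 w)
    · exact (h5 w).trans (mul_le_mul_of_nonneg_right (by linarith) (norm_nonneg _))
  have hΩc : (Ωᶜ).Nonempty := by
    by_contra hcon
    rw [not_nonempty_iff_eq_empty, compl_empty_iff] at hcon
    rw [hcon] at hb
    exact (NormedSpace.unbounded_univ ℝ V) hb
  have hcover : ∀ᵐ x ∂μ, x ∈ (univ : Set V) → x ∈ ⋃ n, E n := by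
    -- points with vanishing derivative do not count
    have h0 : μ {x | x ∈ Ω ∧ (∀ i j, F x i j = 0)} = 0 := by
      rw [hμ, withDensity_apply_eq_zero' hm]
      refine measure_mono_null (t := ∅) ?_ measure_empty
      rintro x ⟨h1, -, h2⟩
      refine h1 ?_
      have h3 : cl (F x) = 0 := by
        ext w i
        have : F x = 0 := by
          funext i j; exact h2 i j
        simp [cl, this]
      show ‖cl (F x)‖ₑ ^ p = 0
      have h4 : ‖cl (F x)‖ₑ = 0 := by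
        rw [h3]
        show ((‖(0 : V →L[ℝ] V)‖₊ : NNReal) : ℝ≥0∞) = 0
        rw [nnnorm_zero]; rfl
      rw [h4, ENNReal.zero_rpow_of_pos hp0]
    have h1 : ∀ᵐ x ∂μ, x ∈ Ω ∧ ((∀ i j, F x i j = 0) ∨ NonSing (F x)) := by
      apply hac
      rw [ae_restrict_iff' hΩ.1.measurableSet]
      filter_upwards [hFD] with x hx hxΩ
      exact ⟨hxΩ, hx hxΩ⟩
    have h0' : ∀ᵐ x ∂μ, ¬ (x ∈ Ω ∧ ∀ i j, F x i j = 0) := by
      rw [ae_iff]
      simpa using h0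
    filter_upwards [h0', h1] with x g0 g1 _
    obtain ⟨hxΩ, hx⟩ := g1
    have hns : NonSing (F x) := by
      rcases hx with hx | hx
      · exact absurd ⟨hxΩ, hx⟩ g0
      · exact hx
    obtain ⟨n₁, hn₁, hn₁'⟩ := exists_bounds hns
    obtain ⟨n₂, hn₂⟩ := exists_nat_ge ‖x‖
    have hd : 0 < infDist x Ωᶜ := (hΩ.1.isClosed_compl.notMem_iff_infDist_pos hΩc).1 fun h => h hxΩ
    obtain ⟨n₃, hn₃⟩ := exists_nat_one_div_lt hd
    set n := max n₁ (max n₂ n₃) with hn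
    have a1 : (n₁:ℝ) ≤ n := by exact_mod_cast le_max_left _ _
    have a2 : (n₂:ℝ) ≤ n := by exact_mod_cast (le_max_left _ _).trans (le_max_right _ _)
    have a3 : (n₃:ℝ) ≤ n := by exact_mod_cast (le_max_right _ _).trans (le_max_right _ _)
    have b1 : 1 / ((n:ℝ) + 1) ≤ 1 / ((n₁:ℝ) + 1) :=
      one_div_le_one_div_of_le (by positivity) (by linarith)
    have b3 : 1 / ((n:ℝ) + 1) ≤ 1 / ((n₃:ℝ) + 1) :=
      one_div_le_one_div_of_le (by positivity) (by linarith)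
    refine mem_iUnion.2 ⟨n, ?_, b3.trans hn₃.le, hxΩ, fun w => ?_, fun w => ?_⟩
    · rw [mem_closedBall, dist_zero_right]; linarith
    · exact (mul_le_mul_of_nonneg_right b1 (norm_nonneg _)).trans (hn₁ w)
    · exact (hn₁' w).trans (mul_le_mul_of_nonneg_right (by linarith) (norm_nonneg _))
  obtain ⟨n, hn⟩ := exists_le_add hEmono hcover hε2
  set K₀ : Set V := closedBall (0:V) n ∩ {x | 1 / ((n:ℝ) + 1) ≤ infDist x Ωᶜ} with hK₀
  have hK₀Ω : K₀ ⊆ Ω := by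
    intro x hx
    by_contra hcon
    have h2 : infDist x Ωᶜ = 0 := infDist_zero_of_mem hcon
    have h3 : 1 / ((n:ℝ) + 1) ≤ infDist x Ωᶜ := hx.2
    have h4 : (0:ℝ) < 1 / ((n:ℝ) + 1) := by positivity
    linarith
  have hK₀c : IsCompact K₀ := (isCompact_closedBall (0:V) (n:ℝ)).inter_right
    (isClosed_le continuous_const (continuous_infDist_pt _))
  refine ⟨1 / ((n:ℝ) + 1), by positivity, (n:ℝ) + 1, by positivity, K₀, hK₀Ω, hK₀c, ?_⟩
  intro P hPmono hP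
  let S : ℕ → Set V := fun i => {x | x ∈ E n ∧ P i x}
  have hSmono : Monotone S := monotone_nat_of_le_succ fun i x hx => ⟨hx.1, hPmono i x hx.2⟩
  have hScov : ∀ᵐ x ∂μ, x ∈ E n → x ∈ ⋃ i, S i := by
    filter_upwards [hac (ae_restrict_of_ae hP)] with x hxP hxE
    obtain ⟨i, hi⟩ := hxP hxE.2.2.1 (nonSing_of_below (by positivity) hxE.2.2.2.1)
    exact mem_iUnion.2 ⟨i, hxE, hi⟩
  obtain ⟨i, hi⟩ := exists_le_add hSmono hScov hε4
  refine ⟨i, fun v nn Q hQ => ?_⟩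
  let T : ℕ → Set V := fun L => {x | x ∈ S i ∧ ∀ l ≥ L, Q l x}
  have hTmono : Monotone T := fun a b hab x hx => ⟨hx.1, fun l hl => hx.2 l (hab.trans hl)⟩
  have hTcov : ∀ᵐ x ∂μ, x ∈ S i → x ∈ ⋃ L, T L := by
    filter_upwards [hac (ae_restrict_of_ae hQ)] with x hxQ hxS
    have hxE := hxS.1
    obtain ⟨L, hL⟩ := eventually_atTop.1 (hxQ hxE.2.2.1 (nonSing_of_below
        (by positivity) hxE.2.2.2.1) hxS.2)
    exact mem_iUnion.2 ⟨L, hxS, hL⟩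
  obtain ⟨L, hL⟩ := exists_le_add hTmono hTcov hε4
  have hTL : μ univ ≤ μ (T L) + ε := by
    calc μ univ ≤ μ (E n) + ε / 2 := hn
      _ ≤ μ (S i) + ε / 2 / 2 + ε / 2 := by gcongr
      _ ≤ μ (T L) + ε / 2 / 2 + ε / 2 / 2 + ε / 2 := by gcongr
      _ = μ (T L) + ε := by
        rw [add_assoc (μ (T L)), ENNReal.add_halves, add_assoc, ENNReal.add_halves]
  filter_upwards [eventually_ge_atTop L] with l hl
  have hTb : Bornology.IsBounded (T L) := isBounded_closedBall.subset fun x hx => hx.1.1.1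
  have hfin := finite_idx v (nn l) hTb
  have hex : ∀ z, ∃ x, z ∈ hfin.toFinset → x ∈ T L ∧ idx v (nn l) x = z := by
    intro z
    by_cases hz : z ∈ hfin.toFinset
    · obtain ⟨x, hx, hxz⟩ := hfin.mem_toFinset.1 hz
      exact ⟨x, fun _ => ⟨hx, hxz⟩⟩
    · exact ⟨0, fun h => absurd h hz⟩
  choose x hx using hex
  refine ⟨hfin.toFinset, x, fun z hz => ?_, ?_⟩
  · obtain ⟨h1, h2⟩ := hx z hz
    exact ⟨⟨h1.1.1.1, h1.1.1.2.1⟩, h2, h1.1.1.2.2.2.1, h1.1.1.2.2.2.2, h1.1.2, h1.2 l hl⟩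
  · set U : Set V := ⋃ z ∈ hfin.toFinset, dyc v (nn l) z with hU
    have hUm : MeasurableSet U := Finset.measurableSet_biUnion _ fun z _ =>
      (isClosed_dycB v (nn l) z).measurableSet
    have hTU : T L ⊆ U := by
      intro y hy
      exact mem_iUnion₂.2 ⟨idx v (nn l) y, hfin.mem_toFinset.2 ⟨y, hy, rfl⟩, idx_mem v (nn l) y⟩
    have h1 : ∫⁻ y in Ω \ U, ‖cl (F y)‖ₑ ^ p = μ Uᶜ := by
      rw [hμ, withDensity_apply _ hUm.compl, Measure.restrict_restrict hUm.compl,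
        Set.sdiff_eq, inter_comm]
    rw [h1]
    have h2 : μ univ = μ U + μ Uᶜ := (measure_add_measure_compl hUm).symm
    have h3 : μ U + μ Uᶜ ≤ μ U + ε := by
      rw [← h2]
      exact hTL.trans (by gcongr)
    exact (ENNReal.add_le_add_iff_left (measure_ne_top μ U)).1 h3

/-- **The core of the choice**, exponent `1 ≤ p`, with a free predicate `Q`. -/
theorem choice_core_of {p : ℝ} (hp1 : 1 ≤ p) {Ω : Set V} (hΩ : St.IsBoundedDomain Ω)
    {f : V → V} {F : V → Mat}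
    (hF : St.IsSobolev p Ω f F) (hFD : FinDist Ω F) {ε : ℝ≥0∞} (hε : ε ≠ 0) :
    ∃ θ > 0, ∃ M > 0, ∃ K₀ ⊆ Ω, IsCompact K₀ ∧ ∀ (v : V) (nn : ℕ → ℕ) (Q : ℕ → V → Prop),
      (∀ᵐ x ∂(volume : Measure V), x ∈ Ω → NonSing (F x) → ∀ᶠ l in atTop, Q l x) →
      ∀ᶠ l in atTop, ∃ (Z : Finset (Fin 3 → ℤ)) (x : (Fin 3 → ℤ) → V),
        (∀ z ∈ Z, x z ∈ K₀ ∧ idx v (nn l) (x z) = z ∧ (∀ w, θ * ‖w‖ ≤ ‖cl (F (x z)) w‖) ∧
          (∀ w, ‖cl (F (x z)) w‖ ≤ M * ‖w‖) ∧ Q l (x z)) ∧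
        ∫⁻ y in Ω \ ⋃ z ∈ Z, dyc v (nn l) z, ‖cl (F y)‖ₑ ^ p ≤ ε := by
  obtain ⟨θ, hθ, M, hM, K₀, hK₀, hK₀c, H⟩ := choice_core_egorov hp1 hΩ hF hFD hε
  refine ⟨θ, hθ, M, hM, K₀, hK₀, hK₀c, fun v nn Q hQ => ?_⟩
  obtain ⟨i, hi⟩ := H (fun _ _ => True) (fun _ _ h => h)
    (Eventually.of_forall fun x _ _ => ⟨0, trivial⟩)
  refine (hi v nn Q (hQ.mono fun x hx h1 h2 _ => hx h1 h2)).mono ?_
  rintro l ⟨Z, x, h1, h2⟩
  exact ⟨Z, x, fun z hz => ⟨(h1 z hz).1, (h1 z hz).2.1, (h1 z hz).2.2.1, (h1 z hz).2.2.2.1,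
    (h1 z hz).2.2.2.2.2⟩, h2⟩

end Vale.Agent.P073.H989
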