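import Vale.Agent.P073.H989.Core2

/-!
# P073, [P2g]: far points have far images
-/

namespace Vale.Agent.P073.H989

open MeasureTheory Set Filter Topology Metric Vale.Agent.P073.St

/-- far from a point of a compact set, the values are far from the value at the point -/
theorem exists_far {Ω Λ : Set V} {f : V → V} (hΛ : IsOpen Λ) (hf : St.IsHomeo Ω Λ f)
    {K : Set V} (hK : K ⊆ Ω) (hKc : IsCompact K) {t : ℝ} (ht : 0 < t) :
    ∃ δ > 0, ∀ x ∈ K, ∀ y ∈ Ω, t ≤ ‖y - x‖ → δ ≤ ‖f y - f x‖ := by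
  obtain ⟨g, hinv, hfc, hgc⟩ := hf
  have hfK : IsCompact (f '' K) := hKc.image_of_continuousOn (hfc.mono hK)
  have hfKΛ : f '' K ⊆ Λ := by
    rintro _ ⟨x, hx, rfl⟩
    exact (hinv.1 x (hK hx)).1
  obtain ⟨η, hη, hsub⟩ := hfK.exists_cthickening_subset_open hΛ hfKΛ
  have huc := hfK.cthickening.uniformContinuousOn_of_continuous (hgc.mono hsub)
  obtain ⟨δ, hδ, hd⟩ := Metric.uniformContinuousOn_iff.1 huc t ht
  refine ⟨min δ η, lt_min hδ hη, fun x hx y hy hxy => ?_⟩
  by_contra hcon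
  push Not at hcon
  have h1 : dist (f y) (f x) < min δ η := by rwa [dist_eq_norm]
  have h2 : f y ∈ cthickening η (f '' K) :=
    mem_cthickening_of_dist_le _ _ _ _ (mem_image_of_mem f hx) (h1.le.trans (min_le_right _ _))
  have h3 : f x ∈ cthickening η (f '' K) := self_subset_cthickening _ (mem_image_of_mem f hx)
  have h4 := hd _ h2 _ h3 (h1.trans_le (min_le_left _ _))
  rw [(hinv.1 y hy).2, (hinv.1 x (hK hx)).2, dist_eq_norm] at h4
  linarith

end Vale.Agent.P073.H989
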