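import Vale.Agent.P073.St
import Mathlib.MeasureTheory.Measure.Lebesgue.EqHaar
import Mathlib.MeasureTheory.Measure.Lebesgue.VolumeOfBalls
import Mathlib.LinearAlgebra.Matrix.NonsingularInverse
import Mathlib.LinearAlgebra.Matrix.ToLin
import Mathlib.Algebra.Polynomial.Roots

/-!
# P073: a generic linear map in the target makes the derivative matrices generic
-/

namespace Vale.Agent.P073.H989

open MeasureTheory Set Filter Topology Metric Vale.Agent.P073.St
open scoped ENNReal Pointwise

section null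

variable {E : Type*} [NormedAddCommGroup E] [NormedSpace ℝ E]

/-- `q` is a polynomial on every line through `x₀` -/
def PolyLines (x₀ : E) (q : E → ℝ) : Prop :=
  ∀ w : E, ∃ P : Polynomial ℝ, ∀ t : ℝ, q (x₀ + t • w) = P.eval t

theorem PolyLines.const (x₀ : E) (c : ℝ) : PolyLines x₀ fun _ => c :=
  fun _ => ⟨Polynomial.C c, fun t => by simp⟩

theorem PolyLines.add {x₀ : E} {q r : E → ℝ} (hq : PolyLines x₀ q) (hr : PolyLines x₀ r) :
    PolyLines x₀ fun x => q x + r x := fun w => by
  obtain ⟨P, hP⟩ := hq w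
  obtain ⟨R, hR⟩ := hr w
  exact ⟨P + R, fun t => by simp only [Polynomial.eval_add, hP, hR]⟩

theorem PolyLines.sub {x₀ : E} {q r : E → ℝ} (hq : PolyLines x₀ q) (hr : PolyLines x₀ r) :
    PolyLines x₀ fun x => q x - r x := fun w => by
  obtain ⟨P, hP⟩ := hq w
  obtain ⟨R, hR⟩ := hr w
  exact ⟨P - R, fun t => by simp only [Polynomial.eval_sub, hP, hR]⟩

theorem PolyLines.mul {x₀ : E} {q r : E → ℝ} (hq : PolyLines x₀ q) (hr : PolyLines x₀ r) :
    PolyLines x₀ fun x => q x * r x := fun w => by
  obtain ⟨P, hP⟩ := hq w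
  obtain ⟨R, hR⟩ := hr w
  exact ⟨P * R, fun t => by simp only [Polynomial.eval_mul, hP, hR]⟩

theorem PolyLines.linear (x₀ : E) (l : E →ₗ[ℝ] ℝ) : PolyLines x₀ fun x => l x := fun w =>
  ⟨Polynomial.C (l x₀) + Polynomial.X * Polynomial.C (l w), fun t => by
    simp only [map_add, map_smul, smul_eq_mul, Polynomial.eval_add, Polynomial.eval_mul,
      Polynomial.eval_C, Polynomial.eval_X]⟩

theorem PolyLines.prod {ι : Type*} {x₀ : E} (s : Finset ι) {q : ι → E → ℝ}
    (hq : ∀ i ∈ s, PolyLines x₀ (q i)) : PolyLines x₀ fun x => ∏ i ∈ s, q i x := by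
  classical
  induction s using Finset.induction_on with
  | empty => simpa using PolyLines.const x₀ 1
  | insert a s ha ih =>
    simp only [Finset.prod_insert ha]
    exact (hq a (Finset.mem_insert_self _ _)).mul
      (ih fun i hi => hq i (Finset.mem_insert_of_mem hi))

variable [FiniteDimensional ℝ E] [MeasurableSpace E] [BorelSpace E] {μ : Measure E}
  [μ.IsAddHaarMeasure]

/-- the zeros of a function which is polynomial on the lines through a point where it does not
vanish form a null set -/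
theorem PolyLines.ae_ne {x₀ : E} {q : E → ℝ} (h : PolyLines x₀ q) (hq : Measurable q)
    (h0 : q x₀ ≠ 0) : ∀ᵐ x ∂μ, q x ≠ 0 := by
  have hm : MeasurableSet {a : E × ℝ | q (x₀ + a.2 • a.1) ≠ 0} := by
    have h1 : Measurable fun a : E × ℝ => q (x₀ + a.2 • a.1) :=
      hq.comp (by fun_prop : Continuous fun a : E × ℝ => x₀ + a.2 • a.1).measurable
    exact (h1 (measurableSet_singleton 0)).compl
  have h1 : ∀ᵐ w ∂μ, ∀ᵐ t ∂(volume.restrict (Ioc (0 : ℝ) 1)), q (x₀ + t • w) ≠ 0 := by
    refine Eventually.of_forall fun w => ?_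
    obtain ⟨P, hP⟩ := h w
    have hP0 : P ≠ 0 := by
      rintro rfl
      have := hP 0
      simp only [zero_smul, add_zero, Polynomial.eval_zero] at this
      exact h0 this
    have hfin : {t : ℝ | q (x₀ + t • w) = 0}.Finite := by
      refine (P.roots.toFinset.finite_toSet).subset fun t ht => ?_
      have ht' : P.eval t = 0 := by
        rw [← hP t]
        exact ht
      simp only [Finset.mem_coe, Multiset.mem_toFinset]
      exact (Polynomial.mem_roots hP0).2 ht'
    refine ae_restrict_of_ae ?_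
    rw [ae_iff]
    simpa using hfin.measure_zero volume
  have h2 := (Measure.ae_ae_comm (p := fun (w : E) (t : ℝ) => q (x₀ + t • w) ≠ 0) hm).1 h1
  have hne : (ae (volume.restrict (Ioc (0 : ℝ) 1))).NeBot := by
    rw [ae_restrict_neBot, Real.volume_Ioc]
    simp
  have h3 : ∀ᵐ t ∂(volume.restrict (Ioc (0 : ℝ) 1)), 0 < t := by
    filter_upwards [ae_restrict_mem measurableSet_Ioc] with t ht using ht.1
  obtain ⟨t, ht, ht0⟩ := (h2.and h3).exists
  rw [ae_iff] at ht ⊢
  simp only [ne_eq, not_not] at ht ⊢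
  have h4 : {x : E | q x = 0} ⊆ (fun w => x₀ + w) '' (t • {w : E | q (x₀ + t • w) = 0}) := by
    intro x hx
    refine ⟨x - x₀, ?_, by simp⟩
    rw [mem_smul_set_iff_inv_smul_mem₀ ht0.ne']
    show q (x₀ + t • t⁻¹ • (x - x₀)) = 0
    rw [smul_inv_smul₀ ht0.ne']
    simpa using hx
  refine measure_mono_null h4 ?_
  rw [image_add_left, measure_preimage_add, Measure.addHaar_smul, ht, mul_zero]

end null

/-- the triple product -/
def det3 (a b c : V) : ℝ :=
  a 0 * (b 1 * c 2 - b 2 * c 1) - a 1 * (b 0 * c 2 - b 2 * c 0) + a 2 * (b 0 * c 1 - b 1 * c 0)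

theorem det3_eq (m : Fin 3 → V) : det3 (m 0) (m 1) (m 2) = Matrix.det (Matrix.of m) := by
  rw [Matrix.det_fin_three]
  simp only [det3, Matrix.of_apply]
  ring

theorem linearIndependent_of_det3 {m : Fin 3 → V} (h : det3 (m 0) (m 1) (m 2) ≠ 0) :
    LinearIndependent ℝ m := by
  rw [det3_eq] at h
  have h1 := Matrix.linearIndependent_rows_of_isUnit
    ((Matrix.isUnit_iff_isUnit_det _).2 (isUnit_iff_ne_zero.2 h))
  exact h1

/-- the six covectors: the coordinates of the domain, and the rows of the matrix -/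
def six (M : Mat) : Fin 3 ⊕ Fin 3 → V := Sum.elim (fun i => Pi.single i 1) M

/-- any three of the six covectors are linearly independent, quantitatively -/
def AGen (α : ℝ) (M : Mat) : Prop :=
  ∀ j : Fin 3 → Fin 3 ⊕ Fin 3, Function.Injective j →
    α ≤ |det3 (six M (j 0)) (six M (j 1)) (six M (j 2))|

theorem AGen.mono {α β : ℝ} {M : Mat} (h : AGen β M) (hαβ : α ≤ β) : AGen α M :=
  fun j hj => hαβ.trans (h j hj)

theorem AGen.linearIndependent {α : ℝ} {M : Mat} (h : AGen α M) (hα : 0 < α)
    {j : Fin 3 → Fin 3 ⊕ Fin 3} (hj : Function.Injective j) :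
    LinearIndependent ℝ fun a => six M (j a) :=
  linearIndependent_of_det3 (m := fun a => six M (j a)) fun h0 => by
    have := h j hj
    rw [h0, abs_zero] at this
    linarith

theorem continuous_six (e : Fin 3 ⊕ Fin 3) (i : Fin 3) : Continuous fun M : Mat => six M e i := by
  rcases e with e | e
  · exact continuous_const
  · exact (continuous_apply i).comp (continuous_apply e)

theorem continuous_det_six (j : Fin 3 → Fin 3 ⊕ Fin 3) :
    Continuous fun M : Mat => det3 (six M (j 0)) (six M (j 1)) (six M (j 2)) := by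
  have h := continuous_six
  unfold det3
  exact (((h _ _).mul (((h _ _).mul (h _ _)).sub ((h _ _).mul (h _ _)))).sub
    ((h _ _).mul (((h _ _).mul (h _ _)).sub ((h _ _).mul (h _ _))))).add
    ((h _ _).mul (((h _ _).mul (h _ _)).sub ((h _ _).mul (h _ _))))

theorem isClosed_aGen (α : ℝ) : IsClosed {M : Mat | AGen α M} := by
  simp only [AGen, ofPred_forall]
  exact isClosed_iInter fun j => isClosed_iInter fun _ =>
    isClosed_le continuous_const (continuous_det_six j).abs

/-- the product of all the triple products -/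
noncomputable def gprod (M : Mat) : ℝ := by
  classical
  exact ∏ j ∈ (Finset.univ : Finset (Fin 3 → Fin 3 ⊕ Fin 3)).filter Function.Injective,
    det3 (six M (j 0)) (six M (j 1)) (six M (j 2))

theorem continuous_gprod : Continuous gprod := by
  classical
  unfold gprod
  exact continuous_finsetProd _ fun j _ => continuous_det_six j

theorem exists_aGen {M : Mat} (h : gprod M ≠ 0) : ∃ α > 0, AGen α M := by
  classical
  unfold gprod at h
  rw [Finset.prod_ne_zero_iff] at h
  set s := (Finset.univ : Finset (Fin 3 → Fin 3 ⊕ Fin 3)).filter Function.Injective with hs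
  have hne : s.Nonempty := ⟨fun i => Sum.inl i, by
    rw [hs, Finset.mem_filter]
    exact ⟨Finset.mem_univ _, Sum.inl_injective⟩⟩
  obtain ⟨j₀, hj₀, hmin⟩ := s.exists_min_image
    (fun j => |det3 (six M (j 0)) (six M (j 1)) (six M (j 2))|) hne
  refine ⟨|det3 (six M (j₀ 0)) (six M (j₀ 1)) (six M (j₀ 2))|, abs_pos.2 (h j₀ hj₀), fun j hj => ?_⟩
  exact hmin j (Finset.mem_filter.2 ⟨Finset.mem_univ _, hj⟩)

/-- a matrix all of whose minors are positive, over the integers -/
def pas : Fin 3 → Fin 3 → ℤ := ![![1, 1, 1], ![1, 2, 3], ![1, 3, 6]]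

/-- the six rows, over the integers -/
def sixz : Fin 3 ⊕ Fin 3 → Fin 3 → ℤ := Sum.elim (fun i => Pi.single i 1) pas

theorem pas_ne : ∀ a b c : Fin 3 ⊕ Fin 3, a ≠ b → a ≠ c → b ≠ c →
    sixz a 0 * (sixz b 1 * sixz c 2 - sixz b 2 * sixz c 1)
      - sixz a 1 * (sixz b 0 * sixz c 2 - sixz b 2 * sixz c 0)
      + sixz a 2 * (sixz b 0 * sixz c 1 - sixz b 1 * sixz c 0) ≠ 0 := by
  decide

theorem six_pas (e : Fin 3 ⊕ Fin 3) (i : Fin 3) :
    six (fun i j => (pas i j : ℝ)) e i = (sixz e i : ℝ) := by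
  rcases e with e | e
  · simp only [six, sixz, Sum.elim_inl, Pi.single_apply]
    split <;> simp
  · rfl

theorem gprod_pas : gprod (fun i j => (pas i j : ℝ)) ≠ 0 := by
  classical
  unfold gprod
  rw [Finset.prod_ne_zero_iff]
  intro j hj
  have hj' : Function.Injective j := (Finset.mem_filter.1 hj).2
  have h := pas_ne (j 0) (j 1) (j 2) (fun h => by simpa using hj' h) (fun h => by simpa using hj' h)
    (fun h => by simpa using hj' h)
  simp only [det3, six_pas]
  exact_mod_cast h

theorem measurable_gprod : Measurable gprod := continuous_gprod.measurable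

theorem mm_assoc (A B C : Mat) : mm (mm A B) C = mm A (mm B C) := by
  funext i j
  simp only [mm, Finset.mul_sum, Finset.sum_mul]
  rw [Finset.sum_comm]
  simp only [mul_assoc]

theorem exists_left_inv {L : Mat} (hL : NonSing L) : ∃ L' : Mat, ∀ M : Mat, mm (mm M L') L = M := by
  have hdet : (Matrix.of L).det ≠ 0 := by
    intro h0
    obtain ⟨v, hv, hv0⟩ := Matrix.exists_mulVec_eq_zero_iff.2 h0
    refine hv (hL v ?_)
    funext i
    have := congrFun hv0 i
    simpa [Matrix.mulVec, dotProduct, ap] using this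
  have h1 : (Matrix.of L)⁻¹ * Matrix.of L = 1 :=
    Matrix.nonsing_inv_mul _ (isUnit_iff_ne_zero.2 hdet)
  have h2 : mm (fun i j => (Matrix.of L)⁻¹ i j) L = fun i j => if i = j then (1 : ℝ) else 0 := by
    funext i j
    rw [← Matrix.one_apply, ← h1, Matrix.mul_apply]
    rfl
  refine ⟨fun i j => (Matrix.of L)⁻¹ i j, fun M => ?_⟩
  rw [mm_assoc, h2]
  funext i j
  simp [mm]

/-- the entry of a product, as a linear function of the first factor -/
noncomputable def entL (L : Mat) (i j : Fin 3) : Mat →ₗ[ℝ] ℝ where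
  toFun O := mm O L i j
  map_add' O O' := by simp [mm, add_mul, Finset.sum_add_distrib]
  map_smul' t O := by simp [mm, mul_assoc, Finset.mul_sum]

theorem polyLines_gprod (O₀ L : Mat) : PolyLines O₀ fun O => gprod (mm O L) := by
  classical
  have h : ∀ (e : Fin 3 ⊕ Fin 3) (i : Fin 3), PolyLines O₀ fun O => six (mm O L) e i := by
    intro e i
    rcases e with e | e
    · exact PolyLines.const _ _
    · exact PolyLines.linear O₀ (entL L e i)
  unfold gprod
  refine PolyLines.prod _ fun j _ => ?_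
  unfold det3
  exact (((h _ _).mul (((h _ _).mul (h _ _)).sub ((h _ _).mul (h _ _)))).sub
    ((h _ _).mul (((h _ _).mul (h _ _)).sub ((h _ _).mul (h _ _))))).add
    ((h _ _).mul (((h _ _).mul (h _ _)).sub ((h _ _).mul (h _ _))))

theorem continuous_mm_left (L : Mat) : Continuous fun O : Mat => mm O L := by
  unfold mm
  fun_prop

theorem ae_gprod_ne {L : Mat} (hL : NonSing L) :
    ∀ᵐ O ∂(volume : Measure Mat), gprod (mm O L) ≠ 0 := by
  obtain ⟨L', hL'⟩ := exists_left_inv hL
  refine (polyLines_gprod (mm (fun i j => (pas i j : ℝ)) L') L).ae_ne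
    (continuous_gprod.comp (continuous_mm_left L)).measurable ?_
  show gprod (mm (mm _ L') L) ≠ 0
  rw [hL']
  exact gprod_pas

theorem nonSing_iff_det (M : Mat) : NonSing M ↔ det3 (M 0) (M 1) (M 2) ≠ 0 := by
  rw [det3_eq M]
  constructor
  · intro h h0
    obtain ⟨v, hv, hv0⟩ := Matrix.exists_mulVec_eq_zero_iff.2 h0
    refine hv (h v ?_)
    funext i
    have := congrFun hv0 i
    simpa [Matrix.mulVec, dotProduct, ap] using this
  · intro h v hv
    by_contra hv0
    refine h (Matrix.exists_mulVec_eq_zero_iff.1 ⟨v, hv0, ?_⟩)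
    funext i
    have := congrFun hv i
    simpa [Matrix.mulVec, dotProduct, ap] using this

theorem measurableSet_nonSing : MeasurableSet {M : Mat | NonSing M} := by
  have h : {M : Mat | NonSing M} = {M : Mat | det3 (M 0) (M 1) (M 2) = 0}ᶜ := by
    ext M
    exact nonSing_iff_det M
  rw [h]
  refine (IsClosed.measurableSet ?_).compl
  refine isClosed_eq ?_ continuous_const
  unfold det3
  fun_prop

/-- **A generic linear map in the target.** -/
theorem ae_generic {X : Type*} [MeasurableSpace X] {ν : Measure X} [SFinite ν] {F : X → Mat}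
    (hF : AEMeasurable F ν) :
    ∀ᵐ O ∂(volume : Measure Mat), ∀ᵐ x ∂ν, NonSing (F x) → gprod (mm O (F x)) ≠ 0 := by
  set G : X → Mat := hF.mk F with hG
  have hGm : Measurable G := hF.measurable_mk
  have hFG : F =ᵐ[ν] G := hF.ae_eq_mk
  have hm : MeasurableSet {a : X × Mat | NonSing (G a.1) → gprod (mm a.2 (G a.1)) ≠ 0} := by
    have h1 : MeasurableSet {a : X × Mat | NonSing (G a.1)} :=
      measurableSet_nonSing.preimage (hGm.comp measurable_fst)
    have h2 : Measurable fun a : X × Mat => gprod (mm a.2 (G a.1)) := by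
      refine measurable_gprod.comp ?_
      have h3 : Measurable fun b : Mat × Mat => mm b.1 b.2 := by
        have : Continuous fun b : Mat × Mat => mm b.1 b.2 := by
          unfold mm
          fun_prop
        exact this.measurable
      exact h3.comp (measurable_snd.prodMk (hGm.comp measurable_fst))
    have h4 : MeasurableSet {a : X × Mat | gprod (mm a.2 (G a.1)) ≠ 0} :=
      (h2 (measurableSet_singleton 0)).compl
    have h5 : {a : X × Mat | NonSing (G a.1) → gprod (mm a.2 (G a.1)) ≠ 0} =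
        {a : X × Mat | NonSing (G a.1)}ᶜ ∪ {a : X × Mat | gprod (mm a.2 (G a.1)) ≠ 0} := by
      ext a
      simp only [mem_ofPred_eq, mem_union, mem_compl_iff]
      tauto
    rw [h5]
    exact h1.compl.union h4
  have h1 : ∀ᵐ x ∂ν, ∀ᵐ O ∂(volume : Measure Mat), NonSing (G x) → gprod (mm O (G x)) ≠ 0 := by
    refine Eventually.of_forall fun x => ?_
    by_cases hx : NonSing (G x)
    · filter_upwards [ae_gprod_ne hx] with O hO _ using hO
    · exact Eventually.of_forall fun O h => absurd h hx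
  have h2 := (Measure.ae_ae_comm
    (p := fun (x : X) (O : Mat) => NonSing (G x) → gprod (mm O (G x)) ≠ 0) hm).1 h1
  filter_upwards [h2] with O hO
  filter_upwards [hO, hFG] with x hx hx2 h3
  rw [hx2] at h3 ⊢
  exact hx h3

/-- a generic matrix near the identity -/
theorem exists_generic {X : Type*} [MeasurableSpace X] {ν : Measure X} [SFinite ν] {F : X → Mat}
    (hF : AEMeasurable F ν) (O₁ : Mat) {ε : ℝ} (hε : 0 < ε) :
    ∃ O : Mat, ‖O - O₁‖ < ε ∧ ∀ᵐ x ∂ν, NonSing (F x) → ∃ α > 0, AGen α (mm O (F x)) := by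
  have h1 : (ball O₁ ε ∩ {O : Mat | ∀ᵐ x ∂ν, NonSing (F x) → gprod (mm O (F x)) ≠ 0}).Nonempty := by
    by_contra hcon
    rw [not_nonempty_iff_eq_empty] at hcon
    have h2 : ball O₁ ε ⊆ {O : Mat | ∀ᵐ x ∂ν, NonSing (F x) → gprod (mm O (F x)) ≠ 0}ᶜ := by
      intro O hO hO2
      have : O ∈ (∅ : Set Mat) := hcon ▸ ⟨hO, hO2⟩
      exact this
    have h3 : volume (ball O₁ ε) = 0 := measure_mono_null h2 (ae_generic hF)
    exact (measure_ball_pos volume O₁ hε).ne' h3
  obtain ⟨O, hO1, hO2⟩ := h1
  refine ⟨O, by simpa [dist_eq_norm] using hO1, ?_⟩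
  filter_upwards [hO2] with x hx h3 using exists_aGen (hx h3)

/-- the quantitative version: up to a small part, the constant is uniform -/
theorem exists_alpha {X : Type*} [MeasurableSpace X] {ν : Measure X} [IsFiniteMeasure ν]
    {F : X → Mat} (hF : AEMeasurable F ν)
    (hg : ∀ᵐ x ∂ν, NonSing (F x) → ∃ α > 0, AGen α (F x)) {ε : ℝ≥0∞} (hε : ε ≠ 0) :
    ∃ α > 0, ν {x | NonSing (F x) ∧ ¬ AGen α (F x)} < ε := by
  set S : ℕ → Set X := fun n => {x | NonSing (F x) ∧ ¬ AGen (1 / ((n : ℝ) + 1)) (F x)} with hS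
  have hSm : ∀ n, NullMeasurableSet (S n) ν := by
    intro n
    have h1 : NullMeasurableSet (F ⁻¹' {M : Mat | NonSing M}) ν :=
      hF.nullMeasurable measurableSet_nonSing
    have h2 : NullMeasurableSet (F ⁻¹' {M : Mat | AGen (1 / ((n : ℝ) + 1)) M}) ν :=
      hF.nullMeasurable (isClosed_aGen _).measurableSet
    exact h1.inter h2.compl
  have hanti : Antitone S := by
    intro m n hmn x hx
    refine ⟨hx.1, fun h => hx.2 (h.mono ?_)⟩
    have h1 : (m : ℝ) ≤ n := by exact_mod_cast hmn
    exact one_div_le_one_div_of_le (by positivity) (by linarith)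
  have hlim := tendsto_measure_iInter_atTop hSm hanti ⟨0, measure_ne_top ν _⟩
  have h0 : ν (⋂ n, S n) = 0 := by
    rw [measure_eq_zero_iff_ae_notMem]
    filter_upwards [hg] with x hx hx2
    rw [mem_iInter] at hx2
    obtain ⟨α, hα, h3⟩ := hx (hx2 0).1
    obtain ⟨n, hn⟩ := exists_nat_one_div_lt hα
    exact (hx2 n).2 (h3.mono hn.le)
  rw [h0] at hlim
  obtain ⟨n, hn⟩ := (hlim.eventually_lt_const (pos_iff_ne_zero.2 hε)).exists
  exact ⟨1 / ((n : ℝ) + 1), by positivity, hn⟩

end Vale.Agent.P073.H989
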