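import Vale.Agent.P073.H234.Exist
import Vale.Agent.P073.H439.P2K1
import Vale.Agent.P073.H340.Paths
import Vale.Agent.P073.H83.Grid1
import Vale.Agent.P073.PA285.Top
import Vale.Agent.P073.PK.Sob560c

/-!
# P073, P2h, [G*]: the first cleaned map, and the target grid at the exponent two
-/

namespace Vale.Agent.P073.H989

open MeasureTheory Set Filter Topology Metric Vale.Agent.P073.St Vale.Agent.P073.AB
open Vale.Agent.P073.SQ (ev)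
open Vale.Agent.P073.AB.P86 (rel)
open _root_.P073.Net (dyc dyo)
open _root_.P073 (ConBall ConHomeo)
open Vale.Agent.P073.H234
open scoped ENNReal

variable {Ω Λ : Set V} {f : V → V} {F : V → Mat} {v : V}

theorem isHomeo_con (h : ConHomeo Ω Λ) : St.IsHomeo Ω Λ h.toFun :=
  ⟨h.invFun, ⟨fun _ hx => ⟨h.mapsTo hx, h.left_inv hx⟩, fun _ hy => ⟨h.mapsTo_inv hy,
    h.right_inv hy⟩⟩, h.cont, h.cont_inv⟩

/-- the empty graph -/
def graph0 (Ω : Set V) : _root_.P073.Net.Graph Ω where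
  ι := Empty
  a := fun i => i.elim
  b := fun i => i.elim
  ne := fun i => i.elim
  sub := fun i => i.elim
  fin := fun _ _ _ => Set.toFinite _
  meet := fun i => i.elim

/-- a conical homeomorphism near `f` -/
theorem exists_con0 (hΩ : St.IsBoundedDomain Ω) (hΛ : IsOpen Λ) (hf : St.IsHomeo Ω Λ f)
    (rat : RatGood v Ω f F) {σ : V → ℝ} (hσ : ContinuousOn σ Ω) (hσ0 : ∀ x ∈ Ω, 0 < σ x) :
    ∃ h : ConHomeo Ω Λ, ∀ x ∈ Ω, ‖h.toFun x - f x‖ ≤ σ x := by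
  obtain ⟨h, h1, -⟩ := PA285.netOutN 1 Ω Λ f v (graph0 Ω) (fun i => i.elim) le_rfl one_le_two
    hΩ.1 hΩ.2.1 hΛ hf (PK.RatGood.ratAC rat) (fun i => i.elim)
    ⟨fun i => i.elim, fun i => i.elim⟩ (fun i => i.elim) (fun _ => 1) (fun _ => one_pos) σ hσ hσ0
  exact ⟨h, h1⟩

variable {p : ℝ} {ε : ℝ≥0∞} {θ M κ c₀ t₀ δ₀ ε₁ β σ : ℝ} {j : ℕ}
  {T : Set V} {m n N : ℕ} {C : P2Cells p ε θ M κ c₀ t₀ δ₀ j Ω Λ f F T v m}
  {J' : Finset (Fin 3 → ℤ)} {π : (Fin 3 → ℤ) → Fin 3 → ℤ}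

/-- the closeness of the cleaned map in the good cells, in units of the own lattice -/
noncomputable def cst (θ M β : ℝ) : ℝ := 3 * M + 3 * ((16 * M / θ + 20) * β)

/-- the target grid data for a map which is close to the affine maps -/
theorem cellsG_of {g : V → V} (hΩ : IsOpen Ω) (hΛ : IsOpen Λ) (hΛb : Bornology.IsBounded Λ)
    (hg : St.IsHomeo Ω Λ g) (hT : TSet θ M κ t₀ δ₀ ε₁ Ω f F T) (hθ : 0 < θ)
    (S : SubCells C n J' π) {κ' : ℝ}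
    (hclose : ∀ z ∈ J', ∀ x ∈ dyc v n z, ‖g x - C.A (π z) x‖ ≤ κ') {k₁ m₁ : ℕ} (hk₁ : 3 ≤ k₁)
    (hκ' : κ' < θ * (1 / 2 ^ (n + k₁))) (hm₁ : 4 / 2 ^ m₁ ≤ c₀) :
    H83.CellsG θ M κ' m₁ n k₁ Ω Λ g v J' (fun z => C.A (π z)) (fun z => C.L (π z)) where
  oΩ := hΩ
  oΛ := hΛ
  bΛ := hΛb
  hom := hg
  θ0 := hθ
  aff z hz := C.aff _ (S.mem z hz)
  below z hz := C.below _ (S.mem z hz)
  above z hz := C.above _ (S.mem z hz)
  sub z hz := ((S.sub z hz).trans P86.dyo_sub_dyc).trans (C.sub hT (S.mem z hz))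
  close := hclose
  small := hκ'
  core z hz x hx := by
    have h1 := P86.dyo_sub_dyc (S.sub z hz hx)
    refine hm₁.trans (C.dist _ (S.mem z hz) x ⟨x, h1, ?_⟩).2.2
    rw [sub_self, norm_zero]
    positivity
  three_le := hk₁

/-- **[G*]** the first cleaned map, with the data of the target grid -/
theorem exists_gstar (hΩ : St.IsBoundedDomain Ω) (hΛ : St.IsBoundedDomain Λ)
    (hf : St.IsHomeo Ω Λ f) (rat : RatGood v Ω f F) (hj : 2 ≤ j)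
    (hT : TSet θ M κ t₀ δ₀ ε₁ Ω f F T) (hN : Num θ M κ β)
    (Nk : Necks θ M β σ f v m j C.J C.A) (hδ : β / 2 ^ (m + j) ≤ δ₀ / 2)
    (hc₀ : 4 / 2 ^ (m + j) < c₀) (hσ0 : 0 < σ) (hσ : σ ≤ β / 2) (hσ' : σ ≤ 1 / 40)
    (S : SubCells C n J' π) (hnj : n ≤ m + j) {k₁ m₁ : ℕ} (hk₁ : 3 ≤ k₁)
    (hκ' : cst θ M β / 2 ^ (m + j) < θ * (1 / 2 ^ (n + k₁))) (hm₁ : 4 / 2 ^ m₁ ≤ c₀) :
    ∃ g : ConHomeo Ω Λ, H83.CellsG θ M (cst θ M β / 2 ^ (m + j)) m₁ n k₁ Ω Λ g.toFun v J'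
      (fun z => C.A (π z)) (fun z => C.L (π z)) := by
  have hfc : ContinuousOn f Ω := by obtain ⟨g, -, h, -⟩ := hf; exact h
  obtain ⟨o, G, η₀, hη₀, h1⟩ := exists_cleaned hΩ.1 hΩ.2.1.isPreconnected hΛ.1 hfc
    H340.specPaths hj hT hN Nk hδ hc₀ hσ0 hσ hσ' n (m + j) J'
  set η : ℝ := min η₀ (β / 2 ^ (m + j)) with hη
  have hβ := hN.β0
  have hη0 : 0 < η := lt_min hη₀ (by positivity)
  obtain ⟨h₀, hh₀⟩ := exists_con0 hΩ hΛ.1 hf rat (σ := fun _ => η) continuousOn_const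
    (fun _ _ => hη0)
  obtain ⟨h', h2⟩ := h1 η hη0.le (min_le_left _ _) h₀ hh₀
  obtain ⟨Tc, h₁, K⟩ := h2 (1 / 2) (by norm_num)
  refine ⟨h₁, cellsG_of hΩ.1 hΛ.1 (PK.isBounded_of_domain hΛ) (isHomeo_con h₁) hT hN.θ0 S
    (fun z hz x hx => ?_) hk₁ hκ' hm₁⟩
  exact H439.K1.close_cell hT hN K (min_le_right _ _) hσ (by norm_num) le_rfl hΛ.1 S hnj le_rfl hz hx

end Vale.Agent.P073.H989
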