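import Vale.Agent.P073.H989.GensB

/-!
# P073, block B09, mesh half, part 1: the layers at the boundary of the dyadic cubes
-/

namespace Vale.Agent.P073.H989

open MeasureTheory Set Filter Topology Metric Vale.Agent.P073.St
open Vale.Agent.P073.AB (edge eInt pt Idx)
open Vale.Agent.P073.SQ (ev)
open P073.Net (dyc dyo)
open scoped ENNReal NNReal

/-- the corners of generation `m` in the closed cube `q`, at index distance at most `R` from the
boundary of `q` -/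
noncomputable def Lay (q : Idx) (m R : ℕ) : Finset (Fin 3 → ℤ) :=
  (zs q.1 q.2 m).filter fun z =>
    ∃ j, z j ≤ 2 ^ (m - q.1) * q.2 j + R ∨ 2 ^ (m - q.1) * (q.2 j + 1) ≤ z j + R

theorem mem_Lay {q : Idx} {m R : ℕ} {z : Fin 3 → ℤ} : z ∈ Lay q m R ↔
    (∀ j, 2 ^ (m - q.1) * q.2 j ≤ z j ∧ z j ≤ 2 ^ (m - q.1) * (q.2 j + 1)) ∧
      ∃ j, z j ≤ 2 ^ (m - q.1) * q.2 j + R ∨ 2 ^ (m - q.1) * (q.2 j + 1) ≤ z j + R := by
  unfold Lay zs
  rw [Finset.mem_filter, Fintype.mem_piFinset]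
  simp only [Finset.mem_Icc]

theorem Lay_mono (q : Idx) (m : ℕ) {R R' : ℕ} (h : R ≤ R') : Lay q m R ⊆ Lay q m R' := by
  intro z hz
  rw [mem_Lay] at hz ⊢
  refine ⟨hz.1, ?_⟩
  obtain ⟨j, hj⟩ := hz.2
  have : (R : ℤ) ≤ R' := by exact_mod_cast h
  refine ⟨j, ?_⟩
  rcases hj with hj | hj
  · left; linarith
  · right; linarith

theorem card_Lay_le (q : Idx) (m R : ℕ) :
    (Lay q m R).card ≤ 6 * (R + 1) * (2 ^ (m - q.1) + 1) ^ 2 := by
  classical
  set n : ℕ := 2 ^ (m - q.1) with hn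
  have hnz : ((2 : ℤ) ^ (m - q.1)) = (n : ℤ) := by rw [hn]; push_cast; rfl
  set A : Fin 3 → Finset (Fin 3 → ℤ) := fun j => Fintype.piFinset fun i =>
    if i = j then Finset.Icc ((n : ℤ) * q.2 i) (n * q.2 i + R)
    else Finset.Icc ((n : ℤ) * q.2 i) (n * (q.2 i + 1)) with hA
  set B : Fin 3 → Finset (Fin 3 → ℤ) := fun j => Fintype.piFinset fun i =>
    if i = j then Finset.Icc ((n : ℤ) * (q.2 i + 1) - R) (n * (q.2 i + 1))
    else Finset.Icc ((n : ℤ) * q.2 i) (n * (q.2 i + 1)) with hB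
  have hsub : Lay q m R ⊆ (Finset.univ.biUnion A) ∪ (Finset.univ.biUnion B) := by
    intro z hz
    rw [mem_Lay, hnz] at hz
    obtain ⟨h1, j, hj⟩ := hz
    rw [Finset.mem_union, Finset.mem_biUnion, Finset.mem_biUnion]
    rcases hj with hj | hj
    · left
      refine ⟨j, Finset.mem_univ _, ?_⟩
      rw [hA, Fintype.mem_piFinset]
      intro i
      by_cases hi : i = j
      · subst hi
        simp only [if_true]
        exact Finset.mem_Icc.2 ⟨(h1 i).1, hj⟩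
      · simp only [hi, if_false]
        exact Finset.mem_Icc.2 (h1 i)
    · right
      refine ⟨j, Finset.mem_univ _, ?_⟩
      rw [hB, Fintype.mem_piFinset]
      intro i
      by_cases hi : i = j
      · subst hi
        simp only [if_true]
        exact Finset.mem_Icc.2 ⟨by linarith, (h1 i).2⟩
      · simp only [hi, if_false]
        exact Finset.mem_Icc.2 (h1 i)
  have c1 : ∀ i, (Finset.Icc ((n : ℤ) * q.2 i) (n * q.2 i + R)).card = R + 1 := by
    intro i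
    rw [Int.card_Icc]
    have : (n : ℤ) * q.2 i + R + 1 - n * q.2 i = ((R + 1 : ℕ) : ℤ) := by push_cast; ring
    rw [this, Int.toNat_natCast]
  have c2 : ∀ i, (Finset.Icc ((n : ℤ) * (q.2 i + 1) - R) (n * (q.2 i + 1))).card = R + 1 := by
    intro i
    rw [Int.card_Icc]
    have : (n : ℤ) * (q.2 i + 1) + 1 - (n * (q.2 i + 1) - R) = ((R + 1 : ℕ) : ℤ) := by
      push_cast; ring
    rw [this, Int.toNat_natCast]
  have c3 : ∀ i, (Finset.Icc ((n : ℤ) * q.2 i) (n * (q.2 i + 1))).card = n + 1 := by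
    intro i
    rw [Int.card_Icc]
    have : (n : ℤ) * (q.2 i + 1) + 1 - n * q.2 i = ((n + 1 : ℕ) : ℤ) := by push_cast; ring
    rw [this, Int.toNat_natCast]
  have hAc : ∀ j, (A j).card = (R + 1) * (n + 1) ^ 2 := by
    intro j
    simp only [hA]
    rw [Fintype.card_piFinset, Fin.prod_univ_three]
    fin_cases j <;> simp [c1, c3] <;> ring
  have hBc : ∀ j, (B j).card = (R + 1) * (n + 1) ^ 2 := by
    intro j
    simp only [hB]
    rw [Fintype.card_piFinset, Fin.prod_univ_three]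
    fin_cases j <;> simp [c2, c3] <;> ring
  calc (Lay q m R).card ≤ ((Finset.univ.biUnion A) ∪ (Finset.univ.biUnion B)).card :=
        Finset.card_le_card hsub
    _ ≤ (Finset.univ.biUnion A).card + (Finset.univ.biUnion B).card := Finset.card_union_le _ _
    _ ≤ 3 * ((R + 1) * (n + 1) ^ 2) + 3 * ((R + 1) * (n + 1) ^ 2) := by
        refine add_le_add ?_ ?_
        · refine (Finset.card_biUnion_le).trans ?_
          simp [hAc]
        · refine (Finset.card_biUnion_le).trans ?_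
          simp [hBc]
    _ = _ := by ring

/-- the layer sum of one generation -/
noncomputable def LS (q : Idx) (R : ℕ) (k : Fin 3) (H : V → ℝ≥0∞) (m : ℕ) (v : V) : ℝ≥0∞ :=
  ∑ z ∈ Lay q m R, ENNReal.ofReal ((1 / 2 ^ m) ^ 2) * eInt v ((m, z), k) H

theorem LS_eq (q : Idx) (R : ℕ) (k : Fin 3) (H : V → ℝ≥0∞) (m : ℕ) (v : V) :
    LS q R k H m v = ∑ z ∈ Lay q m R, ENNReal.ofReal ((1 / 2 ^ m) ^ 3) * sgI m z k H v := by
  unfold LS
  simp only [eInt_eq_sgI]

theorem LS_mono_R (q : Idx) {R R' : ℕ} (h : R ≤ R') (k : Fin 3) (H : V → ℝ≥0∞) (m : ℕ) (v : V) :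
    LS q R k H m v ≤ LS q R' k H m v :=
  Finset.sum_le_sum_of_subset (Lay_mono q m h)

theorem aemeasurable_LS {H : V → ℝ≥0∞} (hH : AEMeasurable H (volume : Measure V)) (q : Idx)
    (R : ℕ) (k : Fin 3) (m : ℕ) : AEMeasurable (LS q R k H m) (volume : Measure V) := by
  have : LS q R k H m = fun v => ∑ z ∈ Lay q m R,
      ENNReal.ofReal ((1 / 2 ^ m) ^ 3) * sgI m z k H v := funext fun v => LS_eq q R k H m v
  rw [this]
  exact Finset.aemeasurable_fun_sum _ fun w _ => (aemeasurable_sgI hH m w k).const_mul _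

/-- the weight of one generation -/
theorem card_Lay_weight (q : Idx) (R : ℕ) (j : ℕ) :
    ((Lay q (q.1 + j) R).card : ℝ≥0∞) * ENNReal.ofReal ((1 / 2 ^ (q.1 + j)) ^ 3) ≤
      ENNReal.ofReal (24 * (R + 1) * (1 / 2 ^ q.1) ^ 3) * (2⁻¹) ^ j := by
  have h1 := card_Lay_le q (q.1 + j) R
  have e : q.1 + j - q.1 = j := by omega
  rw [e] at h1
  have h2 : ((2:ℝ≥0∞)⁻¹) ^ j = ENNReal.ofReal ((1 / 2) ^ j) := by
    rw [ENNReal.ofReal_pow (by norm_num)]
    congr 1
    rw [one_div, ENNReal.ofReal_inv_of_pos (by norm_num)]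
    simp
  rw [← ENNReal.ofReal_natCast, ← ENNReal.ofReal_mul (by positivity), h2,
    ← ENNReal.ofReal_mul (by positivity)]
  refine ENNReal.ofReal_le_ofReal ?_
  have h3 : ((Lay q (q.1 + j) R).card : ℝ) ≤ 6 * (R + 1) * (2 ^ j + 1) ^ 2 := by exact_mod_cast h1
  have h4 : (1:ℝ) ≤ 2 ^ j := one_le_pow₀ (by norm_num)
  calc ((Lay q (q.1 + j) R).card : ℝ) * (1 / 2 ^ (q.1 + j)) ^ 3
      ≤ (6 * ((R : ℝ) + 1) * (2 ^ j + 1) ^ 2) * (1 / 2 ^ (q.1 + j)) ^ 3 := by gcongr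
    _ ≤ (6 * ((R : ℝ) + 1) * (2 * 2 ^ j) ^ 2) * (1 / 2 ^ (q.1 + j)) ^ 3 := by gcongr; linarith
    _ = 24 * ((R : ℝ) + 1) * (1 / 2 ^ q.1) ^ 3 * (1 / 2) ^ j := by
        rw [pow_add, one_div_pow (2:ℝ) j]; field_simp; ring

theorem lintegral_LS_le {H : V → ℝ≥0∞} (hH : AEMeasurable H (volume : Measure V)) (q : Idx)
    (R : ℕ) (k : Fin 3) (j : ℕ) : ∫⁻ v, LS q R k H (q.1 + j) v ≤
      (ENNReal.ofReal (24 * (R + 1) * (1 / 2 ^ q.1) ^ 3) * (2⁻¹) ^ j) * ∫⁻ y, H y := by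
  simp only [LS_eq]
  rw [lintegral_finsetSum' _ fun z _ => (aemeasurable_sgI hH _ z k).const_mul _]
  calc ∑ z ∈ Lay q (q.1 + j) R,
        ∫⁻ v, ENNReal.ofReal ((1 / 2 ^ (q.1 + j)) ^ 3) * sgI (q.1 + j) z k H v
      ≤ ∑ z ∈ Lay q (q.1 + j) R, ENNReal.ofReal ((1 / 2 ^ (q.1 + j)) ^ 3) * ∫⁻ y, H y := by
        refine Finset.sum_le_sum fun z _ => ?_
        rw [lintegral_const_mul' _ _ ENNReal.ofReal_ne_top]
        exact mul_le_mul_right (lintegral_sgI_le hH _ z k) _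
    _ = ((Lay q (q.1 + j) R).card : ℝ≥0∞) * ENNReal.ofReal ((1 / 2 ^ (q.1 + j)) ^ 3) *
          ∫⁻ y, H y := by
        rw [Finset.sum_const, nsmul_eq_mul, mul_assoc]
    _ ≤ _ := mul_le_mul_left (card_Lay_weight q R j) _

/-- the series of the layers -/
noncomputable def LT (q : Idx) (R : ℕ) (k : Fin 3) (H : V → ℝ≥0∞) (v : V) : ℝ≥0∞ :=
  ∑' j : ℕ, LS q R k H (q.1 + j) v

theorem lintegral_LT_le {H : V → ℝ≥0∞} (hH : AEMeasurable H (volume : Measure V)) (q : Idx)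
    (R : ℕ) (k : Fin 3) : ∫⁻ v, LT q R k H v ≤
      ENNReal.ofReal (48 * (R + 1) * (1 / 2 ^ q.1) ^ 3) * ∫⁻ y, H y := by
  unfold LT
  rw [lintegral_tsum fun j => aemeasurable_LS hH q R k (q.1 + j)]
  calc ∑' j : ℕ, ∫⁻ v, LS q R k H (q.1 + j) v
      ≤ ∑' j : ℕ, (ENNReal.ofReal (24 * (R + 1) * (1 / 2 ^ q.1) ^ 3) * (2⁻¹) ^ j) * ∫⁻ y, H y :=
        ENNReal.tsum_le_tsum fun j => lintegral_LS_le hH q R k j
    _ = ENNReal.ofReal (24 * (R + 1) * (1 / 2 ^ q.1) ^ 3) * 2 * ∫⁻ y, H y := by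
        rw [ENNReal.tsum_mul_right, ENNReal.tsum_mul_left, ENNReal.tsum_geometric]
        congr 2
        rw [ENNReal.one_sub_inv_two, inv_inv]
    _ = _ := by
        congr 1
        have : (2:ℝ≥0∞) = ENNReal.ofReal 2 := by simp
        rw [this, ← ENNReal.ofReal_mul (by positivity)]
        congr 1
        ring

/-- the layers of all the dyadic cubes have finite weighted edge sums -/
def Layer (v : V) (H : V → ℝ≥0∞) : Prop :=
  ∀ (q : Idx) (R : ℕ) (k : Fin 3), LT q R k H v ≠ ⊤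

/-- **(LAYER)** almost every origin is good for the layers -/
theorem ae_layer {H : V → ℝ≥0∞} (hH : AEMeasurable H (volume : Measure V))
    (hi : ∫⁻ x, H x ≠ ⊤) : ∀ᵐ v ∂(volume : Measure V), Layer v H := by
  unfold Layer
  rw [ae_all_iff]
  intro q
  rw [ae_all_iff]
  intro R
  rw [ae_all_iff]
  intro k
  have h1 : ∫⁻ v, LT q R k H v ≠ ⊤ :=
    ne_top_of_le_ne_top (ENNReal.mul_ne_top ENNReal.ofReal_ne_top hi) (lintegral_LT_le hH q R k)
  have h2 : AEMeasurable (LT q R k H) (volume : Measure V) := by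
    unfold LT
    exact AEMeasurable.tsum fun j => aemeasurable_LS hH q R k (q.1 + j)
  filter_upwards [ae_lt_top' h2 h1] with v hv using hv.ne

/-- the tails of the layer sums tend to zero -/
theorem Layer.tendsto_tail {v : V} {H : V → ℝ≥0∞} (h : Layer v H) (q : Idx) (R : ℕ) (k : Fin 3) :
    Tendsto (fun n => ∑' j : ℕ, LS q R k H (n + j) v) atTop (𝓝 0) := by
  have h1 := ENNReal.tendsto_sum_nat_add (fun j => LS q R k H (q.1 + j) v) (h q R k)
  have h2 : Tendsto (fun n : ℕ => n - q.1) atTop atTop := tendsto_sub_atTop_nat q.1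
  have h3 := h1.comp h2
  refine h3.congr' ?_
  filter_upwards [eventually_ge_atTop q.1] with n hn
  show ∑' j : ℕ, LS q R k H (q.1 + (j + (n - q.1))) v = _
  refine tsum_congr fun j => ?_
  congr 1
  omega

end Vale.Agent.P073.H989
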