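import Vale.Agent.P073.H989.Squeeze

open Set Metric Topology Filter

namespace Vale.Agent.P073.H989

variable {E : Type*} [NormedAddCommGroup E] [NormedSpace ℝ E]
variable {l : E →L[ℝ] ℝ} {e : E} {a H θ L : ℝ} {m : ℕ} {b : ℕ → E → ℝ} {χ : E → ℝ}

/-- A bound for the derivative from a bound for the increments. -/
theorem deriv_le_of_incr {q : ℝ → E} {g : E} (hq : HasDerivAt q g 0) {u : E → ℝ} {N : E → ℝ}
    (hN : Continuous N) (hNs : ∀ (c : ℝ) (w : E), N (c • w) = |c| * N w)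
    (hu : ∀ y z, |u y - u z| ≤ N (y - z)) {d : ℝ} (hd : HasDerivAt (fun t => u (q t)) d 0) :
    |d| ≤ N g := by
  have h1 : Tendsto (fun t : ℝ => t⁻¹ • (q (0 + t) - q 0)) (𝓝[≠] 0) (𝓝 g) :=
    hasDerivAt_iff_tendsto_slope_zero.1 hq
  have h2 : Tendsto (fun t : ℝ => t⁻¹ • (u (q (0 + t)) - u (q 0))) (𝓝[≠] 0) (𝓝 d) :=
    hasDerivAt_iff_tendsto_slope_zero.1 hd
  have h3 : Tendsto (fun t : ℝ => N (t⁻¹ • (q (0 + t) - q 0))) (𝓝[≠] 0) (𝓝 (N g)) :=
    (hN.tendsto g).comp h1
  have h4 : Tendsto (fun t : ℝ => |t⁻¹ • (u (q (0 + t)) - u (q 0))|) (𝓝[≠] 0) (𝓝 |d|) :=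
    h2.abs
  refine le_of_tendsto_of_tendsto' h4 h3 (fun t => ?_)
  rw [hNs, smul_eq_mul, abs_mul]
  exact mul_le_mul_of_nonneg_left (hu _ _) (abs_nonneg _)

theorem deriv_zero_of_min {u : ℝ → ℝ} {d : ℝ} (hd : HasDerivAt u d 0) (h : ∀ t, u 0 ≤ u t) :
    d = 0 := by
  have : IsLocalMin u 0 := Eventually.of_forall h
  exact this.hasDerivAt_eq_zero hd

theorem deriv_zero_of_max {u : ℝ → ℝ} {d : ℝ} (hd : HasDerivAt u d 0) (h : ∀ t, u t ≤ u 0) :
    d = 0 := by
  have : IsLocalMax u 0 := Eventually.of_forall h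
  exact this.hasDerivAt_eq_zero hd

/-- Derivative of the clamp, off the open interval. -/
theorem deriv_cl_off (hH : 0 < H) {v : ℝ → ℝ} (hv : ContinuousAt v 0) {d : ℝ}
    (hd : HasDerivAt (fun t => cl H (v t)) d 0) (hoff : ¬ (0 < v 0 ∧ v 0 < H)) : d = 0 := by
  rcases le_or_gt (v 0) 0 with h | h
  · refine deriv_zero_of_min hd (fun t => ?_)
    rw [cl_of_le h]
    exact cl_nonneg
  · have h2 : H ≤ v 0 := by
      by_contra hc
      exact hoff ⟨h, not_le.1 hc⟩
    refine deriv_zero_of_max hd (fun t => ?_)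
    rw [cl_of_ge hH.le h2]
    exact cl_le hH.le

theorem deriv_cl_on {v : ℝ → ℝ} (hv : ContinuousAt v 0) {d d' : ℝ}
    (hd : HasDerivAt (fun t => cl H (v t)) d 0) (hd' : HasDerivAt v d' 0)
    (h0 : 0 < v 0) (h1 : v 0 < H) : d = d' := by
  have h2 : ∀ᶠ t in 𝓝 (0 : ℝ), 0 < v t := continuousAt_const.eventually_lt hv h0
  have h3 : ∀ᶠ t in 𝓝 (0 : ℝ), v t < H := hv.eventually_lt continuousAt_const h1
  have h4 : v =ᶠ[𝓝 0] fun t => cl H (v t) := by
    filter_upwards [h2, h3] with t ht1 ht2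
    rw [cl_of_mem ht1.le ht2.le]
  exact (hd'.congr_of_eventuallyEq h4.symm).unique hd |>.symm

/-- Membership in the open stripe number `i`. -/
def inStripe (l : E →L[ℝ] ℝ) (H : ℝ) (b : ℕ → E → ℝ) (i : ℕ) (y : E) : Prop :=
  b i y < l y ∧ l y < b i y + H

theorem IsPack.inStripe_unique (P : IsPack l e a H m b) {i j : ℕ} (hi : i < m) (hj : j < m)
    {y : E} (h1 : inStripe l H b i y) (h2 : inStripe l H b j y) : i = j := by
  by_contra hne
  rcases lt_or_gt_of_ne hne with h | h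
  · have := sep_le (b := fun i => b i y) P.hH.le (fun i hi => P.sep i hi y) h hj
    have h3 := h1.2
    have h4 := h2.1
    linarith
  · have := sep_le (b := fun i => b i y) P.hH.le (fun i hi => P.sep i hi y) h hi
    have h3 := h2.2
    have h4 := h1.1
    linarith

/-- Description of the derivative of the thickness along a curve. -/
theorem thick_deriv (P : IsPack l e a H m b) {q : ℝ → E} {g : E} (hq : HasDerivAt q g 0)
    (hb : ∀ i < m, ∃ β, HasDerivAt (fun t => b i (q t)) β 0)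
    (hcl : ∀ i < m, ∃ δ, HasDerivAt (fun t => cl H (l (q t) - b i (q t))) δ 0) :
    ∃ β : ℝ, HasDerivAt (fun t => thick l H m b (q t)) β 0 ∧
      ((∀ i < m, ¬ inStripe l H b i (q 0)) → β = 0) ∧
      ∀ i < m, inStripe l H b i (q 0) → |β - l g| ≤ ‖hp l e g‖ / a := by
  classical
  choose! β hβ using hb
  choose! δ hδ using hcl
  have hlq : HasDerivAt (fun t => l (q t)) (l g) 0 := l.hasFDerivAt.comp_hasDerivAt 0 hq
  have hoff : ∀ i < m, ¬ inStripe l H b i (q 0) → δ i = 0 := by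
    intro i hi hn
    refine deriv_cl_off P.hH (v := fun t => l (q t) - b i (q t)) ?_ (hδ i hi) ?_
    · exact hlq.continuousAt.sub (hβ i hi).continuousAt
    · rintro ⟨h1, h2⟩
      exact hn ⟨by simpa using h1, by linarith⟩
  have hon : ∀ i < m, inStripe l H b i (q 0) → δ i = l g - β i := by
    intro i hi hn
    refine deriv_cl_on (v := fun t => l (q t) - b i (q t)) ?_ (hδ i hi) (hlq.sub (hβ i hi))
      (by have := hn.1; linarith) (by have := hn.2; linarith)
    exact hlq.continuousAt.sub (hβ i hi).continuousAt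
  have hbd : ∀ i < m, |β i| ≤ ‖hp l e g‖ / a := by
    intro i hi
    refine deriv_le_of_incr (N := fun w => ‖hp l e w‖ / a) hq ?_ ?_ (P.lip i hi) (hβ i hi)
    · have := continuous_hp (l := l) (e := e); fun_prop
    · intro c w
      show ‖hp l e (c • w)‖ / a = |c| * (‖hp l e w‖ / a)
      rw [hp_smul, norm_smul, Real.norm_eq_abs]; ring
  refine ⟨∑ i ∈ Finset.range m, δ i, ?_, ?_, ?_⟩
  · have := HasDerivAt.fun_sum (u := Finset.range m) (fun i hi => hδ i (Finset.mem_range.1 hi))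
    exact this
  · intro h
    exact Finset.sum_eq_zero fun i hi => hoff i (Finset.mem_range.1 hi) (h i (Finset.mem_range.1 hi))
  · intro i hi h
    have h1 : ∑ j ∈ Finset.range m, δ j = δ i := by
      refine Finset.sum_eq_single i ?_ (fun hn => absurd (Finset.mem_range.2 hi) hn)
      intro j hj hne
      refine hoff j (Finset.mem_range.1 hj) (fun hs => hne ?_)
      exact P.inStripe_unique (Finset.mem_range.1 hj) hi hs h
    rw [h1, hon i hi h]
    have : l g - β i - l g = - β i := by ring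
    rw [this, abs_neg]
    exact hbd i hi

/-- Description of the derivative of the squeezing map along a curve. -/
theorem sqz_deriv (P : IsPack l e a H m b) (C : IsCut e θ H L m χ) {q : ℝ → E} {g : E}
    (hq : HasDerivAt q g 0) (hχ : ∃ c, HasDerivAt (fun t => χ (q t)) c 0)
    (hb : ∀ i < m, ∃ β, HasDerivAt (fun t => b i (q t)) β 0)
    (hcl : ∀ i < m, ∃ δ, HasDerivAt (fun t => cl H (l (q t) - b i (q t))) δ 0)
    {G : E} (hG : HasDerivAt (fun t => sqz l e θ H m b χ (q t)) G 0) :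
    ∃ c β : ℝ, hp l e G = hp l e g ∧
      l G = l g - θ * (c * thick l H m b (q 0) + χ (q 0) * β) ∧
      |c| ≤ L * ‖g‖ ∧ (χ (q 0) = 0 → c = 0) ∧ (χ (q 0) = 1 → c = 0) ∧
      ((∀ i < m, ¬ inStripe l H b i (q 0)) → β = 0) ∧
      ∀ i < m, inStripe l H b i (q 0) → |β - l g| ≤ ‖hp l e g‖ / a := by
  obtain ⟨c, hc⟩ := hχ
  obtain ⟨β, hβ, hβ0, hβ1⟩ := thick_deriv P hq hb hcl
  have hG' : HasDerivAt (fun t => sqz l e θ H m b χ (q t))
      (g - (θ * (c * thick l H m b (q 0) + χ (q 0) * β)) • e) 0 := by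
    have h1 : HasDerivAt (fun t => θ * χ (q t) * thick l H m b (q t))
        (θ * (c * thick l H m b (q 0) + χ (q 0) * β)) 0 := by
      have := (hc.mul hβ).const_mul θ
      refine this.congr_of_eventuallyEq (Eventually.of_forall fun t => ?_)
      simp only [Pi.mul_apply]
      ring
    exact hq.sub (h1.smul_const e)
  have hGe := hG.unique hG'
  refine ⟨c, β, ?_, ?_, ?_, ?_, ?_, hβ0, hβ1⟩
  · rw [hGe, sub_eq_add_neg, ← neg_smul, hp_add_smul_e P.he]
  · rw [hGe]; simp [P.he]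
  · refine deriv_le_of_incr (N := fun w => L * ‖w‖) hq (by fun_prop) ?_ C.cL hc
    intro r w
    show L * ‖r • w‖ = |r| * (L * ‖w‖)
    rw [norm_smul, Real.norm_eq_abs]; ring
  · intro h0
    refine deriv_zero_of_min hc (fun t => ?_)
    rw [h0]; exact C.c0 _
  · intro h1
    refine deriv_zero_of_max hc (fun t => ?_)
    rw [h1]; exact C.c1 _

/-- Consequences: the three regions. -/
theorem sqz_deriv_regions (P : IsPack l e a H m b) (C : IsCut e θ H L m χ) {q : ℝ → E} {g : E}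
    (hq : HasDerivAt q g 0) (hχ : ∃ c, HasDerivAt (fun t => χ (q t)) c 0)
    (hb : ∀ i < m, ∃ β, HasDerivAt (fun t => b i (q t)) β 0)
    (hcl : ∀ i < m, ∃ δ, HasDerivAt (fun t => cl H (l (q t) - b i (q t))) δ 0)
    {G : E} (hG : HasDerivAt (fun t => sqz l e θ H m b χ (q t)) G 0) :
    hp l e G = hp l e g ∧ (χ (q 0) = 0 → G = g) ∧
      (χ (q 0) = 1 → (∀ i < m, ¬ inStripe l H b i (q 0)) → G = g) ∧
      (χ (q 0) = 1 → (∃ i < m, inStripe l H b i (q 0)) →
        |l G| ≤ (1 - θ) * |l g| + θ * (‖hp l e g‖ / a)) ∧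
      ((∀ i < m, ¬ inStripe l H b i (q 0)) → |l G - l g| ≤ L * (m * H) * ‖g‖) ∧
      |l G - l g| ≤ L * (m * H) * ‖g‖ + |l g| + ‖hp l e g‖ / a := by
  obtain ⟨c, β, h1, h2, h3, h4, h5, h6, h7⟩ := sqz_deriv P C hq hχ hb hcl hG
  have ha := P.ha
  have hq0 : 0 ≤ ‖hp l e g‖ / a := by positivity
  have hext : l G = l g → G = g := by
    intro h
    have e1 : G = hp l e G + l G • e := by simp [hp]
    have e2 : g = hp l e g + l g • e := by simp [hp]
    rw [e1, h1, h, ← e2]
  have hD0 := P.thick_nonneg (q 0)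
  have hD1 := P.thick_le (q 0)
  have hmH : 0 ≤ (m : ℝ) * H := hD0.trans hD1
  have hcD : |θ * (c * thick l H m b (q 0))| ≤ L * (m * H) * ‖g‖ := by
    rw [abs_mul, abs_mul, abs_of_nonneg C.th0, abs_of_nonneg hD0]
    have hLg : 0 ≤ L * ‖g‖ := mul_nonneg C.L0 (norm_nonneg _)
    calc θ * (|c| * thick l H m b (q 0)) ≤ 1 * (|c| * thick l H m b (q 0)) :=
          mul_le_mul_of_nonneg_right C.th1.le (mul_nonneg (abs_nonneg _) hD0)
      _ = |c| * thick l H m b (q 0) := one_mul _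
      _ ≤ (L * ‖g‖) * (m * H) := mul_le_mul h3 hD1 hD0 hLg
      _ = _ := by ring
  refine ⟨h1, ?_, ?_, ?_, ?_, ?_⟩
  · intro h0
    apply hext
    rw [h2, h4 h0, h0]; ring
  · intro h0 h8
    apply hext
    rw [h2, h5 h0, h6 h8]; ring
  · rintro h0 ⟨i, hi, hs⟩
    have h9 := h7 i hi hs
    rw [h2, h5 h0, h0]
    have e1 : l g - θ * (0 * thick l H m b (q 0) + 1 * β) = (1 - θ) * l g - θ * (β - l g) := by
      ring
    rw [e1]
    refine (abs_sub _ _).trans ?_
    rw [abs_mul, abs_mul, abs_of_nonneg C.th0, abs_of_nonneg (by linarith [C.th1] : 0 ≤ 1 - θ)]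
    have := mul_le_mul_of_nonneg_left h9 C.th0
    linarith
  · intro h8
    rw [h2, h6 h8]
    have e1 : l g - θ * (c * thick l H m b (q 0) + χ (q 0) * 0) - l g
        = -(θ * (c * thick l H m b (q 0))) := by ring
    rw [e1, abs_neg]
    exact hcD
  · rw [h2]
    have e1 : l g - θ * (c * thick l H m b (q 0) + χ (q 0) * β) - l g
        = -(θ * (c * thick l H m b (q 0))) + -(θ * (χ (q 0) * β)) := by ring
    rw [e1]
    refine (abs_add_le _ _).trans ?_
    rw [abs_neg, abs_neg]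
    have hβb : |β| ≤ |l g| + ‖hp l e g‖ / a := by
      by_cases h : ∃ i < m, inStripe l H b i (q 0)
      · obtain ⟨i, hi, hs⟩ := h
        have h9 := h7 i hi hs
        have : β = l g + (β - l g) := by ring
        rw [this]
        exact (abs_add_le _ _).trans (by linarith)
      · push Not at h
        rw [h6 h, abs_zero]
        positivity
    have h10 : |θ * (χ (q 0) * β)| ≤ |β| := by
      rw [abs_mul, abs_mul, abs_of_nonneg C.th0, abs_of_nonneg (C.c0 _), ← mul_assoc]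
      have : θ * χ (q 0) ≤ 1 := mul_le_one₀ C.th1.le (C.c0 _) (C.c1 _)
      calc _ ≤ 1 * |β| := mul_le_mul_of_nonneg_right this (abs_nonneg _)
        _ = _ := one_mul _
    linarith

end Vale.Agent.P073.H989
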