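import Vale.Agent.P073.H989.LensPack
import Vale.Agent.P073.H989.SqzDeriv

open Set Metric Topology Filter MeasureTheory

namespace Vale.Agent.P073.H989

variable {E : Type*} [NormedAddCommGroup E] [NormedSpace ℝ E]

/-- Data of a packing of lenses. -/
structure IsLens (l : E →L[ℝ] ℝ) (e : E) (a H lam : ℝ) (m : ℕ) (b w : ℕ → E → ℝ) : Prop where
  he : l e = 1
  ha : 0 < a
  hlam : 0 ≤ lam
  hH : 0 ≤ H
  blip : ∀ i < m, ∀ y z, |b i y - b i z| ≤ ‖hp l e (y - z)‖ / a
  wlip : ∀ i < m, ∀ y z, |w i y - w i z| ≤ lam * ‖hp l e (y - z)‖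
  w0 : ∀ i < m, ∀ y, 0 ≤ w i y
  w1 : ∀ i < m, ∀ y, w i y ≤ H
  sep : ∀ i, i + 1 < m → ∀ y, b i y + w i y ≤ b (i + 1) y

/-- Membership in the open lens number `i`. -/
def inLens (l : E →L[ℝ] ℝ) (b w : ℕ → E → ℝ) (i : ℕ) (y : E) : Prop :=
  b i y < l y ∧ l y < b i y + w i y

/-- The union of the open lenses. -/
def lens (l : E →L[ℝ] ℝ) (m : ℕ) (b w : ℕ → E → ℝ) : Set E :=
  {y | ∃ i < m, inLens l b w i y}

/-- Total thickness of the lenses below the point `y`. -/
noncomputable def thk (l : E →L[ℝ] ℝ) (m : ℕ) (b w : ℕ → E → ℝ) (y : E) : ℝ :=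
  totw m (fun i => w i y) (fun i => b i y) (l y)

variable {l : E →L[ℝ] ℝ} {e : E} {a H lam : ℝ} {m : ℕ} {b w : ℕ → E → ℝ}

namespace IsLens

variable (P : IsLens l e a H lam m b w)
include P

theorem b_vert {i : ℕ} (hi : i < m) (y : E) (t : ℝ) : b i (y + t • e) = b i y := by
  have := P.blip i hi (y + t • e) y
  rw [add_sub_cancel_left, hp_smul, hp_e P.he, smul_zero, norm_zero, zero_div] at this
  have h2 := abs_nonpos_iff.1 this
  linarith

theorem w_vert {i : ℕ} (hi : i < m) (y : E) (t : ℝ) : w i (y + t • e) = w i y := by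
  have := P.wlip i hi (y + t • e) y
  rw [add_sub_cancel_left, hp_smul, hp_e P.he, smul_zero, norm_zero, mul_zero] at this
  have h2 := abs_nonpos_iff.1 this
  linarith

theorem l_vert (y : E) (t : ℝ) : l (y + t • e) = l y + t := by simp [P.he]

theorem continuous_b {i : ℕ} (hi : i < m) : Continuous (b i) := continuous_of_hpLip (P.blip i hi)

theorem continuous_w {i : ℕ} (hi : i < m) : Continuous (w i) := by
  rcases P.hlam.eq_or_lt with h | h
  · refine continuous_of_hpLip (l := l) (e := e) (C := 1) (fun y z => ?_)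
    have := P.wlip i hi y z
    rw [← h, zero_mul] at this
    exact this.trans (by positivity)
  · refine continuous_of_hpLip (l := l) (e := e) (C := lam⁻¹) (fun y z => ?_)
    have := P.wlip i hi y z
    rw [div_inv_eq_mul, mul_comm]
    exact this

theorem thk_nonneg (y : E) : 0 ≤ thk l m b w y := by
  have := P.hH
  exact totw_nonneg

theorem thk_le (y : E) : thk l m b w y ≤ m * H :=
  totw_le (fun i hi => P.w0 i hi y) (fun i hi => P.w1 i hi y)

theorem thk_congr (y : E) (t : ℝ) :
    thk l m b w (y + t • e) = totw m (fun i => w i y) (fun i => b i y) (l y + t) := by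
  rw [thk, P.l_vert]
  refine Finset.sum_congr rfl fun i hi => ?_
  show cl (w i (y + t • e)) (l y + t - b i (y + t • e)) = cl (w i y) (l y + t - b i y)
  rw [P.b_vert (Finset.mem_range.1 hi), P.w_vert (Finset.mem_range.1 hi)]

theorem thk_mono (y : E) {s t : ℝ} (hst : s ≤ t) :
    thk l m b w (y + s • e) ≤ thk l m b w (y + t • e) := by
  rw [P.thk_congr, P.thk_congr]
  exact totw_mono (by linarith)

theorem thk_sub_le (y : E) {s t : ℝ} (hst : s ≤ t) :
    thk l m b w (y + t • e) - thk l m b w (y + s • e) ≤ t - s := by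
  rw [P.thk_congr, P.thk_congr]
  have := totw_sub_le (b := fun i => b i y) (w := fun i => w i y) (m := m)
    (fun i hi => P.w0 i hi y) (fun i hi => P.sep i hi y) (by linarith : l y + s ≤ l y + t)
  linarith

theorem thk_const (y : E) {s t : ℝ} (hst : s ≤ t)
    (h : ∀ r, s < r → r < t → y + r • e ∉ lens l m b w) :
    thk l m b w (y + t • e) = thk l m b w (y + s • e) := by
  rw [P.thk_congr, P.thk_congr]
  refine totw_const (fun i hi => P.w0 i hi y) (by linarith) (fun r h1 h2 i hi h3 => ?_)
  refine h (r - l y) (by linarith) (by linarith) ⟨i, hi, ?_, ?_⟩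
  · rw [P.l_vert, P.b_vert hi]; linarith [h3.1]
  · rw [P.l_vert, P.b_vert hi, P.w_vert hi]; linarith [h3.2]

theorem thk_lip (y z : E) :
    |thk l m b w y - thk l m b w z| ≤ (1 / a + m * lam) * ‖hp l e (y - z)‖ + |l y - l z| := by
  have ha := P.ha
  have hq : 0 ≤ ‖hp l e (y - z)‖ / a := by positivity
  set z' : E := z + (l y - l z) • e with hz'
  have h1 : |thk l m b w y - thk l m b w z'| ≤ (1 / a + m * lam) * ‖hp l e (y - z)‖ := by
    have h2 : thk l m b w z' = totw m (fun i => w i z) (fun i => b i z) (l y) := by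
      rw [hz', P.thk_congr]; congr 1; ring
    rw [h2, thk]
    refine (totw_lip (fun i hi => P.w0 i hi y) (fun i hi => P.w0 i hi z)
      (fun i hi => P.sep i hi y) (fun i hi => P.sep i hi z) hq
      (mul_nonneg P.hlam (norm_nonneg _))
      (fun i hi => P.blip i hi y z) (fun i hi => P.wlip i hi y z)).trans (le_of_eq ?_)
    ring
  have h3 : |thk l m b w z' - thk l m b w z| ≤ |l y - l z| := by
    have h0 : z = z + (0 : ℝ) • e := by simp
    rcases le_total 0 (l y - l z) with h | h
    · rw [abs_of_nonneg h, abs_le]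
      have h4 := P.thk_mono z h
      have h5 := P.thk_sub_le z h
      rw [← h0, ← hz'] at h4 h5
      constructor <;> linarith
    · rw [abs_of_nonpos h, abs_le]
      have h4 := P.thk_mono z h
      have h5 := P.thk_sub_le z h
      rw [← h0, ← hz'] at h4 h5
      constructor <;> linarith
  calc |thk l m b w y - thk l m b w z|
      = |(thk l m b w y - thk l m b w z') + (thk l m b w z' - thk l m b w z)| := by
        congr 1; ring
    _ ≤ _ := (abs_add_le _ _).trans (add_le_add h1 h3)

theorem continuous_thk : Continuous (thk l m b w) := by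
  have h : ∀ i ∈ Finset.range m, Continuous (fun y : E => cl (w i y) (l y - b i y)) := by
    intro i hi
    have hi' := Finset.mem_range.1 hi
    have h1 := P.continuous_b hi'
    have h2 := P.continuous_w hi'
    unfold cl
    fun_prop
  exact continuous_finsetSum _ h

theorem isOpen_lens : IsOpen (lens l m b w) := by
  have : lens l m b w = ⋃ i ∈ Finset.range m, {y | b i y < l y ∧ l y < b i y + w i y} := by
    ext y
    simp only [lens, inLens, mem_ofPred_eq, mem_iUnion, Finset.mem_range, exists_prop]
  rw [this]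
  refine isOpen_biUnion (fun i hi => ?_)
  have hi' : i < m := by simpa using hi
  exact (isOpen_lt (P.continuous_b hi') l.continuous).inter
    (isOpen_lt l.continuous ((P.continuous_b hi').add (P.continuous_w hi')))

theorem inLens_unique {i j : ℕ} (hi : i < m) (hj : j < m)
    {y : E} (h1 : inLens l b w i y) (h2 : inLens l b w j y) : i = j := by
  by_contra hne
  rcases lt_or_gt_of_ne hne with h | h
  · have := sepw_le (b := fun i => b i y) (w := fun i => w i y) (fun i hi => P.w0 i hi y)
      (fun i hi => P.sep i hi y) h hj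
    have h3 := h1.2
    have h4 := h2.1
    linarith
  · have := sepw_le (b := fun i => b i y) (w := fun i => w i y) (fun i hi => P.w0 i hi y)
      (fun i hi => P.sep i hi y) h hi
    have h3 := h2.2
    have h4 := h1.1
    linarith

end IsLens

end Vale.Agent.P073.H989
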