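import Vale.Agent.P073.H989.Pack

open Set

namespace Vale.Agent.P073.H989

variable {s t : ℝ} {m : ℕ} {b b' w w' : ℕ → ℝ}

theorem cl_mono_width {W W' t : ℝ} (h : W ≤ W') : cl W t ≤ cl W' t :=
  max_le_max le_rfl (min_le_min le_rfl h)

theorem cl_width_le {W W' δ t : ℝ} (hδ : 0 ≤ δ) (h : W ≤ W' + δ) : cl W t ≤ cl W' t + δ := by
  unfold cl
  refine max_le (by linarith [le_max_left 0 (min t W')]) ?_
  have h1 : min t W ≤ min t W' + δ := by
    rcases le_total t W' with h2 | h2
    · rw [min_eq_left h2]; exact (min_le_left _ _).trans (by linarith)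
    · rw [min_eq_right h2]; exact (min_le_right _ _).trans h
  exact h1.trans (by linarith [le_max_right 0 (min t W')])

/-- Total length below `t` of the stripes `[b i, b i + w i]`, `i < m`. -/
noncomputable def totw (m : ℕ) (w b : ℕ → ℝ) (t : ℝ) : ℝ :=
  ∑ i ∈ Finset.range m, cl (w i) (t - b i)

theorem totw_succ : totw (m + 1) w b t = totw m w b t + cl (w m) (t - b m) := by
  rw [totw, Finset.sum_range_succ, ← totw]

theorem totw_nonneg : 0 ≤ totw m w b t := Finset.sum_nonneg fun _ _ => cl_nonneg

theorem totw_le {H : ℝ} (hw0 : ∀ i < m, 0 ≤ w i) (hw : ∀ i < m, w i ≤ H) :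
    totw m w b t ≤ m * H := by
  have : totw m w b t ≤ ∑ i ∈ Finset.range m, H := Finset.sum_le_sum fun i hi =>
    (cl_le (hw0 i (Finset.mem_range.1 hi))).trans (hw i (Finset.mem_range.1 hi))
  simpa using this

theorem totw_mono (hst : s ≤ t) : totw m w b s ≤ totw m w b t :=
  Finset.sum_le_sum fun i _ => cl_mono (by linarith)

theorem totw_mono' {δ : ℝ} (h : ∀ i < m, b' i - δ ≤ b i) : totw m w b t ≤ totw m w b' (t + δ) :=
  Finset.sum_le_sum fun i hi => cl_mono (by have := h i (Finset.mem_range.1 hi); linarith)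

theorem sepw_le (hw : ∀ i < m, 0 ≤ w i) (hb : ∀ i, i + 1 < m → b i + w i ≤ b (i + 1)) {i j : ℕ}
    (hij : i < j) (hj : j < m) : b i + w i ≤ b j := by
  induction j, hij using Nat.le_induction with
  | base => exact hb i hj
  | succ j hij ih =>
    have h1 := ih (by omega)
    have h2 := hb j hj
    have h3 := hw j (by omega)
    linarith

theorem totw_full (hw : ∀ i < m, 0 ≤ w i) (h : ∀ i < m, b i + w i ≤ t) :
    totw m w b t = ∑ i ∈ Finset.range m, w i :=
  Finset.sum_congr rfl fun i hi => cl_of_ge (hw i (Finset.mem_range.1 hi))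
    (by have := h i (Finset.mem_range.1 hi); linarith)

theorem totw_sub_le (hw : ∀ i < m, 0 ≤ w i) (hb : ∀ i, i + 1 < m → b i + w i ≤ b (i + 1))
    (hst : s ≤ t) : totw m w b t - totw m w b s ≤ t - s := by
  induction m generalizing s t with
  | zero => simp only [totw, Finset.range_zero, Finset.sum_empty]; linarith
  | succ m ih =>
    have ih' : ∀ {s t : ℝ}, s ≤ t → totw m w b t - totw m w b s ≤ t - s :=
      fun h => ih (fun i hi => hw i (by omega)) (fun i hi => hb i (by omega)) h
    rw [totw_succ, totw_succ]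
    have hfull : ∀ r, b m ≤ r → totw m w b r = ∑ i ∈ Finset.range m, w i := fun r hr =>
      totw_full (fun i hi => hw i (by omega))
        (fun i hi => (sepw_le hw hb hi (by omega)).trans hr)
    rcases le_total t (b m) with h1 | h1
    · rw [cl_of_le (by linarith : t - b m ≤ 0), cl_of_le (by linarith : s - b m ≤ 0)]
      linarith [ih' hst]
    · rcases le_total (b m) s with h2 | h2
      · rw [hfull t h1, hfull s h2]
        have := cl_sub_le (H := w m) (by linarith : s - b m ≤ t - b m)
        linarith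
      · have h3 := ih' h2
        rw [hfull (b m) le_rfl] at h3
        rw [hfull t h1, cl_of_le (by linarith : s - b m ≤ 0)]
        have := cl_sub_le (H := w m) (by linarith : (0 : ℝ) ≤ t - b m)
        rw [cl_of_le le_rfl] at this
        linarith

/-- The clamp is constant along an interval without interior points of the stripe. -/
theorem cl_const {W : ℝ} (hW : 0 ≤ W) (hst : s ≤ t)
    (h : ∀ r, s < r → r < t → ¬ (0 < r ∧ r < W)) : cl W t = cl W s := by
  rcases hst.eq_or_lt with rfl | hlt
  · rfl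
  rcases le_or_gt t 0 with h1 | h1
  · rw [cl_of_le h1, cl_of_le (by linarith)]
  rcases le_or_gt W s with h2 | h2
  · rw [cl_of_ge hW h2, cl_of_ge hW (by linarith)]
  -- now `0 < t`, `s < W`
  rcases hW.eq_or_lt with h0 | h0
  · -- `W = 0`
    have e1 : ∀ r, cl W r = 0 := fun r => le_antisymm ((cl_le hW).trans h0.symm.le) cl_nonneg
    rw [e1, e1]
  · exfalso
    obtain ⟨r, hr1, hr2⟩ := exists_between (max_lt (lt_min hlt h2) (lt_min h1 h0) :
      max s 0 < min t W)
    exact h r ((le_max_left _ _).trans_lt hr1) (hr2.trans_le (min_le_left _ _))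
      ⟨(le_max_right _ _).trans_lt hr1, hr2.trans_le (min_le_right _ _)⟩

theorem totw_const (hw : ∀ i < m, 0 ≤ w i) (hst : s ≤ t)
    (h : ∀ r, s < r → r < t → ∀ i < m, ¬ (b i < r ∧ r < b i + w i)) :
    totw m w b t = totw m w b s := by
  refine Finset.sum_congr rfl fun i hi => ?_
  have hi' := Finset.mem_range.1 hi
  refine cl_const (hw i hi') (by linarith) (fun r h1 h2 h3 => ?_)
  exact h (r + b i) (by linarith) (by linarith) i hi' ⟨by linarith [h3.1], by linarith [h3.2]⟩

theorem totw_lip (hw : ∀ i < m, 0 ≤ w i) (hw' : ∀ i < m, 0 ≤ w' i)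
    (hb : ∀ i, i + 1 < m → b i + w i ≤ b (i + 1))
    (hb' : ∀ i, i + 1 < m → b' i + w' i ≤ b' (i + 1)) {δ η : ℝ} (hδ : 0 ≤ δ) (hη : 0 ≤ η)
    (h : ∀ i < m, |b i - b' i| ≤ δ) (h' : ∀ i < m, |w i - w' i| ≤ η) :
    |totw m w b t - totw m w' b' t| ≤ δ + m * η := by
  have key : ∀ {b b' w w' : ℕ → ℝ}, (∀ i < m, 0 ≤ w' i) →
      (∀ i, i + 1 < m → b' i + w' i ≤ b' (i + 1)) → (∀ i < m, |b i - b' i| ≤ δ) →
      (∀ i < m, |w i - w' i| ≤ η) → totw m w b t ≤ totw m w' b' t + (δ + m * η) := by
    intro b b' w w' hw' hb' h h'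
    have h1 : totw m w b t ≤ totw m w' b t + m * η := by
      have : totw m w b t ≤ ∑ i ∈ Finset.range m, (cl (w' i) (t - b i) + η) := by
        refine Finset.sum_le_sum fun i hi => cl_width_le hη ?_
        have := (abs_le.1 (h' i (Finset.mem_range.1 hi))).2
        linarith
      rw [Finset.sum_add_distrib] at this
      simpa [totw] using this
    have h2 : totw m w' b t ≤ totw m w' b' (t + δ) :=
      totw_mono' (fun i hi => by have := (abs_le.1 (h i hi)).1; linarith)
    have h3 := totw_sub_le (t := t + δ) (s := t) hw' hb' (by linarith)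
    linarith
  rw [abs_le]
  constructor
  · have := key (b := b') (b' := b) (w := w') (w' := w) hw hb
      (fun i hi => by rw [abs_sub_comm]; exact h i hi)
      (fun i hi => by rw [abs_sub_comm]; exact h' i hi)
    linarith
  · have := key (b := b) (b' := b') (w := w) (w' := w') hw' hb' h h'
    linarith

end Vale.Agent.P073.H989
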