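import Vale.Agent.P073.HB.Acl
import Mathlib

open MeasureTheory Set Filter Topology Metric
open scoped ENNReal ContDiff NNReal
open Vale.Agent.P073.HB

namespace Vale.Agent.P073.H989

variable {E : Type*} [NormedAddCommGroup E] [NormedSpace ℝ E] [FiniteDimensional ℝ E]
  [MeasurableSpace E] [BorelSpace E] {μ : Measure E} [μ.IsAddHaarMeasure]

theorem ae_seg_of_null {N : Set E} (hN : ∀ᵐ x ∂μ, x ∉ N) (w : E) :
    ∀ᵐ x ∂μ, ∀ᵐ t ∂(volume.restrict (Ioc (0 : ℝ) 1)), x + t • w ∉ N := by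
  set ν : Measure ℝ := volume.restrict (Ioc (0 : ℝ) 1)
  have h1 : ∀ᵐ p ∂(ν.prod μ), p.2 ∉ N := Measure.quasiMeasurePreserving_snd.ae hN
  have h2 : ∀ᵐ p ∂(ν.prod μ), p.2 + p.1 • w ∉ N :=
    (measurePreserving_shear (μ := μ) w ν).quasiMeasurePreserving.ae h1
  have h3 : ∀ᵐ q ∂(μ.prod ν), q.1 + q.2 • w ∉ N :=
    (Measure.measurePreserving_swap (μ := μ) (ν := ν)).quasiMeasurePreserving.ae h2
  exact Measure.ae_ae_of_ae_prod h3

theorem null_of_ae_seg {A : Set E} (hA : MeasurableSet A) (w : E)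
    (h : ∀ᵐ x ∂μ, ∀ᵐ t ∂(volume.restrict (Ioc (0 : ℝ) 1)), x + t • w ∉ A) :
    ∀ᵐ x ∂μ, x ∉ A := by
  have hm : MeasurableSet {p : E × ℝ | p.1 + p.2 • w ∉ A} :=
    hA.compl.preimage (by fun_prop : Continuous fun p : E × ℝ => p.1 + p.2 • w).measurable
  have h2 := (Measure.ae_ae_comm (p := fun (x : E) (t : ℝ) => x + t • w ∉ A) hm).1 h
  have hne : (ae (volume.restrict (Ioc (0 : ℝ) 1))).NeBot := by
    rw [ae_restrict_neBot, Real.volume_Ioc]
    simp
  obtain ⟨t, ht⟩ := h2.exists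
  have h3 := (measurePreserving_sub_right μ (t • w)).quasiMeasurePreserving.ae ht
  filter_upwards [h3] with y hy
  simpa using hy

/-- The derivative along a segment, in terms of the direction `v`. -/
theorem hasDerivAt_scale {u : E → ℝ} {x v : E} {c t d : ℝ} (hc : 0 < c)
    (h : HasDerivAt (fun s : ℝ => u (x + s • (c • v))) (c * d) t) :
    HasDerivAt (fun s : ℝ => u ((x + t • (c • v)) + s • v)) d 0 := by
  have h1 : HasDerivAt (fun s : ℝ => t + s / c) (1 / c) 0 := by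
    have := ((hasDerivAt_id (0 : ℝ)).div_const c).const_add t
    simpa using this
  have h2 : HasDerivAt (fun s : ℝ => u (x + s • (c • v))) (c * d) (t + 0 / c) := by
    simpa using h
  have h3 := HasDerivAt.comp (h₂ := fun s : ℝ => u (x + s • (c • v)))
    (h := fun s : ℝ => t + s / c) 0 h2 h1
  have h4 : (fun s : ℝ => u (x + s • (c • v))) ∘ (fun s : ℝ => t + s / c)
      = fun s : ℝ => u ((x + t • (c • v)) + s • v) := by
    funext s
    simp only [Function.comp_apply]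
    congr 1
    rw [add_smul, smul_smul (s / c), div_mul_cancel₀ _ hc.ne', add_assoc]
  rw [h4] at h3
  have h5 : c * d * (1 / c) = d := by field_simp
  rw [h5] at h3
  exact h3

theorem weakDir_smul {Ω : Set E} {f g : E → ℝ} {v : E} (hw : WeakDir μ Ω f g v) (c : ℝ) :
    WeakDir μ Ω f (fun x => c * g x) (c • v) := by
  intro φ h1 h2 h3
  have h := hw φ h1 h2 h3
  simp only [map_smul, smul_eq_mul] at h ⊢
  have e1 : ∀ x, φ x * (c * g x) = c * (φ x * g x) := fun x => by ring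
  have e2 : ∀ x, c * fderiv ℝ φ x v * f x = c * (fderiv ℝ φ x v * f x) := fun x => by ring
  simp only [e1, e2, integral_const_mul, h]
  ring

theorem exists_ext {f : E → ℝ} {Ω : Set E}
    (hf : ContinuousOn f Ω) {x₀ : E} {R : ℝ} (hR : closedBall x₀ R ⊆ Ω) :
    ∃ f₁ : E → ℝ, Continuous f₁ ∧ ∀ x ∈ closedBall x₀ R, f₁ x = f x := by
  obtain ⟨F, hF⟩ := ContinuousMap.exists_restrict_eq (isClosed_closedBall (x := x₀) (ε := R))
    ⟨fun x => f x, continuousOn_iff_continuous_domRestrict.1 (hf.mono hR)⟩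
  refine ⟨F, F.continuous, fun x hx => ?_⟩
  exact DFunLike.congr_fun hF ⟨x, hx⟩

theorem eventually_seg {x₀ x v : E} {R : ℝ} (hx : x ∈ ball x₀ R) :
    ∀ᶠ t : ℝ in 𝓝 0, x + t • v ∈ ball x₀ R := by
  have hc : Continuous fun t : ℝ => x + t • v := by fun_prop
  have : (fun t : ℝ => x + t • v) 0 ∈ ball x₀ R := by simpa using hx
  exact hc.continuousAt.eventually_mem (isOpen_ball.mem_nhds this)

end Vale.Agent.P073.H989
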