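import Vale.Agent.P073.H333.ChoiceB
import Vale.Agent.P073.H989.LipComp
import Mathlib.MeasureTheory.Integral.IntervalIntegral.LebesgueDifferentiationThm
import Mathlib.Analysis.Calculus.LineDeriv.Measurable
import Mathlib.MeasureTheory.Measure.Haar.Disintegration

/-!
# P073, [P2g]: the line derivatives of a Sobolev function exist almost everywhere

No condition on the exponent: `f` is continuous with a locally integrable weak derivative `F`, and
at almost every point the derivative of `f` in the direction `w` exists and is `F x w`.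
-/

namespace Vale.Agent.P073.H989

open MeasureTheory Set Filter Topology Metric Vale.Agent.P073.St
open Vale.Agent.P073.HB (GoodSeg WeakDeriv ae_goodSeg_countable)
open scoped ENNReal

/-- on a good segment, the derivative along the segment exists at almost every parameter -/
theorem goodSeg_ae {f : V → V} {F : V → V →L[ℝ] V} {x w : V} (h : GoodSeg f F x w) :
    ∀ᵐ s : ℝ, s ∈ Ioo (0:ℝ) 1 → HasLineDerivAt ℝ f (F (x + s • w) w) (x + s • w) w := by
  filter_upwards [h.1.ae_hasDerivAt_integral] with s hs hs01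
  have hs' : s ∈ Icc (0:ℝ) 1 := Ioo_subset_Icc_self hs01
  have h1 := hs (by rw [uIcc_of_le zero_le_one]; exact hs') 0 left_mem_uIcc
  have h2 : HasDerivAt (fun u : ℝ => f (x + u • w)) (F (x + s • w) w) s := by
    have h3 : (fun u : ℝ => f (x + u • w)) =ᶠ[𝓝 s]
        fun u => f x + ∫ t in (0:ℝ)..u, F (x + t • w) w := by
      filter_upwards [isOpen_Ioo.mem_nhds hs01] with u hu
      exact h.2 u (Ioo_subset_Icc_self hu)
    exact (h1.const_add (f x)).congr_of_eventuallyEq h3
  show HasDerivAt (fun t : ℝ => f (x + s • w + t • w)) (F (x + s • w) w) 0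
  have h4 : HasDerivAt (fun u : ℝ => f (x + u • w)) (F (x + s • w) w) (s + 0) := by
    rwa [add_zero]
  have h5 := h4.comp_const_add s 0
  refine h5.congr_of_eventuallyEq (Eventually.of_forall fun t => ?_)
  show f (x + s • w + t • w) = f (x + (s + t) • w)
  rw [add_smul, add_assoc]

/-- almost every point of a ball well inside `Ω` -/
theorem ae_line_ball {Ω : Set V} {f : V → V} {F : V → V →L[ℝ] V} (hΩ : IsOpen Ω)
    (hf : ContinuousOn f Ω) (hFm : AEStronglyMeasurable F (volume.restrict Ω))
    (hF : LocallyIntegrableOn F Ω) (hw : WeakDeriv (volume : Measure V) Ω f F) {x₀ : V} {R : ℝ}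
    (hR : 0 < R) (hsub : closedBall x₀ (3 * R) ⊆ Ω) {w : V} (hwR : ‖w‖ ≤ R) :
    ∀ᵐ x ∂(volume : Measure V), x ∈ ball x₀ R → HasLineDerivAt ℝ f (F x w) x w := by
  -- a continuous extension
  obtain ⟨f₁', hf₁'⟩ := ContinuousMap.exists_restrict_eq (isClosed_closedBall (x := x₀) (ε := 3 * R))
    ⟨fun x : closedBall x₀ (3 * R) => f x, by
      exact continuousOn_iff_continuous_domRestrict.1 (hf.mono hsub)⟩
  set f₁ : V → V := fun x => f₁' x with hf₁
  have hc : Continuous f₁ := f₁'.continuous
  have he : ∀ x ∈ closedBall x₀ (3 * R), f₁ x = f x := fun x hx =>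
    DFunLike.congr_fun hf₁' ⟨x, hx⟩
  -- a measurable representative
  set G : V → V →L[ℝ] V := hFm.mk F with hG
  have hGm : StronglyMeasurable G := hFm.stronglyMeasurable_mk
  have hFG : ∀ᵐ x ∂(volume : Measure V), x ∈ Ω → F x = G x := by
    rw [← ae_restrict_iff' hΩ.measurableSet]
    exact hFm.ae_eq_mk
  have hball : ball x₀ R ⊆ Ω := fun x hx => hsub (by
    rw [mem_closedBall]
    rw [mem_ball] at hx
    linarith)
  -- the measurable set
  set S : Set V := (ball x₀ R)ᶜ ∪ ({x | LineDifferentiableAt ℝ f₁ x w} ∩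
    {x | lineDeriv ℝ f₁ x w = G x w}) with hS
  have hSm : MeasurableSet S := by
    refine measurableSet_ball.compl.union ((measurableSet_lineDifferentiableAt hc).inter ?_)
    exact measurableSet_eq_fun (measurable_lineDeriv hc)
      ((ContinuousLinearMap.apply ℝ V w).continuous.comp_stronglyMeasurable hGm).measurable
  -- transfer between `f₁` and `f`
  have htr : ∀ x ∈ ball x₀ R, ∀ y : V, (HasLineDerivAt ℝ f y x w ↔ HasLineDerivAt ℝ f₁ y x w) := by
    intro x hx y
    have h1 : (fun t : ℝ => f (x + t • w)) =ᶠ[𝓝 0] fun t => f₁ (x + t • w) := by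
      have hct : Continuous fun t : ℝ => x + t • w := by fun_prop
      have hx' : (fun t : ℝ => x + t • w) 0 ∈ ball x₀ R := by simpa using hx
      filter_upwards [hct.continuousAt.eventually_mem (isOpen_ball.mem_nhds hx')] with t ht
      refine (he _ ?_).symm
      rw [mem_closedBall]
      rw [mem_ball] at ht
      linarith
    exact ⟨fun h => HasDerivAt.congr_of_eventuallyEq h h1.symm,
      fun h => HasDerivAt.congr_of_eventuallyEq h h1⟩
  have hmem : ∀ᵐ y ∂(volume : Measure V), ∀ᵐ t : ℝ, y + LinearMap.toSpanSingleton ℝ V w t ∈ S := by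
    have h1 := ae_goodSeg_countable (μ := (volume : Measure V)) hΩ hf hF hw
      (fun i : ℤ => (i : ℝ) • w) (fun _ => w)
    obtain ⟨N, hNs, hNm, hN0⟩ := exists_measurable_superset_of_null (ae_iff.1 hFG)
    have h2 : ∀ᵐ y ∂(volume : Measure V), ∀ᵐ t : ℝ, y + LinearMap.toSpanSingleton ℝ V w t ∈ Nᶜ := by
      rw [ae_ae_add_linearMap_mem_iff (LinearMap.toSpanSingleton ℝ V w) (volume : Measure ℝ)
        (volume : Measure V) hNm.compl]
      exact measure_eq_zero_iff_ae_notMem.1 hN0
    filter_upwards [h1, h2] with y hy hyN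
    -- the derivative exists for almost every parameter
    have h3 : ∀ᵐ t : ℝ, ∀ i : ℤ, (∀ s ∈ Icc (0:ℝ) 1, y + (i:ℝ) • w + s • w ∈ Ω) →
        t - i ∈ Ioo (0:ℝ) 1 → HasLineDerivAt ℝ f (F (y + t • w) w) (y + t • w) w := by
      rw [ae_all_iff]
      intro i
      by_cases hi : ∀ s ∈ Icc (0:ℝ) 1, y + (i:ℝ) • w + s • w ∈ Ω
      · have h4 := goodSeg_ae (hy i hi)
        have h5 := (measurePreserving_sub_right (volume : Measure ℝ)
          (i:ℝ)).quasiMeasurePreserving.ae h4
        filter_upwards [h5] with t ht _ hti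
        have h6 := ht hti
        have h7 : y + (i:ℝ) • w + (t - i) • w = y + t • w := by
          rw [sub_smul]; abel
        rwa [h7] at h6
      · exact Eventually.of_forall fun t h => absurd h hi
    have h4 : ∀ᵐ t : ℝ, ∀ i : ℤ, t ≠ i := by
      rw [ae_all_iff]
      intro i
      simp [ae_iff, measure_singleton]
    filter_upwards [h3, hyN, h4] with t ht htN hti
    rw [LinearMap.toSpanSingleton_apply] at htN ⊢
    by_cases hb : y + t • w ∈ ball x₀ R
    · right
      have h5 : ∀ s ∈ Icc (0:ℝ) 1, y + (⌊t⌋:ℝ) • w + s • w ∈ Ω := by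
        intro s hs
        apply hsub
        rw [mem_closedBall, dist_eq_norm]
        have h6 : y + (⌊t⌋:ℝ) • w + s • w - x₀ = (y + t • w - x₀) + ((⌊t⌋:ℝ) + s - t) • w := by
          rw [sub_smul, add_smul]; abel
        have h7 : |(⌊t⌋:ℝ) + s - t| ≤ 1 := by
          have g1 := Int.floor_le t
          have g2 := Int.lt_floor_add_one t
          rw [abs_le]
          constructor <;> linarith [hs.1, hs.2]
        rw [h6]
        refine (norm_add_le _ _).trans ?_
        rw [mem_ball, dist_eq_norm] at hb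
        have h8 : ‖((⌊t⌋:ℝ) + s - t) • w‖ ≤ 1 * R := by
          rw [norm_smul, Real.norm_eq_abs]
          exact mul_le_mul h7 hwR (norm_nonneg _) zero_le_one
        linarith
      have h6 : t - ⌊t⌋ ∈ Ioo (0:ℝ) 1 := by
        have g1 := Int.floor_le t
        have g2 := Int.lt_floor_add_one t
        have g3 := hti ⌊t⌋
        refine ⟨?_, by linarith⟩
        have : (⌊t⌋:ℝ) < t := lt_of_le_of_ne g1 (Ne.symm g3)
        linarith
      have h7 := ht ⌊t⌋ h5 h6
      have h8 := (htr _ hb _).1 h7
      refine ⟨h8.lineDifferentiableAt, ?_⟩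
      show lineDeriv ℝ f₁ (y + t • w) w = G (y + t • w) w
      rw [h8.lineDeriv]
      have h9 : F (y + t • w) = G (y + t • w) := by
        by_contra hcon
        exact htN (hNs fun h => hcon (h (hball hb)))
      rw [h9]
    · exact Or.inl hb
  have hS' := (ae_ae_add_linearMap_mem_iff (LinearMap.toSpanSingleton ℝ V w) (volume : Measure ℝ)
    (volume : Measure V) hSm).1 hmem
  filter_upwards [hS', hFG] with x hx hxG hxb
  rcases hx with hx | ⟨h1, h2⟩
  · exact absurd hxb hx
  · rw [htr x hxb, hxG (hball hxb), ← show lineDeriv ℝ f₁ x w = G x w from h2]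
    exact LineDifferentiableAt.hasLineDerivAt h1

/-- **the line derivative exists almost everywhere** -/
theorem ae_hasLineDerivAt {Ω : Set V} {f : V → V} {F : V → V →L[ℝ] V} (hΩ : IsOpen Ω)
    (hf : ContinuousOn f Ω) (hFm : AEStronglyMeasurable F (volume.restrict Ω))
    (hF : LocallyIntegrableOn F Ω) (hw : WeakDeriv (volume : Measure V) Ω f F) (w : V) :
    ∀ᵐ x ∂(volume : Measure V), x ∈ Ω → HasLineDerivAt ℝ f (F x w) x w := by
  -- the ball around every point
  have hball : ∀ x : V, ∃ r > 0, x ∈ Ω → ∀ᵐ y ∂(volume : Measure V), y ∈ ball x r →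
      HasLineDerivAt ℝ f (F y w) y w := by
    intro x
    by_cases hx : x ∈ Ω
    · obtain ⟨r, hr, hb⟩ := Metric.nhds_basis_closedBall.mem_iff.1 (hΩ.mem_nhds hx)
      refine ⟨r / 3, by positivity, fun _ => ?_⟩
      -- a small multiple of `w`
      obtain ⟨c, hc, hcw⟩ : ∃ c : ℝ, 0 < c ∧ ‖c • w‖ ≤ r / 3 := by
        refine ⟨r / 3 / (‖w‖ + 1), by positivity, ?_⟩
        rw [norm_smul, Real.norm_of_nonneg (by positivity), div_mul_eq_mul_div,
          div_le_iff₀ (by positivity)]
        have := norm_nonneg w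
        nlinarith [mul_nonneg (by positivity : (0:ℝ) ≤ r / 3) this]
      have h1 := ae_line_ball hΩ hf hFm hF hw (x₀ := x) (R := r / 3) (by positivity)
        (by rw [mul_div_cancel₀ r (by norm_num : (3:ℝ) ≠ 0)]; exact hb) hcw
      filter_upwards [h1] with y hy hyb
      have h2 := (hy hyb).smul c⁻¹
      rw [map_smul, smul_smul, smul_smul, inv_mul_cancel₀ hc.ne', one_smul, one_smul] at h2
      exact h2
    · exact ⟨1, one_pos, fun h => absurd h hx⟩
  choose r hr hr' using hball
  obtain ⟨s, hs, hsc, hsU⟩ := TopologicalSpace.countable_cover_nhdsWithin (s := Ω)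
    (f := fun x => ball x (r x)) fun x _ => mem_nhdsWithin_of_mem_nhds (ball_mem_nhds x (hr x))
  have h1 : ∀ᵐ y ∂(volume : Measure V), ∀ x ∈ s, y ∈ ball x (r x) →
      HasLineDerivAt ℝ f (F y w) y w := by
    rw [ae_ball_iff hsc]
    exact fun x hx => hr' x (hs hx)
  filter_upwards [h1] with y hy hyΩ
  obtain ⟨x, hx, hyx⟩ := mem_iUnion₂.1 (hsU hyΩ)
  exact hy x hx hyx

end Vale.Agent.P073.H989
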