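import Vale.Agent.P073.H333.NetInB

/-!
# P073, [P2g]: closeness on the own net

If `F` is close to the constant matrix `L` along the edges of generation `n + j` in the cube
`(n, z)`, in `L¹`, then `f` is close, on all these edges, to the affine map with linear part `L`
which agrees with `f` at the lowest corner of the cube. No exponent, no differentiability.
-/

namespace Vale.Agent.P073.H989

open MeasureTheory Set Filter Topology Metric Vale.Agent.P073.St Vale.Agent.P073.AB
open Vale.Agent.P073.SQ (ev)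
open _root_.P073.Net (dyc dyo)
open _root_.P073.Gauge (gam)
open _root_.P073.Gauge.C110
open _root_.P073.Gauge.O407 (jInt eInt_eq good_edge)
open scoped ENNReal

variable {v : V} {Ω : Set V} {f : V → V} {F : V → Mat}

/-- one edge -/
theorem edge_near (rat : RatGood v Ω f F) {e : Idx × Fin 3} (he : edge v e ⊆ Ω) (L : V →L[ℝ] V)
    {δ : ℝ} (hδ : 0 ≤ δ)
    (h : eInt v e (fun y => ENNReal.ofReal ‖cl (F y) (ev e.2) - L (ev e.2)‖) ≤ ENNReal.ofReal δ)
    {y : V} (hy : y ∈ edge v e) :
    ‖f y - f (pt v e.1.1 e.1.2) - L (y - pt v e.1.1 e.1.2)‖ ≤ δ := by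
  obtain ⟨t, ht, rfl⟩ := mem_edge_iff.1 hy
  set a : V := pt v e.1.1 e.1.2 with ha
  set w : V := (1 / 2 ^ e.1.1 : ℝ) • (ev e.2 : V) with hw
  have hp : (0:ℝ) < 1 / 2 ^ e.1.1 := by positivity
  obtain ⟨hi, hg⟩ := good_edge rat he
  rw [← ha, ← hw] at hi hg
  have hgam : gam v e t = a + t • w := rfl
  rw [hgam, hg t ht, add_sub_cancel_left, add_sub_cancel_left, map_smul]
  have h1 : ∫ s in (0:ℝ)..t, (cl (F (a + s • w)) w - L w) =
      (∫ s in (0:ℝ)..t, cl (F (a + s • w)) w) - t • L w := by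
    rw [intervalIntegral.integral_sub, intervalIntegral.integral_const, sub_zero]
    · exact hi.mono_set (by
        rw [uIcc_of_le ht.1, uIcc_of_le zero_le_one]
        exact Icc_subset_Icc_right ht.2)
    · exact intervalIntegrable_const
  rw [← h1]
  have h2 : ∀ s : ℝ, ‖cl (F (a + s • w)) w - L w‖ₑ =
      ENNReal.ofReal (1 / 2 ^ e.1.1) *
        ENNReal.ofReal ‖cl (F (a + s • w)) (ev e.2) - L (ev e.2)‖ := by
    intro s
    rw [← ENNReal.ofReal_mul hp.le, ← ofReal_norm]
    congr 1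
    rw [hw, map_smul, map_smul, ← smul_sub, norm_smul, Real.norm_of_nonneg hp.le]
  have h3 : ‖∫ s in (0:ℝ)..t, (cl (F (a + s • w)) w - L w)‖ₑ ≤ ENNReal.ofReal δ := by
    rw [intervalIntegral.integral_of_le ht.1]
    refine (enorm_integral_le_lintegral_enorm _).trans ?_
    refine le_trans ?_ h
    calc ∫⁻ s in Ioc 0 t, ‖cl (F (a + s • w)) w - L w‖ₑ
        ≤ ∫⁻ s in Icc (0:ℝ) 1, ‖cl (F (a + s • w)) w - L w‖ₑ :=
          lintegral_mono_set fun s hs => ⟨hs.1.le, hs.2.trans ht.2⟩
      _ = ∫⁻ s in Icc (0:ℝ) 1, ENNReal.ofReal (1 / 2 ^ e.1.1) *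
        ENNReal.ofReal ‖cl (F (a + s • w)) (ev e.2) - L (ev e.2)‖ := lintegral_congr fun s => h2 s
      _ = _ := by
        rw [lintegral_const_mul' _ _ ENNReal.ofReal_ne_top]
        rfl
  rw [← ofReal_norm, ENNReal.ofReal_le_ofReal_iff hδ] at h3
  exact h3

/-- the lattice points of generation `n + j` in the cube -/
theorem vertex_near (rat : RatGood v Ω f F) {n j : ℕ} {z : Fin 3 → ℤ} (hΩ : dyc v n z ⊆ Ω)
    (L : V →L[ℝ] V) {δ : ℝ} (hδ : 0 ≤ δ)
    (own : ∀ e : Idx × Fin 3, e.1.1 = n + j → edge v e ⊆ dyc v n z →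
      eInt v e (fun y => ENNReal.ofReal ‖cl (F y) (ev e.2) - L (ev e.2)‖) ≤ ENNReal.ofReal δ) :
    ∀ (s : ℕ) (a : Fin 3 → ℤ), (∀ k, 2 ^ j * z k ≤ a k ∧ a k ≤ 2 ^ j * (z k + 1)) →
      (∑ k, (a k - 2 ^ j * z k)).toNat = s →
      ‖f (pt v (n + j) a) - f (pt v n z) - L (pt v (n + j) a - pt v n z)‖ ≤ s * δ := by
  have hpn : (0:ℝ) < 2 ^ n := by positivity
  have hpj : (0:ℝ) < 2 ^ j := by positivity
  have hmem : ∀ a : Fin 3 → ℤ, (∀ k, 2 ^ j * z k ≤ a k ∧ a k ≤ 2 ^ j * (z k + 1)) →
      pt v (n + j) a ∈ dyc v n z := by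
    intro a ha k
    obtain ⟨h1, h2⟩ := ha k
    have h1' : (2:ℝ) ^ j * z k ≤ a k := by exact_mod_cast h1
    have h2' : (a k : ℝ) ≤ 2 ^ j * (z k + 1) := by exact_mod_cast h2
    simp only [pt]
    constructor
    · rw [add_le_add_iff_left, div_le_div_iff₀ hpn (by positivity), pow_add]
      nlinarith
    · rw [add_le_add_iff_left, div_le_div_iff₀ (by positivity) hpn, pow_add]
      nlinarith
  intro s
  induction s with
  | zero =>
    intro a ha hs
    have h0 : ∀ k, a k = 2 ^ j * z k := by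
      have h1 : ∑ k, (a k - 2 ^ j * z k) ≤ 0 := by
        rw [Int.toNat_eq_zero] at hs
        exact hs
      have h2 : ∀ k ∈ Finset.univ, 0 ≤ a k - 2 ^ j * z k := fun k _ => by
        have := (ha k).1
        omega
      have h3 : ∑ k, (a k - 2 ^ j * z k) = 0 := le_antisymm h1 (Finset.sum_nonneg h2)
      rw [Finset.sum_eq_zero_iff_of_nonneg h2] at h3
      intro k
      have := h3 k (Finset.mem_univ k)
      omega
    have h1 : pt v (n + j) a = pt v n z := by
      funext k
      simp only [pt]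
      rw [h0 k, pow_add]
      push_cast
      field_simp
    rw [h1, sub_self, sub_self, map_zero, sub_self, norm_zero]
    simp
  | succ s ih =>
    intro a ha hs
    have hpos : ∃ k, 2 ^ j * z k < a k := by
      by_contra hcon
      push Not at hcon
      have h1 : ∑ k, (a k - 2 ^ j * z k) ≤ 0 := Finset.sum_nonpos fun k _ => by
        have := hcon k
        omega
      rw [Int.toNat_of_nonpos h1] at hs
      omega
    obtain ⟨k, hk⟩ := hpos
    set b : Fin 3 → ℤ := Function.update a k (a k - 1) with hb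
    have hbk : b k = a k - 1 := by rw [hb, Function.update_self]
    have hbk' : ∀ i, i ≠ k → b i = a i := fun i hi => by rw [hb, Function.update_of_ne hi]
    have hbr : ∀ i, 2 ^ j * z i ≤ b i ∧ b i ≤ 2 ^ j * (z i + 1) := by
      intro i
      by_cases hi : i = k
      · subst hi
        rw [hbk]
        have := ha i
        constructor <;> linarith [this.2]
      · rw [hbk' i hi]
        exact ha i
    have hsum : ∑ i, (a i - 2 ^ j * z i) = ∑ i, (b i - 2 ^ j * z i) + 1 := by
      rw [← Finset.add_sum_erase _ _ (Finset.mem_univ k),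
        ← Finset.add_sum_erase Finset.univ (fun i => b i - 2 ^ j * z i) (Finset.mem_univ k)]
      have h1 : ∑ i ∈ Finset.univ.erase k, (a i - 2 ^ j * z i) =
          ∑ i ∈ Finset.univ.erase k, (b i - 2 ^ j * z i) :=
        Finset.sum_congr rfl fun i hi => by rw [hbk' i (Finset.ne_of_mem_erase hi)]
      rw [h1]
      simp only [hbk]
      ring
    have hbs : (∑ i, (b i - 2 ^ j * z i)).toNat = s := by
      have h1 : 0 ≤ ∑ i, (b i - 2 ^ j * z i) := Finset.sum_nonneg fun i _ => by
        have := (hbr i).1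
        omega
      rw [hsum] at hs
      omega
    have h1 := ih b hbr hbs
    -- the edge from `b` to `a`
    set e : Idx × Fin 3 := ((n + j, b), k) with he
    have hea : pt v (n + j) a = pt v (n + j) b + (1 / 2 ^ (n + j) : ℝ) • (ev k : V) := by
      funext i
      simp only [pt, Pi.add_apply, Pi.smul_apply, smul_eq_mul]
      by_cases hi : i = k
      · subst hi
        rw [hbk]
        simp only [ev, Pi.single_eq_same]
        push_cast
        ring
      · rw [hbk' i hi]
        simp [ev, hi]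
    have hesub : edge v e ⊆ dyc v n z := by
      have h2 := hmem b hbr
      have h3 := hmem a ha
      have hconv : Convex ℝ (dyc v n z) := by
        intro x hx y hy α β hα hβ hαβ i
        have g1 := hx i
        have g2 := hy i
        have hβ' : β = 1 - α := by linarith
        subst hβ'
        simp only [Pi.add_apply, Pi.smul_apply, smul_eq_mul]
        constructor <;> nlinarith [g1.1, g1.2, g2.1, g2.2]
      rw [hea] at h3
      exact hconv.segment_subset h2 h3
    have h2 : pt v (n + j) a ∈ edge v e := by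
      rw [hea]
      exact right_mem_segment ℝ _ _
    have h3 := edge_near rat (hesub.trans hΩ) L hδ (own e rfl hesub) h2
    have h4 : f (pt v (n + j) a) - f (pt v n z) - L (pt v (n + j) a - pt v n z) =
        (f (pt v (n + j) a) - f (pt v (n + j) b) - L (pt v (n + j) a - pt v (n + j) b)) +
        (f (pt v (n + j) b) - f (pt v n z) - L (pt v (n + j) b - pt v n z)) := by
      simp only [map_sub]
      abel
    rw [h4]
    refine (norm_add_le _ _).trans ?_
    have h5 : ‖f (pt v (n + j) a) - f (pt v (n + j) b) -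
        L (pt v (n + j) a - pt v (n + j) b)‖ ≤ δ := h3
    push_cast
    linarith

/-- **closeness on the own net** -/
theorem net_near (rat : RatGood v Ω f F) {n j : ℕ} {z : Fin 3 → ℤ} (hΩ : dyc v n z ⊆ Ω)
    (L : V →L[ℝ] V) {δ : ℝ} (hδ : 0 ≤ δ)
    (own : ∀ e : Idx × Fin 3, e.1.1 = n + j → edge v e ⊆ dyc v n z →
      eInt v e (fun y => ENNReal.ofReal ‖cl (F y) (ev e.2) - L (ev e.2)‖) ≤ ENNReal.ofReal δ)
    {e : Idx × Fin 3} (he : e.1.1 = n + j) (hes : edge v e ⊆ dyc v n z) {y : V}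
    (hy : y ∈ edge v e) :
    ‖f y - f (pt v n z) - L (y - pt v n z)‖ ≤ (3 * 2 ^ j + 1) * δ := by
  have hpn : (0:ℝ) < 2 ^ n := by positivity
  have hpj : (0:ℝ) < 2 ^ j := by positivity
  have h1 := edge_near rat (hes.trans hΩ) L hδ (own e he hes) hy
  have hr : ∀ k, 2 ^ j * z k ≤ e.1.2 k ∧ e.1.2 k ≤ 2 ^ j * (z k + 1) := by
    intro k
    have h2 : v k + (z k : ℝ) / 2 ^ n ≤ v k + (e.1.2 k : ℝ) / 2 ^ e.1.1 ∧
        v k + (e.1.2 k : ℝ) / 2 ^ e.1.1 ≤ v k + ((z k : ℝ) + 1) / 2 ^ n :=
      hes (left_mem_segment ℝ _ _) k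
    rw [he, pow_add] at h2
    have h3 := (add_le_add_iff_left (v k)).1 h2.1
    have h4 := (add_le_add_iff_left (v k)).1 h2.2
    rw [div_le_div_iff₀ hpn (by positivity)] at h3
    rw [div_le_div_iff₀ (by positivity) hpn] at h4
    have h5 : (2:ℝ) ^ j * z k ≤ e.1.2 k := by nlinarith
    have h6 : (e.1.2 k : ℝ) ≤ 2 ^ j * (z k + 1) := by nlinarith
    exact ⟨by exact_mod_cast h5, by exact_mod_cast h6⟩
  have h2 := vertex_near rat hΩ L hδ own _ e.1.2 hr rfl
  have hs : (((∑ k, (e.1.2 k - 2 ^ j * z k)).toNat : ℕ) : ℝ) ≤ 3 * 2 ^ j := by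
    have h3 : ∑ k, (e.1.2 k - 2 ^ j * z k) ≤ 3 * 2 ^ j := by
      calc ∑ k, (e.1.2 k - 2 ^ j * z k) ≤ ∑ _k : Fin 3, (2:ℤ) ^ j :=
            Finset.sum_le_sum fun k _ => by
              have := (hr k).2
              linarith
        _ = 3 * 2 ^ j := by simp
    have h4 : ((∑ k, (e.1.2 k - 2 ^ j * z k)).toNat : ℤ) ≤ 3 * 2 ^ j := by
      rw [Int.toNat_of_nonneg (Finset.sum_nonneg fun k _ => by
        have := (hr k).1
        omega)]
      exact h3
    exact_mod_cast h4
  rw [← he] at h2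
  have h4 : f y - f (pt v n z) - L (y - pt v n z) =
      (f y - f (pt v e.1.1 e.1.2) - L (y - pt v e.1.1 e.1.2)) +
      (f (pt v e.1.1 e.1.2) - f (pt v n z) - L (pt v e.1.1 e.1.2 - pt v n z)) := by
    simp only [map_sub]
    abel
  rw [h4]
  refine (norm_add_le _ _).trans ?_
  have h5 : (((∑ k, (e.1.2 k - 2 ^ j * z k)).toNat : ℕ) : ℝ) * δ ≤ 3 * 2 ^ j * δ :=
    mul_le_mul_of_nonneg_right hs hδ
  linarith

end Vale.Agent.P073.H989
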