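import Vale.Agent.P073.H989.P2Asm

/-!
# P073, [P2g]: existence of `H234.P2Cells`
-/

namespace Vale.Agent.P073.H989

open MeasureTheory Set Filter Topology Metric Vale.Agent.P073.St Vale.Agent.P073.AB
open Vale.Agent.P073.SQ (ev)
open _root_.P073.Net (dyc dyo)
open Vale.Agent.P073.H79 (EdgeLeb)
open Vale.Agent.P073.H194 (idx sInt)
open Vale.Agent.P073.H333 (idx_mem tendsto_pow_half exists_infDist dyc_near lintegral_pert
  sum_volume_le exists_round)
open scoped ENNReal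

variable {p : ℝ} {Ω Λ : Set V} {f : V → V} {F : V → Mat}

/-- rounding of the affine map `y ↦ f x + F x (y - x)` -/
theorem exists_rounded (L : V →L[ℝ] V) (x y₀ v : V) {τ : ℝ} (hτ : 0 < τ) :
    ∃ N₀ : ℕ, ∀ N ≥ N₀, ∃ (A' : V → V) (L' : V →L[ℝ] V), (∀ x y, A' y - A' x = L' (y - x)) ∧
      (∀ w, ‖L' w - L w‖ ≤ τ * ‖w‖) ∧
      (∀ y, ‖y - x‖ ≤ 5 → ‖y₀ + L (y - x) - A' y‖ ≤ τ) ∧
      (∀ i j, ∃ a : ℤ, L' (ev j) i = a / 2 ^ N) ∧ ∀ i, ∃ b : ℤ, A' v i = b / 2 ^ N := by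
  obtain ⟨N₀, hN₀⟩ : ∃ N₀ : ℕ, ∀ N ≥ N₀, (16 / 2 ^ N : ℝ) ≤ τ := by
    have h1 : Tendsto (fun N : ℕ => (16 * (1 / 2) ^ N : ℝ)) atTop (𝓝 (16 * 0)) :=
      (tendsto_pow_atTop_nhds_zero_of_lt_one (by norm_num) (by norm_num)).const_mul 16
    rw [mul_zero] at h1
    obtain ⟨N₀, hN⟩ := eventually_atTop.1 (h1.eventually_lt_const hτ)
    refine ⟨N₀, fun N hN' => ?_⟩
    have := hN N hN'
    rw [one_div_pow] at this
    rw [div_eq_mul_one_div]
    exact this.le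
  refine ⟨N₀, fun N hN => ?_⟩
  have h16 := hN₀ N hN
  have hN1 : (0:ℝ) < 1 / 2 ^ N := by positivity
  have e3 : (3:ℝ) / 2 ^ N = 3 * (1 / 2 ^ N) := by ring
  have e16 : (16:ℝ) / 2 ^ N = 16 * (1 / 2 ^ N) := by ring
  rw [e16] at h16
  obtain ⟨A', L', haff, hpert, hbase, hdL, hdA⟩ := exists_round N L x y₀ v
  refine ⟨A', L', haff, fun w => (hpert w).trans ?_, fun y hy => ?_, hdL, hdA⟩
  · refine mul_le_mul_of_nonneg_right ?_ (norm_nonneg _)
    rw [e3]; linarith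
  · have h1 : A' y = A' x + L' (y - x) := by
      rw [← haff x y]; abel
    have h2 : y₀ + L (y - x) - A' y = -(A' x - y₀) - (L' (y - x) - L (y - x)) := by
      rw [h1]; abel
    rw [h2]
    refine (norm_sub_le _ _).trans ?_
    rw [norm_neg]
    have h3 := hpert (y - x)
    have h4 : (3 / 2 ^ N : ℝ) * ‖y - x‖ ≤ 3 / 2 ^ N * 5 :=
      mul_le_mul_of_nonneg_left hy (by positivity)
    have h5 : (3 / 2 ^ N : ℝ) * 5 = 15 * (1 / 2 ^ N) := by ring
    linarith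

/-- **(P2g)** the big good cubes exist: any exponent `p ≥ 1`; the energy outside of the cubes is
controlled by the energy outside of `T`; `Q` is a free predicate. -/
theorem exists_p2cells (hp1 : 1 ≤ p) (hΩ : St.IsBoundedDomain Ω) (hΛ : St.IsBoundedDomain Λ)
    (hf : St.IsHomeo Ω Λ f) (hF : St.IsSobolev p Ω f F) {θ M : ℝ} (hθ : 0 < θ) (hM : 0 < M)
    {T : Set V} (hT : GoodT p θ M Ω Λ f F T) {ε : ℝ≥0∞} (hε : ε ≠ 0) :
    ∃ c₀ > 0, ∀ (κ t₀ δ₀ : ℝ) (j : ℕ) (v : V) (nn : ℕ → ℕ) (Q : ℕ → V → Prop), 0 < κ → 0 < t₀ →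
      0 < δ₀ → StrictMono nn →
      (∀ᵐ x, EdgeLeb v nn (Ω.indicator fun x => cl (F x)) x) →
      (∀ᵐ x ∂(volume : Measure V), ∀ δ : ℝ≥0∞, δ ≠ 0 → ∀ᶠ l in atTop, ∀ s : Idx × Fin 3,
        s.1.1 = nn l + j → squ v s ⊆ dyc v (nn l) (idx v (nn l) x) →
        sInt v s (fun y => ‖Ω.indicator (fun x => cl (F x)) y -
          Ω.indicator (fun x => cl (F x)) x‖ₑ ^ (2:ℝ)) ≤
          δ * ENNReal.ofReal ((1 / 2 ^ nn l) ^ 2)) →
      (∀ᵐ x ∂(volume : Measure V), x ∈ T → ∀ᶠ l in atTop, ∀ a : Fin 3 → ℤ,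
        pt v (nn l + j) a ∈ dyc v (nn l) (idx v (nn l) x) → pt v (nn l + j) a ∈ T) →
      (∀ᵐ x ∂(volume : Measure V), x ∈ T → ∀ᶠ l in atTop, Q l x) →
      ∀ᶠ l in atTop, ∃ P : H234.P2Cells p ((∫⁻ y in Ω \ T, ‖cl (F y)‖ₑ ^ p) + ε) (θ / 2) (M + θ)
        κ c₀ t₀ δ₀ j Ω Λ f F T v (nn l), ∀ z ∈ P.J, ∃ x ∈ T, idx v (nn l) x = z ∧ Q l x := by
  classical
  have hv := PK.volume_ne_top_of_domain hΩ
  have hb := PK.isBounded_of_domain hΩ
  have hbΛ := PK.isBounded_of_domain hΛ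
  have hfc : ContinuousOn f Ω := by obtain ⟨g, -, h, -⟩ := hf; exact h
  have hmaps : ∀ x ∈ Ω, f x ∈ Λ := by
    obtain ⟨g, h, -, -⟩ := hf
    exact fun x hx => (h.1 x hx).1
  obtain ⟨d₁, hd₁, hd₁'⟩ := exists_infDist hΩ.1 hb hT.sub hT.comp
  obtain ⟨d₂, hd₂, hd₂'⟩ := exists_infDist (K := f '' T) hΛ.1 hbΛ
    (by rintro _ ⟨x, hx, rfl⟩; exact hmaps x (hT.sub hx))
    (hT.comp.image_of_continuousOn (hfc.mono hT.sub))
  set c₀ : ℝ := min d₁ d₂ / 4 with hc₀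
  have hc₀0 : 0 < c₀ := by
    have := lt_min hd₁ hd₂
    positivity
  have hc₁ : 4 * c₀ ≤ d₁ := by rw [hc₀]; linarith [min_le_left d₁ d₂]
  have hc₂ : 4 * c₀ ≤ d₂ := by rw [hc₀]; linarith [min_le_right d₁ d₂]
  refine ⟨c₀, hc₀0, ?_⟩
  intro κ t₀ δ₀ j v nn Q hκ ht₀ hδ₀ hnn hE hS hV hQ
  -- the tolerances
  obtain ⟨t, ht0, ht⟩ := H73.exists_small (c := 2 ^ (p - 1) * 2 * volume Ω)
    (ENNReal.mul_ne_top (ENNReal.mul_ne_top H880.two_rpow_ne_top (by norm_num)) hv) hε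
  set τ : ℝ := min (min (κ / 4) (θ / 4)) (min t 1) with hτ
  have hτ0 : 0 < τ := lt_min (lt_min (by positivity) (by positivity)) (lt_min ht0 one_pos)
  have hτκ : τ ≤ κ / 4 := (min_le_left _ _).trans (min_le_left _ _)
  have hτθ : τ ≤ θ / 4 := (min_le_left _ _).trans (min_le_right _ _)
  have hτt : τ ≤ t := (min_le_right _ _).trans (min_le_left _ _)
  have hτ1 : τ ≤ 1 := (min_le_right _ _).trans (min_le_right _ _)
  have hj0 : (0:ℝ) < 2 ^ j := by positivity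
  set η : ℝ := min (κ / 4 / 2 ^ j) (min (t / 64) 1) with hη
  have hη0 : 0 < η := lt_min (by positivity) (lt_min (by positivity) one_pos)
  have hηκ : η ≤ κ / 4 / 2 ^ j := min_le_left _ _
  have hηt : η ≤ t / 64 := (min_le_right _ _).trans (min_le_left _ _)
  have hη1 : η ≤ 1 := (min_le_right _ _).trans (min_le_right _ _)
  have hηκ' : η ≤ κ / 4 := by
    refine hηκ.trans (div_le_self (by positivity) ?_)
    exact one_le_pow₀ (by norm_num)
  obtain ⟨δ, hδ, hδ'⟩ := hT.unif η hη0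
  obtain ⟨δ', hδ0', hosc⟩ := hT.osc c₀ hc₀0
  -- the pointwise data
  have hpt : ∀ᵐ x ∂(volume : Measure V), x ∈ T → ∀ᶠ l in atTop,
      P2Pt F T (κ / 4) j v (nn l) (idx v (nn l) x) x ∧ Q l x := by
    filter_upwards [hE, hS, hV, hQ] with x h1 h2 h3 h4 hxT
    have hxΩ := hT.sub hxT
    have hj4 : (0:ℝ) < 4 ^ j := by positivity
    filter_upwards [h1.own hΩ.1 hxΩ hnn j (κ := κ / 4) (by positivity),
      h2 (ENNReal.ofReal (κ / 4 / 4 ^ j)) (by
        rw [Ne, ENNReal.ofReal_eq_zero, not_le]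
        positivity), h3 hxT, h4 hxT] with l g1 g2 g3 g4
    refine ⟨⟨hxT, idx_mem v (nn l) x, g3, g1.2, fun s hs hss => ?_⟩, g4⟩
    have g5 := g2 s hs hss
    have g6 : sInt v s (fun y => ‖cl (F y) - cl (F x)‖ₑ ^ (2:ℝ)) =
        sInt v s (fun y => ‖Ω.indicator (fun x => cl (F x)) y -
          Ω.indicator (fun x => cl (F x)) x‖ₑ ^ (2:ℝ)) := by
      unfold sInt
      congr 1
      refine setLIntegral_congr_fun (H333.isClosed_dycB _ _ _).measurableSet fun y hy => ?_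
      have h5 : Function.update y s.2 (pt v s.1.1 s.1.2 s.2) ∈ squ v s := by
        refine ⟨?_, fun k hk => ?_⟩
        · rw [Function.update_self]; rfl
        · rw [Function.update_of_ne hk]
          exact hy k
      have h6 := g1.1 (hss h5)
      show ‖cl (F (Function.update y s.2 (pt v s.1.1 s.1.2 s.2))) - cl (F x)‖ₑ ^ (2:ℝ) =
        ‖Ω.indicator (fun x => cl (F x)) (Function.update y s.2 (pt v s.1.1 s.1.2 s.2)) -
          Ω.indicator (fun x => cl (F x)) x‖ₑ ^ (2:ℝ)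
      rw [indicator_of_mem h6, indicator_of_mem hxΩ]
    rw [g6]
    refine g5.trans (le_of_eq ?_)
    rw [← ENNReal.ofReal_mul (by positivity)]
    congr 1
    rw [pow_add]
    have : (4:ℝ) ^ nn l = 2 ^ nn l * 2 ^ nn l := by
      rw [← mul_pow]; norm_num
    rw [this]
    field_simp
  have hev := choice_on hp1 hF hT.comp hε v nn _ hpt
  have h0 := tendsto_pow_half hnn
  have hc1 : ∀ᶠ l in atTop, (4 : ℝ) / 2 ^ nn l ≤ t₀ ∧ 64 * ((M + θ) + 1) / 2 ^ nn l ≤ δ₀ ∧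
      (8 : ℝ) / 2 ^ nn l < δ ∧ (5 : ℝ) / 2 ^ nn l ≤ δ' ∧ (5 + 5 * M) / 2 ^ nn l ≤ c₀ := by
    have key : ∀ a b : ℝ, 0 < b → ∀ᶠ l in atTop, a / 2 ^ nn l < b := by
      intro a b hb
      have h1 := h0.const_mul a
      rw [mul_zero] at h1
      filter_upwards [h1.eventually_lt_const hb] with l hl
      rwa [mul_one_div] at hl
    filter_upwards [key 4 t₀ ht₀, key (64 * ((M + θ) + 1)) δ₀ hδ₀, key 8 δ hδ, key 5 δ' hδ0',
      key (5 + 5 * M) c₀ hc₀0] with l h1 h2 h3 h4 h5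
    exact ⟨h1.le, h2.le, h3, h4.le, h5.le⟩
  filter_upwards [hev, hc1] with l hl hc
  obtain ⟨Z, x, hZ, hZs⟩ := hl
  obtain ⟨k1, k2, k3, k4, k5⟩ := hc
  set m := nn l with hm
  have hm0 : (0:ℝ) < 1 / 2 ^ m := by positivity
  have hm1 : (1 / 2 ^ m : ℝ) ≤ 1 := by
    rw [div_le_one (by positivity)]; exact one_le_pow₀ (by norm_num)
  have hmj : (0:ℝ) < 2 ^ (m + j) := by positivity
  have hmj0 : (0:ℝ) < 1 / 2 ^ (m + j) := by positivity
  have hmj1 : (1 / 2 ^ (m + j) : ℝ) ≤ 1 := by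
    rw [div_le_one (by positivity)]; exact one_le_pow₀ (by norm_num)
  have hmj2 : (1 / 2 ^ m : ℝ) = 2 ^ j * (1 / 2 ^ (m + j)) := by
    rw [pow_add]; field_simp
  have hd5 : (5:ℝ) / 2 ^ m = 5 * (1 / 2 ^ m) := by ring
  have hd8 : (8:ℝ) / 2 ^ m = 8 * (1 / 2 ^ m) := by ring
  have hd4 : (4:ℝ) / 2 ^ m = 4 * (1 / 2 ^ m) := by ring
  have hdM : (5 + 5 * M) / 2 ^ m = 5 * (1 / 2 ^ m) + 5 * M * (1 / 2 ^ m) := by ring
  rw [hd8] at k3
  rw [hdM] at k5
  rw [hd5] at k4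
  -- the rounding
  have hr : ∀ z, ∃ N₀ : ℕ, ∀ N ≥ N₀, ∃ (A' : V → V) (L' : V →L[ℝ] V),
      (∀ x y, A' y - A' x = L' (y - x)) ∧
      (∀ w, ‖L' w - cl (F (x z)) w‖ ≤ (τ * (1 / 2 ^ (m + j))) * ‖w‖) ∧
      (∀ y, ‖y - x z‖ ≤ 5 → ‖f (x z) + cl (F (x z)) (y - x z) - A' y‖ ≤ τ * (1 / 2 ^ (m + j))) ∧
      (∀ i j, ∃ a : ℤ, L' (ev j) i = a / 2 ^ N) ∧ ∀ i, ∃ b : ℤ, A' v i = b / 2 ^ N := fun z =>
    exists_rounded _ _ _ _ (by positivity)
  choose N₀ hN₀ using hr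
  set N := Z.sup N₀ with hN
  have hr2 : ∀ z, ∃ (A' : V → V) (L' : V →L[ℝ] V), z ∈ Z →
      (∀ x y, A' y - A' x = L' (y - x)) ∧
      (∀ w, ‖L' w - cl (F (x z)) w‖ ≤ (τ * (1 / 2 ^ (m + j))) * ‖w‖) ∧
      (∀ y, ‖y - x z‖ ≤ 5 → ‖f (x z) + cl (F (x z)) (y - x z) - A' y‖ ≤ τ * (1 / 2 ^ (m + j))) ∧
      (∀ i j, ∃ a : ℤ, L' (ev j) i = a / 2 ^ N) ∧ ∀ i, ∃ b : ℤ, A' v i = b / 2 ^ N := by
    intro z
    by_cases hz : z ∈ Z
    · obtain ⟨A', L', h⟩ := hN₀ z N (Finset.le_sup hz)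
      exact ⟨A', L', fun _ => h⟩
    · exact ⟨fun _ => 0, 0, fun h => absurd h hz⟩
  choose A L hAL using hr2
  have hτs : τ * (1 / 2 ^ (m + j)) ≤ τ := mul_le_of_le_one_right hτ0.le hmj1
  have hpert : ∀ z ∈ Z, ∀ w, ‖L z w - cl (F (x z)) w‖ ≤ τ * ‖w‖ := fun z hz w =>
    ((hAL z hz).2.1 w).trans (mul_le_mul_of_nonneg_right hτs (norm_nonneg _))
  have hpertn : ∀ z ∈ Z, ‖cl (F (x z)) - L z‖ ≤ τ := by
    intro z hz
    refine ContinuousLinearMap.opNorm_le_bound _ hτ0.le fun w => ?_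
    rw [_root_.sub_apply, norm_sub_rev]
    exact hpert z hz w
  have hxT : ∀ z ∈ Z, x z ∈ T := fun z hz => (hZ z hz).1
  have hPt : ∀ z ∈ Z, P2Pt F T (κ / 4) j v m z (x z) := by
    intro z hz
    have h1 := (hZ z hz).2.2.1
    rwa [(hZ z hz).2.1] at h1
  have hcell : ∀ z ∈ Z, ∀ y ∈ dyc v m z, ‖y - x z‖ ≤ 1 / 2 ^ m := fun z hz y hy =>
    dyc_near (hPt z hz).memz hy
  refine ⟨{
    J := Z
    A := A
    L := L
    aff := fun z hz => (hAL z hz).1
    below := fun z hz w => ?_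
    above := fun z hz w => ?_
    dyad := ⟨N, fun z hz => (hAL z hz).2.2.2⟩
    vert := fun z hz a ha => ?_
    edge := fun z hz e he hes => ?_
    square := fun z hz s hs hss => ?_
    small := k1
    fine := k2
    dist := fun z hz y hy => ?_
    s1 := ?_
    s2 := hZs }, fun z hz => ⟨x z, hxT z hz, (hZ z hz).2.1, (hZ z hz).2.2.2⟩⟩
  · have h1 := hT.low _ (hxT z hz) w
    have h2 := hpert z hz w
    have h3 : ‖cl (F (x z)) w‖ ≤ ‖L z w‖ + ‖L z w - cl (F (x z)) w‖ := by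
      have : cl (F (x z)) w = L z w - (L z w - cl (F (x z)) w) := by abel
      calc ‖cl (F (x z)) w‖ = ‖L z w - (L z w - cl (F (x z)) w)‖ := by rw [← this]
        _ ≤ _ := norm_sub_le _ _
    have h4 : τ * ‖w‖ ≤ θ / 4 * ‖w‖ := mul_le_mul_of_nonneg_right hτθ (norm_nonneg _)
    have h5 : 0 ≤ θ * ‖w‖ := mul_nonneg hθ.le (norm_nonneg _)
    linarith
  · have h1 := hT.upp _ (hxT z hz) w
    have h2 := hpert z hz w
    have h3 : ‖L z w‖ ≤ ‖cl (F (x z)) w‖ + ‖L z w - cl (F (x z)) w‖ := by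
      have : L z w = cl (F (x z)) w + (L z w - cl (F (x z)) w) := by abel
      calc ‖L z w‖ = ‖cl (F (x z)) w + (L z w - cl (F (x z)) w)‖ := by rw [← this]
        _ ≤ _ := norm_add_le _ _
    have h4 : τ * ‖w‖ ≤ θ / 4 * ‖w‖ := mul_le_mul_of_nonneg_right hτθ (norm_nonneg _)
    have h5 : 0 ≤ θ * ‖w‖ := mul_nonneg hθ.le (norm_nonneg _)
    linarith
  · have haT := (hPt z hz).vert a ha
    have h1 := hcell z hz _ ha
    have h2 := (hδ' _ (hxT z hz)).2.2.1 _ haT (by linarith)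
    have h3 := (hAL z hz).2.2.1 (pt v (m + j) a) (by linarith)
    refine ⟨haT, ?_, ?_⟩
    · have h4 : f (pt v (m + j) a) - A z (pt v (m + j) a) =
          (f (pt v (m + j) a) - f (x z) - cl (F (x z)) (pt v (m + j) a - x z)) +
          (f (x z) + cl (F (x z)) (pt v (m + j) a - x z) - A z (pt v (m + j) a)) := by abel
      rw [h4]
      refine (norm_add_le _ _).trans ?_
      have h5 : η * ‖pt v (m + j) a - x z‖ ≤ κ / 4 / 2 ^ j * (1 / 2 ^ m) :=
        mul_le_mul hηκ h1 (norm_nonneg _) (by positivity)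
      have h6 : κ / 4 / 2 ^ j * (1 / 2 ^ m) = κ / 4 * (1 / 2 ^ (m + j)) := by
        rw [pow_add]; field_simp
      have h7 : τ * (1 / 2 ^ (m + j)) ≤ κ / 4 * (1 / 2 ^ (m + j)) :=
        mul_le_mul_of_nonneg_right hτκ hmj0.le
      have h8 : κ / 2 ^ (m + j) = κ * (1 / 2 ^ (m + j)) := by ring
      have h9 : 0 < κ * (1 / 2 ^ (m + j)) := by positivity
      rw [h8]
      linarith [h2.2]
    · have h4 : cl (F (pt v (m + j) a)) - L z =
          (cl (F (pt v (m + j) a)) - cl (F (x z))) + (cl (F (x z)) - L z) := by abel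
      rw [h4]
      refine (norm_add_le _ _).trans ?_
      linarith [h2.1, hpertn z hz]
  · have h1 := (hPt z hz).own e he hes
    rw [← he] at h1 ⊢
    have h2 := eInt_pert (G := fun y => cl (F y)) (a := κ / 4) (b := τ) (by positivity) hτ0.le h1
      (hpert z hz)
    refine h2.trans (ENNReal.ofReal_le_ofReal ?_)
    gcongr
    linarith
  · have h1 := (hPt z hz).squ s hs hss
    rw [← hs] at h1 ⊢
    have h2 := sInt_pert (G := fun y => cl (F y)) (a := κ / 4) (b := τ) (by positivity) hτ0.le h1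
      (hpertn z hz)
    refine h2.trans (ENNReal.ofReal_le_ofReal ?_)
    gcongr
    have h3 : τ ^ 2 ≤ κ / 4 := by
      calc τ ^ 2 = τ * τ := sq τ
        _ ≤ τ * 1 := mul_le_mul_of_nonneg_left hτ1 hτ0.le
        _ ≤ κ / 4 := by linarith
    linarith
  · obtain ⟨x', hx', hyx'⟩ := hy
    have h1 : ‖y - x z‖ ≤ 5 * (1 / 2 ^ m) := by
      have h2 : y - x z = (y - x') + (x' - x z) := by abel
      rw [h2]
      refine (norm_add_le _ _).trans ?_
      rw [hd4] at hyx'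
      linarith [hcell z hz x' hx']
    have h5 : ‖y - x z‖ ≤ 5 := h1.trans (by linarith)
    have hlip : ∀ (S : Set V) (a b : V), infDist a S ≤ infDist b S + ‖b - a‖ := fun S a b => by
      rw [← dist_eq_norm, dist_comm]; exact infDist_le_infDist_add_dist
    have e1 := hd₁' _ (hxT z hz)
    have e2 := hd₂' _ ⟨_, hxT z hz, rfl⟩
    have e3 := hlip Ωᶜ (x z) y
    have e4 := hlip Λᶜ (f (x z)) (f y)
    have e5 := hlip Λᶜ (f (x z)) (A z y)
    have e6 := (hosc _ (hxT z hz) y (h1.trans k4)).2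
    have e7 := (hAL z hz).2.2.1 y h5
    have e8 := hT.upp _ (hxT z hz) (y - x z)
    have e9 : M * ‖y - x z‖ ≤ M * (5 * (1 / 2 ^ m)) := mul_le_mul_of_nonneg_left h1 hM.le
    have e10 : ‖A z y - f (x z)‖ ≤ ‖cl (F (x z)) (y - x z)‖ + τ * (1 / 2 ^ (m + j)) := by
      have : A z y - f (x z) = cl (F (x z)) (y - x z) -
          (f (x z) + cl (F (x z)) (y - x z) - A z y) := by abel
      rw [this]
      exact (norm_sub_le _ _).trans (by linarith)
    have e11 : τ * (1 / 2 ^ (m + j)) ≤ 1 * (1 / 2 ^ m) := by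
      refine mul_le_mul hτ1 ?_ hmj0.le zero_le_one
      apply one_div_le_one_div_of_le (by positivity)
      exact pow_le_pow_right₀ (by norm_num) (by omega)
    have e12 : 0 < M * (1 / 2 ^ m) := by positivity
    refine ⟨by linarith, by linarith, by linarith⟩
  · have hball : ∀ z ∈ Z, dyc v m z ⊆ ball (x z) (2 * (1 / 2 ^ m)) := by
      intro z hz y hy
      rw [mem_ball, dist_eq_norm]
      linarith [hcell z hz y hy]
    have hvol : ∀ z, volume (ball (x z) (2 * (1 / 2 ^ m))) = 64 * volume (dyc v m z) := by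
      intro z
      rw [volume_dyc, Real.volume_pi_ball _ (by positivity)]
      rw [Fintype.card_fin]
      have : (64:ℝ≥0∞) = ENNReal.ofReal 64 := by norm_num
      rw [this, ← ENNReal.ofReal_mul (by norm_num)]
      congr 1
      ring
    have h1 : ∀ z ∈ Z, ∫⁻ y in dyc v m z, ‖cl (F y) - L z‖ₑ ^ p ≤
        2 ^ (p - 1) * (2 * ENNReal.ofReal t) * volume (dyc v m z) := by
      intro z hz
      refine lintegral_pert hp1 (L := cl (F (x z))) ?_ ?_
      · have g1 := (hδ' _ (hxT z hz)).2.1 (2 * (1 / 2 ^ m)) (by positivity) (by linarith)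
        refine (lintegral_mono_set (hball z hz)).trans (g1.trans ?_)
        rw [hvol]
        have g2 : ENNReal.ofReal η ^ p ≤ ENNReal.ofReal (t / 64) := by
          calc ENNReal.ofReal η ^ p ≤ ENNReal.ofReal η ^ (1:ℝ) := by
                refine ENNReal.rpow_le_rpow_of_exponent_ge ?_ hp1
                rw [ENNReal.ofReal_le_one]; exact hη1
            _ = ENNReal.ofReal η := ENNReal.rpow_one _
            _ ≤ _ := ENNReal.ofReal_le_ofReal hηt
        calc ENNReal.ofReal η ^ p * (64 * volume (dyc v m z))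
            ≤ ENNReal.ofReal (t / 64) * (64 * volume (dyc v m z)) := by gcongr
          _ = (ENNReal.ofReal (t / 64) * 64) * volume (dyc v m z) := by ring
          _ = ENNReal.ofReal t * volume (dyc v m z) := by
              congr 1
              have : (64:ℝ≥0∞) = ENNReal.ofReal 64 := by norm_num
              rw [this, ← ENNReal.ofReal_mul (by positivity)]
              congr 1
              field_simp
      · have h3 : ‖cl (F (x z)) - L z‖ₑ ≤ ENNReal.ofReal τ := by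
          rw [← ofReal_norm]
          exact ENNReal.ofReal_le_ofReal (hpertn z hz)
        calc ‖cl (F (x z)) - L z‖ₑ ^ p ≤ ENNReal.ofReal τ ^ p :=
              ENNReal.rpow_le_rpow h3 (by linarith)
          _ ≤ ENNReal.ofReal τ ^ (1:ℝ) := by
              refine ENNReal.rpow_le_rpow_of_exponent_ge ?_ hp1
              rw [ENNReal.ofReal_le_one]; exact hτ1
          _ = ENNReal.ofReal τ := ENNReal.rpow_one _
          _ ≤ _ := ENNReal.ofReal_le_ofReal hτt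
    calc ∑ z ∈ Z, ∫⁻ y in dyc v m z, ‖cl (F y) - L z‖ₑ ^ p
        ≤ ∑ z ∈ Z, 2 ^ (p - 1) * (2 * ENNReal.ofReal t) * volume (dyc v m z) :=
          Finset.sum_le_sum h1
      _ = 2 ^ (p - 1) * (2 * ENNReal.ofReal t) * ∑ z ∈ Z, volume (dyc v m z) := by
          rw [Finset.mul_sum]
      _ ≤ 2 ^ (p - 1) * (2 * ENNReal.ofReal t) * volume Ω := by
          gcongr
          refine sum_volume_le fun z hz y hy => (hδ' _ (hxT z hz)).1 ?_
          rw [mem_ball, dist_eq_norm]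
          linarith [hcell z hz y hy]
      _ = 2 ^ (p - 1) * 2 * volume Ω * ENNReal.ofReal t := by ring
      _ ≤ ε := ht
      _ ≤ _ := le_add_self

end Vale.Agent.P073.H989
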