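import Vale.Agent.P073.H989.RaySet
import Vale.Agent.P073.H989.Far2

/-!
# P073, [P2g]: the compact set of good points, the choice of the cells

* `exists_core_bounds`: a measurable set where the derivative is bounded from above and below, and
  which carries almost all the energy;
* `exists_tset`: the compact set `T` of uniform good points;
* `choice_on`: the cells which contain a good point carry almost all the energy of `T`.
-/

namespace Vale.Agent.P073.H989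

open MeasureTheory Set Filter Topology Metric Vale.Agent.P073.St Vale.Agent.P073.AB
open Vale.Agent.P073.SQ (ev)
open _root_.P073.Net (dyc dyo)
open Vale.Agent.P073.H194 (idx)
open Vale.Agent.P073.H333 (exists_le_add finite_idx nonSing_of_below isClosed_dycB exists_bounds
  idx_mem tendsto_pow_half)
open scoped ENNReal

variable {p : ℝ} {Ω Λ : Set V} {f : V → V} {F : V → Mat}

theorem isClosed_below (θ : ℝ) : IsClosed {L : V →L[ℝ] V | ∀ w, θ * ‖w‖ ≤ ‖L w‖} := by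
  have : {L : V →L[ℝ] V | ∀ w, θ * ‖w‖ ≤ ‖L w‖} = ⋂ w, {L : V →L[ℝ] V | θ * ‖w‖ ≤ ‖L w‖} := by
    ext; simp
  rw [this]
  exact isClosed_iInter fun w => isClosed_le continuous_const (by fun_prop)

theorem isClosed_above (M : ℝ) : IsClosed {L : V →L[ℝ] V | ∀ w, ‖L w‖ ≤ M * ‖w‖} := by
  have : {L : V →L[ℝ] V | ∀ w, ‖L w‖ ≤ M * ‖w‖} = ⋂ w, {L : V →L[ℝ] V | ‖L w‖ ≤ M * ‖w‖} := by
    ext; simp
  rw [this]
  exact isClosed_iInter fun w => isClosed_le (by fun_prop) continuous_const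

/-- the energy outside of large measurable sets -/
theorem exists_small_compl {μ : Measure V} [IsFiniteMeasure μ] {E : ℕ → Set V} (hE : Monotone E)
    (hm : ∀ n, MeasurableSet (E n)) (h : ∀ᵐ x ∂μ, x ∈ ⋃ n, E n) {ε : ℝ≥0∞} (hε : ε ≠ 0) :
    ∃ n, μ (E n)ᶜ ≤ ε := by
  have hanti : Antitone fun n => (E n)ᶜ := fun i j hij => compl_subset_compl.2 (hE hij)
  have h1 := tendsto_measure_iInter_atTop (μ := μ) (fun n => (hm n).compl.nullMeasurableSet) hanti
    ⟨0, measure_ne_top _ _⟩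
  rw [← compl_iUnion, show μ (⋃ n, E n)ᶜ = 0 from h] at h1
  exact (h1.eventually (ge_mem_nhds (pos_iff_ne_zero.2 hε))).exists

/-- **the bounded part** -/
theorem exists_core_bounds (hp1 : 1 ≤ p) (hΩ : St.IsBoundedDomain Ω) (hF : St.IsSobolev p Ω f F)
    (hFD : FinDist Ω F) {ε : ℝ≥0∞} (hε : ε ≠ 0) :
    ∃ θ > 0, ∃ M > 0, ∃ E ⊆ Ω, MeasurableSet E ∧
      (∀ x ∈ E, (∀ w, θ * ‖w‖ ≤ ‖cl (F x) w‖) ∧ ∀ w, ‖cl (F x) w‖ ≤ M * ‖w‖) ∧
      ∫⁻ y in Ω \ E, ‖cl (F y)‖ₑ ^ p ≤ ε := by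
  classical
  have hp0 : 0 < p := by linarith
  have hm : AEMeasurable (fun x => ‖cl (F x)‖ₑ ^ p) (volume.restrict Ω) :=
    (PK.IsSob.aesm hF).enorm.pow_const p
  set μ : Measure V := (volume.restrict Ω).withDensity (fun x => ‖cl (F x)‖ₑ ^ p) with hμ
  have hμt : μ univ = ∫⁻ x in Ω, ‖cl (F x)‖ₑ ^ p := by
    rw [hμ, withDensity_apply _ MeasurableSet.univ, Measure.restrict_univ]
  have : IsFiniteMeasure μ := ⟨by
    rw [hμt]; exact (PK.IsSob.lintegral_ne_top hp1 hF).lt_top⟩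
  have hac : ∀ {q : V → Prop}, (∀ᵐ x ∂(volume.restrict Ω), q x) → ∀ᵐ x ∂μ, q x := fun h =>
    (withDensity_absolutelyContinuous _ _).ae_le h
  -- a measurable representative
  set G : V → V →L[ℝ] V := (PK.IsSob.aesm hF).mk _ with hG
  have hGm : Measurable G := (PK.IsSob.aesm hF).stronglyMeasurable_mk.measurable
  have hFG : ∀ᵐ x ∂(volume : Measure V), x ∈ Ω → cl (F x) = G x := by
    rw [← ae_restrict_iff' hΩ.1.measurableSet]
    exact (PK.IsSob.aesm hF).ae_eq_mk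
  obtain ⟨N, hNs, hNm, hN0⟩ := exists_measurable_superset_of_null (ae_iff.1 hFG)
  have hN : ∀ x ∈ Ω, x ∉ N → cl (F x) = G x := by
    intro x hx hxN
    by_contra hcon
    exact hxN (hNs fun h => hcon (h hx))
  let E : ℕ → Set V := fun n => (Ω \ N) ∩ (G ⁻¹' {L | ∀ w, (1 / ((n:ℝ) + 1)) * ‖w‖ ≤ ‖L w‖} ∩
    G ⁻¹' {L | ∀ w, ‖L w‖ ≤ ((n:ℝ) + 1) * ‖w‖})
  have hEm : ∀ n, MeasurableSet (E n) := fun n =>
    (hΩ.1.measurableSet.diff hNm).inter ((hGm (isClosed_below _).measurableSet).inter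
      (hGm (isClosed_above _).measurableSet))
  have hEmono : Monotone E := by
    intro m n hmn x hx
    obtain ⟨h1, h2, h3⟩ := hx
    have hmn' : (m:ℝ) ≤ n := by exact_mod_cast hmn
    have h6 : 1 / ((n:ℝ) + 1) ≤ 1 / ((m:ℝ) + 1) :=
      one_div_le_one_div_of_le (by positivity) (by linarith)
    refine ⟨h1, fun w => ?_, fun w => ?_⟩
    · exact (mul_le_mul_of_nonneg_right h6 (norm_nonneg _)).trans (h2 w)
    · exact (h3 w).trans (mul_le_mul_of_nonneg_right (by linarith) (norm_nonneg _))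
  have hcover : ∀ᵐ x ∂μ, x ∈ ⋃ n, E n := by
    -- points with vanishing derivative do not count
    have h0 : μ {x | x ∈ Ω ∧ (∀ i j, F x i j = 0)} = 0 := by
      rw [hμ, withDensity_apply_eq_zero' hm]
      refine measure_mono_null (t := ∅) ?_ measure_empty
      rintro x ⟨h1, -, h2⟩
      refine h1 ?_
      have h3 : cl (F x) = 0 := by
        ext w i
        have : F x = 0 := by
          funext i j; exact h2 i j
        simp [cl, this]
      show ‖cl (F x)‖ₑ ^ p = 0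
      have h4 : ‖cl (F x)‖ₑ = 0 := by
        rw [h3]
        show ((‖(0 : V →L[ℝ] V)‖₊ : NNReal) : ℝ≥0∞) = 0
        rw [nnnorm_zero]; rfl
      rw [h4, ENNReal.zero_rpow_of_pos hp0]
    have h1 : ∀ᵐ x ∂μ, x ∈ Ω ∧ ((∀ i j, F x i j = 0) ∨ NonSing (F x)) := by
      apply hac
      rw [ae_restrict_iff' hΩ.1.measurableSet]
      filter_upwards [hFD] with x hx hxΩ
      exact ⟨hxΩ, hx hxΩ⟩
    have h0' : ∀ᵐ x ∂μ, ¬ (x ∈ Ω ∧ ∀ i j, F x i j = 0) := by
      rw [ae_iff]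
      simpa using h0
    have h2 : ∀ᵐ x ∂μ, x ∉ N := by
      apply hac
      exact ae_restrict_of_ae (measure_eq_zero_iff_ae_notMem.1 hN0)
    filter_upwards [h0', h1, h2] with x g0 g1 g2
    obtain ⟨hxΩ, hx⟩ := g1
    have hns : NonSing (F x) := by
      rcases hx with hx | hx
      · exact absurd ⟨hxΩ, hx⟩ g0
      · exact hx
    obtain ⟨n, hn, hn'⟩ := exists_bounds hns
    rw [hN x hxΩ g2] at hn hn'
    exact mem_iUnion.2 ⟨n, ⟨hxΩ, g2⟩, hn, hn'⟩
  obtain ⟨n, hn⟩ := exists_small_compl hEmono hEm hcover hε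
  refine ⟨1 / ((n:ℝ) + 1), by positivity, (n:ℝ) + 1, by positivity, E n, fun x hx => hx.1.1,
    hEm n, fun x hx => ?_, ?_⟩
  · rw [hN x hx.1.1 hx.1.2]
    exact ⟨hx.2.1, hx.2.2⟩
  · have h1 : ∫⁻ y in Ω \ E n, ‖cl (F y)‖ₑ ^ p = μ (E n)ᶜ := by
      rw [hμ, withDensity_apply _ (hEm n).compl, Measure.restrict_restrict (hEm n).compl,
        Set.sdiff_eq, inter_comm]
    rw [h1]
    exact hn

/-- **The choice of the cells** with a point of a compact set. -/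
theorem choice_on (hp1 : 1 ≤ p) (hF : St.IsSobolev p Ω f F) {T : Set V}
    (hT : IsCompact T) {ε : ℝ≥0∞} (hε : ε ≠ 0) (v : V) (nn : ℕ → ℕ) (Q : ℕ → V → Prop)
    (hQ : ∀ᵐ x ∂(volume : Measure V), x ∈ T → ∀ᶠ l in atTop, Q l x) :
    ∀ᶠ l in atTop, ∃ (Z : Finset (Fin 3 → ℤ)) (x : (Fin 3 → ℤ) → V),
      (∀ z ∈ Z, x z ∈ T ∧ idx v (nn l) (x z) = z ∧ Q l (x z)) ∧
      ∫⁻ y in Ω \ ⋃ z ∈ Z, dyc v (nn l) z, ‖cl (F y)‖ₑ ^ p ≤
        (∫⁻ y in Ω \ T, ‖cl (F y)‖ₑ ^ p) + ε := by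
  classical
  have hm : AEMeasurable (fun x => ‖cl (F x)‖ₑ ^ p) (volume.restrict Ω) :=
    (PK.IsSob.aesm hF).enorm.pow_const p
  set μ : Measure V := (volume.restrict Ω).withDensity (fun x => ‖cl (F x)‖ₑ ^ p) with hμ
  have hμt : μ univ = ∫⁻ x in Ω, ‖cl (F x)‖ₑ ^ p := by
    rw [hμ, withDensity_apply _ MeasurableSet.univ, Measure.restrict_univ]
  have : IsFiniteMeasure μ := ⟨by
    rw [hμt]; exact (PK.IsSob.lintegral_ne_top hp1 hF).lt_top⟩
  have hac : ∀ {q : V → Prop}, (∀ᵐ x ∂(volume.restrict Ω), q x) → ∀ᵐ x ∂μ, q x := fun h =>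
    (withDensity_absolutelyContinuous _ _).ae_le h
  let S : ℕ → Set V := fun L => {x | x ∈ T ∧ ∀ l ≥ L, Q l x}
  have hSmono : Monotone S := fun a b hab x hx => ⟨hx.1, fun l hl => hx.2 l (hab.trans hl)⟩
  have hScov : ∀ᵐ x ∂μ, x ∈ T → x ∈ ⋃ L, S L := by
    filter_upwards [hac (ae_restrict_of_ae hQ)] with x hx hxT
    obtain ⟨L, hL⟩ := eventually_atTop.1 (hx hxT)
    exact mem_iUnion.2 ⟨L, hxT, hL⟩
  obtain ⟨L, hL⟩ := exists_le_add hSmono hScov hε
  filter_upwards [eventually_ge_atTop L] with l hl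
  have hTb : Bornology.IsBounded (S L) := hT.isBounded.subset fun x hx => hx.1
  have hfin := finite_idx v (nn l) hTb
  have hex : ∀ z, ∃ x, z ∈ hfin.toFinset → x ∈ S L ∧ idx v (nn l) x = z := by
    intro z
    by_cases hz : z ∈ hfin.toFinset
    · obtain ⟨x, hx, hxz⟩ := hfin.mem_toFinset.1 hz
      exact ⟨x, fun _ => ⟨hx, hxz⟩⟩
    · exact ⟨0, fun h => absurd h hz⟩
  choose x hx using hex
  refine ⟨hfin.toFinset, x, fun z hz => ?_, ?_⟩
  · obtain ⟨h1, h2⟩ := hx z hz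
    exact ⟨h1.1, h2, h1.2 l hl⟩
  · set U : Set V := ⋃ z ∈ hfin.toFinset, dyc v (nn l) z with hU
    have hUm : MeasurableSet U := Finset.measurableSet_biUnion _ fun z _ =>
      (isClosed_dycB v (nn l) z).measurableSet
    have hSU : S L ⊆ U := by
      intro y hy
      exact mem_iUnion₂.2 ⟨idx v (nn l) y, hfin.mem_toFinset.2 ⟨y, hy, rfl⟩, idx_mem v (nn l) y⟩
    have h1 : ∀ A : Set V, MeasurableSet A → ∫⁻ y in Ω \ A, ‖cl (F y)‖ₑ ^ p = μ Aᶜ := fun A hA => by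
      rw [hμ, withDensity_apply _ hA.compl, Measure.restrict_restrict hA.compl,
        Set.sdiff_eq, inter_comm]
    rw [h1 U hUm, h1 T hT.measurableSet]
    have h2 : μ T + μ Tᶜ = μ univ := measure_add_measure_compl hT.measurableSet
    have h3 : μ U + μ Uᶜ = μ univ := measure_add_measure_compl hUm
    have h4 : μ U + μ Uᶜ ≤ μ U + (μ Tᶜ + ε) := by
      rw [h3, ← h2]
      calc μ T + μ Tᶜ ≤ μ (S L) + ε + μ Tᶜ := by gcongr
        _ ≤ μ U + ε + μ Tᶜ := by gcongr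
        _ = _ := by ring
    exact (ENNReal.add_le_add_iff_left (measure_ne_top μ U)).1 h4

end Vale.Agent.P073.H989
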