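import Vale.Agent.P073.H989.P2Choice
import Vale.Agent.P073.H234.P2Defs

/-!
# P073, [P2g]: the compact set `T` of uniform good points (`H234.TSet`)

`GoodT`: a compact set with all the uniform properties, for all tolerances at once;
`exists_goodT`: it exists and carries almost all the energy; `GoodT.tset`: `H234.TSet`.
-/

namespace Vale.Agent.P073.H989

open MeasureTheory Set Filter Topology Metric Vale.Agent.P073.St Vale.Agent.P073.AB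
open Vale.Agent.P073.SQ (ev)
open _root_.P073.Net (dyc dyo)
open Vale.Agent.P073.H194 (idx)
open scoped ENNReal

variable {p : ℝ} {Ω Λ : Set V} {f : V → V} {F : V → Mat}

/-- **uniform good points**, all tolerances at once -/
structure GoodT (p θ M : ℝ) (Ω Λ : Set V) (f : V → V) (F : V → Mat) (T : Set V) : Prop where
  comp : IsCompact T
  sub : T ⊆ Ω
  low : ∀ x ∈ T, ∀ w, θ * ‖w‖ ≤ ‖cl (F x) w‖
  upp : ∀ x ∈ T, ∀ w, ‖cl (F x) w‖ ≤ M * ‖w‖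
  unif : ∀ η : ℝ, 0 < η → ∃ δ > 0, ∀ x ∈ T, ball x δ ⊆ Ω ∧
    (∀ r, 0 < r → r ≤ δ →
      ∫⁻ z in ball x r, ‖cl (F z) - cl (F x)‖ₑ ^ p ≤ ENNReal.ofReal η ^ p * volume (ball x r)) ∧
    (∀ y ∈ T, ‖y - x‖ ≤ δ → ‖cl (F y) - cl (F x)‖ ≤ η ∧
      ‖f y - f x - cl (F x) (y - x)‖ ≤ η * ‖y - x‖) ∧
    ∀ k : Fin 3, ∀ t : ℝ, |t| ≤ δ →
      ‖f (x + t • (ev k : V)) - f x - t • cl (F x) (ev k)‖ ≤ η * |t|
  osc : ∀ η : ℝ, 0 < η → ∃ δ > 0, ∀ x ∈ T, ∀ y, ‖y - x‖ ≤ δ → y ∈ Ω ∧ ‖f y - f x‖ ≤ η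
  far : ∀ t : ℝ, 0 < t → ∃ δ > 0, ∀ x ∈ T, ∀ y ∈ Ω, t ≤ ‖y - x‖ → δ ≤ ‖f y - f x‖

/-- small oscillation near a compact set -/
theorem exists_osc_of {K : Set V} (hΩ : IsOpen Ω) (hfc : ContinuousOn f Ω) (hK : K ⊆ Ω)
    (hKc : IsCompact K) {ε : ℝ} (hε : 0 < ε) :
    ∃ δ > 0, ∀ x ∈ K, ∀ y, ‖y - x‖ ≤ δ → y ∈ Ω ∧ ‖f y - f x‖ ≤ ε := by
  obtain ⟨r, hr, hKr⟩ := hKc.exists_cthickening_subset_open hΩ hK
  have hKrc : IsCompact (cthickening r K) := hKc.cthickening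
  have huc := hKrc.uniformContinuousOn_of_continuous (hfc.mono hKr)
  obtain ⟨δ, hδ, hd⟩ := Metric.uniformContinuousOn_iff.1 huc ε hε
  refine ⟨min r (δ / 2), lt_min hr (by positivity), fun x hx y hy => ?_⟩
  have h2 : dist y x ≤ min r (δ / 2) := by rwa [dist_eq_norm]
  have h3 : y ∈ cthickening r K :=
    mem_cthickening_of_dist_le y x r K hx (h2.trans (min_le_left _ _))
  refine ⟨hKr h3, ?_⟩
  have h5 : dist y x < δ := by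
    have := h2.trans (min_le_right _ _)
    linarith
  have h4 := hd y h3 x (self_subset_cthickening _ hx) h5
  rw [dist_eq_norm] at h4
  exact h4.le

/-- **existence**, with almost all the energy and almost all the volume of a measurable set -/
theorem exists_goodT_of (hp1 : 1 ≤ p) (hΩ : St.IsBoundedDomain Ω) (hΛ : St.IsBoundedDomain Λ)
    (hf : St.IsHomeo Ω Λ f) (hF : St.IsSobolev p Ω f F) {θ M : ℝ} {E : Set V} (hE : E ⊆ Ω)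
    (hEm : MeasurableSet E)
    (hb : ∀ x ∈ E, (∀ w, θ * ‖w‖ ≤ ‖cl (F x) w‖) ∧ ∀ w, ‖cl (F x) w‖ ≤ M * ‖w‖) {ε : ℝ≥0∞}
    (hε : ε ≠ 0) :
    ∃ T ⊆ E, GoodT p θ M Ω Λ f F T ∧ volume (E \ T) ≤ ε := by
  have hv := PK.volume_ne_top_of_domain hΩ
  have hfc : ContinuousOn f Ω := by obtain ⟨g, -, h, -⟩ := hf; exact h
  obtain ⟨T, hTE, hTc, hTv, -, hT⟩ := exists_ray_set hΩ.1 hv hfc (PK.IsSob.aesm hF)
    (PK.IsSob.weakDeriv hp1 hv hF) hp1 (PK.IsSob.lintegral_ne_top hp1 hF) hEm hE hε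
  exact ⟨T, hTE, ⟨hTc, hTE.trans hE, fun x hx => (hb x (hTE hx)).1,
    fun x hx => (hb x (hTE hx)).2, hT,
    fun η hη => exists_osc_of hΩ.1 hfc (hTE.trans hE) hTc hη,
    fun t ht => exists_far hΛ.1 hf (hTE.trans hE) hTc ht⟩, hTv⟩

/-- **existence**: almost all the energy -/
theorem exists_goodT (hp1 : 1 ≤ p) (hΩ : St.IsBoundedDomain Ω) (hΛ : St.IsBoundedDomain Λ)
    (hf : St.IsHomeo Ω Λ f) (hF : St.IsSobolev p Ω f F) (hFD : FinDist Ω F) {ε : ℝ≥0∞}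
    (hε : ε ≠ 0) :
    ∃ θ > 0, ∃ M > 0, ∃ T, GoodT p θ M Ω Λ f F T ∧ ∫⁻ y in Ω \ T, ‖cl (F y)‖ₑ ^ p ≤ ε := by
  have hε2 : ε / 2 ≠ 0 := (ENNReal.half_pos hε).ne'
  obtain ⟨θ, hθ, M, hM, E, hE, hEm, hb, hEε⟩ := exists_core_bounds hp1 hΩ hF hFD hε2
  -- absolute continuity of the energy
  have hFp := PK.IsSob.lintegral_ne_top hp1 hF
  obtain ⟨δ, hδ, hδε⟩ := exists_pos_setLIntegral_lt_of_measure_lt hFp hε2
  have hδ2 : δ / 2 ≠ 0 := (ENNReal.half_pos hδ.ne').ne'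
  obtain ⟨T, hTE, hT, hTv⟩ := exists_goodT_of hp1 hΩ hΛ hf hF hE hEm hb
    (ε := min (δ / 2) 1) (lt_min (pos_iff_ne_zero.2 hδ2) one_pos).ne'
  refine ⟨θ, hθ, M, hM, T, hT, ?_⟩
  have h1 : ∫⁻ y in E \ T, ‖cl (F y)‖ₑ ^ p ≤ ε / 2 := by
    have h2 : (volume.restrict Ω) (E \ T) < δ := by
      rw [Measure.restrict_apply (hEm.diff hT.comp.measurableSet)]
      refine (measure_mono inter_subset_left).trans_lt ?_
      by_cases hδt : δ = ⊤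
      · rw [hδt]
        exact (hTv.trans (min_le_right _ _)).trans_lt ENNReal.one_lt_top
      · exact (hTv.trans (min_le_left _ _)).trans_lt (ENNReal.half_lt_self hδ.ne' hδt)
    have h3 := hδε (E \ T) h2
    rw [Measure.restrict_restrict (hEm.diff hT.comp.measurableSet)] at h3
    rw [inter_eq_left.2 (sdiff_subset.trans hE)] at h3
    exact h3.le
  have h2 : Ω \ T ⊆ (Ω \ E) ∪ (E \ T) := by
    rintro x ⟨hx, hxT⟩
    by_cases hxE : x ∈ E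
    · exact Or.inr ⟨hxE, hxT⟩
    · exact Or.inl ⟨hx, hxE⟩
  calc ∫⁻ y in Ω \ T, ‖cl (F y)‖ₑ ^ p
      ≤ ∫⁻ y in (Ω \ E) ∪ (E \ T), ‖cl (F y)‖ₑ ^ p := lintegral_mono_set h2
    _ ≤ (∫⁻ y in Ω \ E, ‖cl (F y)‖ₑ ^ p) + ∫⁻ y in E \ T, ‖cl (F y)‖ₑ ^ p :=
        lintegral_union_le _ _ _
    _ ≤ ε / 2 + ε / 2 := add_le_add hEε h1
    _ = ε := ENNReal.add_halves ε

/-- **the interface** `H234.TSet` -/
theorem GoodT.tset {θ M : ℝ} {T : Set V} (h : GoodT p θ M Ω Λ f F T) {κ ε₁ : ℝ} (hκ : 0 < κ)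
    (hε₁ : 0 < ε₁) :
    ∃ t₁ > 0, ∀ t₀, 0 < t₀ → t₀ ≤ t₁ → ∃ δ₁ > 0, ∀ δ₀ ≤ δ₁,
      H234.TSet θ M κ t₀ δ₀ ε₁ Ω f F T := by
  obtain ⟨δ, hδ, h1⟩ := h.unif κ hκ
  obtain ⟨δ', hδ', h2⟩ := h.osc ε₁ hε₁
  refine ⟨min δ δ' / 8, by
    have := lt_min hδ hδ'
    positivity, fun t₀ ht₀ ht₁ => ?_⟩
  have e1 : 8 * t₀ ≤ δ := by
    have := min_le_left δ δ'
    linarith
  have e2 : 8 * t₀ ≤ δ' := by
    have := min_le_right δ δ'
    linarith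
  obtain ⟨δ₁, hδ₁, h3⟩ := h.far (t₀ / 2) (by positivity)
  refine ⟨δ₁, hδ₁, fun δ₀ hδ₀ => ⟨h.comp, fun a ha => ?_, h.low, h.upp, fun a ha b hb hab => ?_,
    fun a ha i t ht => ?_, fun a ha y hy hya => hδ₀.trans (h3 a ha y hy hya),
    fun a ha y hy => (h2 a ha y (by linarith)).2⟩⟩
  · exact (closedBall_subset_ball (by linarith)).trans (h1 a ha).1
  · exact (h1 a ha).2.2.1 b hb (by linarith)
  · exact (h1 a ha).2.2.2 i t (by linarith)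

end Vale.Agent.P073.H989
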