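import Vale.Agent.P073.H989.LineD
import Vale.Agent.P073.HB.Haj5

/-!
# P073, [P2g]: the compact set of uniform good points, with rays

`exists_ray_set`: the Lusin set of `HB.exists_lusin_set`, with one more uniform property: the
expansion of order one along the coordinate directions (all points of the line, not only the
points of the set). No condition on the exponent.
-/

namespace Vale.Agent.P073.H989

open MeasureTheory Set Filter Topology Metric Vale.Agent.P073.St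
open Vale.Agent.P073.SQ (ev)
open Vale.Agent.P073.HB (WeakDeriv)
open scoped ENNReal

/-- the points of `T` where the expansion along the coordinate directions holds up to `δ` -/
def RayOK (f : V → V) (F : V → V →L[ℝ] V) (T : Set V) (η δ : ℝ) : Set V :=
  {x | x ∈ T ∧ ∀ k : Fin 3, ∀ t : ℝ, |t| ≤ δ →
    ‖f (x + t • (ev k : V)) - f x - t • F x (ev k)‖ ≤ η * |t|}

theorem norm_ev (k : Fin 3) : ‖(ev k : V)‖ = 1 := by
  unfold ev
  rw [Pi.norm_single, norm_one]

theorem isCompact_rayOK {Ω : Set V} {f : V → V} {F : V → V →L[ℝ] V} {T : Set V}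
    (hf : ContinuousOn f Ω) (hT : IsCompact T) (hFT : ContinuousOn F T) {η δ : ℝ}
    (hsub : ∀ x ∈ T, closedBall x δ ⊆ Ω) (hδ : 0 < δ) : IsCompact (RayOK f F T η δ) := by
  have hTΩ : T ⊆ Ω := fun x hx => hsub x hx (mem_closedBall_self hδ.le)
  have h1 : RayOK f F T η δ = T ∩ ⋂ k : Fin 3, ⋂ t : {t : ℝ // |t| ≤ δ},
      {x | x ∈ T ∧ ‖f (x + t.1 • (ev k : V)) - f x - t.1 • F x (ev k)‖ ≤ η * |t.1|} := by
    ext x
    simp only [RayOK, mem_inter_iff, mem_iInter, Subtype.forall, mem_ofPred_eq]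
    constructor
    · rintro ⟨hx, h⟩
      exact ⟨hx, fun k t ht => ⟨hx, h k t ht⟩⟩
    · rintro ⟨hx, h⟩
      exact ⟨hx, fun k t ht => (h k t ht).2⟩
  rw [h1]
  refine hT.inter_right (isClosed_iInter fun k => isClosed_iInter fun t => ?_)
  obtain ⟨t, ht⟩ := t
  have hc : ContinuousOn (fun x => ‖f (x + t • (ev k : V)) - f x - t • F x (ev k)‖) T := by
    refine ContinuousOn.norm (ContinuousOn.sub (ContinuousOn.sub ?_ (hf.mono hTΩ)) ?_)
    · refine hf.comp (by fun_prop) fun x hx => hsub x hx ?_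
      rw [mem_closedBall, dist_eq_norm, add_sub_cancel_left, norm_smul, norm_ev, mul_one,
        Real.norm_eq_abs]
      exact ht
    · exact (hFT.clm_apply continuousOn_const).const_smul t
  exact hc.preimage_isClosed_of_isClosed hT.isClosed isClosed_Iic

/-- almost every point is in one of the sets `RayOK` -/
theorem exists_rayOK {f : V → V} {F : V → V →L[ℝ] V} {x : V}
    (h : ∀ k : Fin 3, HasLineDerivAt ℝ f (F x (ev k)) x (ev k)) {η : ℝ} (hη : 0 < η) :
    ∃ δ > 0, ∀ k : Fin 3, ∀ t : ℝ, |t| ≤ δ →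
      ‖f (x + t • (ev k : V)) - f x - t • F x (ev k)‖ ≤ η * |t| := by
  have h1 : ∀ k : Fin 3, ∀ᶠ t : ℝ in 𝓝 0,
      ‖f (x + t • (ev k : V)) - f x - t • F x (ev k)‖ ≤ η * |t| := by
    intro k
    have h2 : HasDerivAt (fun t : ℝ => f (x + t • (ev k : V))) (F x (ev k)) 0 := h k
    have h3 := h2.isLittleO
    rw [Asymptotics.isLittleO_iff] at h3
    filter_upwards [h3 hη] with t ht
    simpa [Real.norm_eq_abs] using ht
  have h2 := (Filter.eventually_all (ι := Fin 3)).2 h1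
  obtain ⟨δ, hδ, h3⟩ := Metric.eventually_nhds_iff.1 h2
  refine ⟨δ / 2, by positivity, fun k t ht => h3 ?_ k⟩
  rw [dist_zero_right, Real.norm_eq_abs]
  linarith

/-- **The ray set.** -/
theorem exists_ray_set {Ω : Set V} (hΩ : IsOpen Ω) (hμΩ : volume Ω ≠ ⊤) {f : V → V}
    {F : V → V →L[ℝ] V} (hf : ContinuousOn f Ω)
    (hF : AEStronglyMeasurable F (volume.restrict Ω)) (hw : WeakDeriv (volume : Measure V) Ω f F)
    {p : ℝ} (hp : 1 ≤ p) (hFp : ∫⁻ z in Ω, ‖F z‖ₑ ^ p ≠ ⊤) {K : Set V} (hK : MeasurableSet K)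
    (hKΩ : K ⊆ Ω) {ε : ℝ≥0∞} (hε : ε ≠ 0) :
    ∃ T ⊆ K, IsCompact T ∧ volume (K \ T) ≤ ε ∧ ContinuousOn F T ∧
      ∀ η : ℝ, 0 < η → ∃ δ > 0, ∀ x ∈ T, ball x δ ⊆ Ω ∧
        (∀ r, 0 < r → r ≤ δ →
          ∫⁻ z in ball x r, ‖F z - F x‖ₑ ^ p ≤ ENNReal.ofReal η ^ p * volume (ball x r)) ∧
        (∀ y ∈ T, ‖y - x‖ ≤ δ →
          ‖F y - F x‖ ≤ η ∧ ‖f y - f x - F x (y - x)‖ ≤ η * ‖y - x‖) ∧
        ∀ k : Fin 3, ∀ t : ℝ, |t| ≤ δ →
          ‖f (x + t • (ev k : V)) - f x - t • F x (ev k)‖ ≤ η * |t| := by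
  classical
  have hε2 : ε / 2 ≠ 0 := (ENNReal.half_pos hε).ne'
  have hFl : LocallyIntegrableOn F Ω :=
    (HB.integrableOn_of_rpow hμΩ hF hp hFp).locallyIntegrableOn
  obtain ⟨T₀, hT₀K, hT₀c, hT₀v, hT₀F, hT₀⟩ := HB.exists_lusin_set (μ := (volume : Measure V)) hΩ hμΩ
    hf hF hw hp hFp hK hKΩ hε2
  have hT₀Ω : T₀ ⊆ Ω := hT₀K.trans hKΩ
  have hT₀t : volume T₀ ≠ ⊤ := hT₀c.measure_lt_top.ne
  -- a collar
  obtain ⟨r, hr, hrΩ⟩ : ∃ r > 0, ∀ x ∈ T₀, closedBall x r ⊆ Ω := by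
    obtain ⟨r, hr, h⟩ := hT₀c.exists_cthickening_subset_open hΩ hT₀Ω
    exact ⟨r, hr, fun x hx y hy => h (mem_cthickening_of_dist_le y x r _ hx hy)⟩
  have hline : ∀ᵐ x ∂(volume : Measure V), ∀ k : Fin 3, x ∈ Ω →
      HasLineDerivAt ℝ f (F x (ev k)) x (ev k) := by
    rw [ae_all_iff]
    exact fun k => ae_hasLineDerivAt hΩ hf hF hFl hw (ev k)
  -- the sets
  let d : ℕ → ℝ := fun i => r / (i + 1)
  have hd0 : ∀ i, 0 < d i := fun i => by
    have : (0:ℝ) < i + 1 := by positivity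
    exact div_pos hr this
  have hdr : ∀ i, d i ≤ r := fun i => by
    refine div_le_self hr.le ?_
    have : (0:ℝ) ≤ i := Nat.cast_nonneg i
    linarith
  have hd : Tendsto d atTop (𝓝 0) := by
    have := (tendsto_one_div_add_atTop_nhds_zero_nat (𝕜 := ℝ)).const_mul r
    rw [mul_zero] at this
    refine this.congr fun i => ?_
    show r * (1 / ((i:ℝ) + 1)) = r / (i + 1)
    ring
  have hmono : ∀ η : ℝ, Monotone fun i => RayOK f F T₀ η (d i) := by
    intro η i j hij x hx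
    refine ⟨hx.1, fun k t ht => hx.2 k t (ht.trans ?_)⟩
    have h1 : (i:ℝ) ≤ j := by exact_mod_cast hij
    have h2 : (0:ℝ) < (i:ℝ) + 1 := by positivity
    exact div_le_div_of_nonneg_left hr.le h2 (by linarith)
  have hex : ∀ m : ℕ, ∃ i : ℕ, volume (T₀ \ RayOK f F T₀ (1 / ((m:ℝ) + 1)) (d i)) ≤
      ε / 2 / 2 ^ (m + 1) := by
    intro m
    set η : ℝ := 1 / ((m:ℝ) + 1) with hη
    have hη0 : 0 < η := by positivity
    set S : ℕ → Set V := fun i => RayOK f F T₀ η (d i) with hS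
    have hSm : ∀ i, MeasurableSet (S i) := fun i =>
      (isCompact_rayOK hf hT₀c hT₀F (fun x hx => (closedBall_subset_closedBall (hdr i)).trans
        (hrΩ x hx)) (hd0 i)).measurableSet
    have hcov : volume (T₀ \ ⋃ i, S i) = 0 := by
      refine measure_mono_null ?_ (ae_iff.1 hline)
      intro x hx hall
      refine hx.2 ?_
      obtain ⟨δ, hδ, h⟩ := exists_rayOK (fun k => hall k (hT₀Ω hx.1)) hη0
      obtain ⟨i, hi⟩ := (hd.eventually_lt_const hδ).exists
      exact mem_iUnion.2 ⟨i, hx.1, fun k t ht => h k t (ht.trans hi.le)⟩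
    have hanti : Antitone fun i => T₀ \ S i := fun i j hij =>
      sdiff_subset_sdiff_right (hmono η hij)
    have hlim : Tendsto (fun i => volume (T₀ \ S i)) atTop (𝓝 0) := by
      have h1 := tendsto_measure_iInter_atTop (μ := (volume : Measure V))
        (fun i => (hT₀c.measurableSet.diff (hSm i)).nullMeasurableSet) hanti
        ⟨0, ne_top_of_le_ne_top hT₀t (measure_mono sdiff_subset)⟩
      rwa [← sdiff_iUnion, hcov] at h1
    have hpos : 0 < ε / 2 / 2 ^ (m + 1) := by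
      refine ENNReal.div_pos hε2 ?_
      exact ENNReal.pow_ne_top (by norm_num)
    exact (hlim.eventually (ge_mem_nhds hpos)).exists
  choose i hi using hex
  set T : Set V := ⋂ m : ℕ, RayOK f F T₀ (1 / ((m:ℝ) + 1)) (d (i m)) with hT
  have hTT₀ : T ⊆ T₀ := fun x hx => (mem_iInter.1 hx 0).1
  have hTc : IsCompact T := by
    refine hT₀c.of_isClosed_subset (isClosed_iInter fun m => ?_) hTT₀
    exact (isCompact_rayOK hf hT₀c hT₀F (fun x hx => (closedBall_subset_closedBall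
      (hdr _)).trans (hrΩ x hx)) (hd0 _)).isClosed
  refine ⟨T, hTT₀.trans hT₀K, hTc, ?_, hT₀F.mono hTT₀, fun η hη => ?_⟩
  · have h1 : K \ T ⊆ (K \ T₀) ∪ ⋃ m : ℕ, (T₀ \ RayOK f F T₀ (1 / ((m:ℝ) + 1)) (d (i m))) := by
      rintro x ⟨hxK, hxT⟩
      by_cases hx : x ∈ T₀
      · right
        rw [hT, mem_iInter] at hxT
        push Not at hxT
        obtain ⟨m, hm⟩ := hxT
        exact mem_iUnion.2 ⟨m, hx, hm⟩
      · exact Or.inl ⟨hxK, hx⟩
    have h2 : ∑' m : ℕ, ε / 2 / 2 ^ (m + 1) = ε / 2 := by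
      have h3 : ∀ m : ℕ, ε / 2 / 2 ^ (m + 1) = ε / 2 * (2⁻¹) ^ (m + 1) := fun m => by
        rw [div_eq_mul_inv, ENNReal.inv_pow]
      simp_rw [h3]
      rw [ENNReal.tsum_mul_left, ENNReal.tsum_geometric_add_one, ENNReal.one_sub_inv_two,
        ENNReal.mul_inv_cancel (by norm_num) (by norm_num), mul_one]
    calc volume (K \ T) ≤ volume (K \ T₀) +
          volume (⋃ m : ℕ, (T₀ \ RayOK f F T₀ (1 / ((m:ℝ) + 1)) (d (i m)))) :=
          (measure_mono h1).trans (measure_union_le _ _)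
      _ ≤ ε / 2 + ∑' m : ℕ, ε / 2 / 2 ^ (m + 1) := by
          gcongr
          exact (measure_iUnion_le _).trans (ENNReal.tsum_le_tsum hi)
      _ = ε := by rw [h2, ENNReal.add_halves]
  · obtain ⟨δ, hδ, h1⟩ := hT₀ η hη
    obtain ⟨m, hm⟩ := exists_nat_one_div_lt hη
    refine ⟨min δ (d (i m)), lt_min hδ (hd0 _), fun x hx => ?_⟩
    obtain ⟨g1, g2, -, g4⟩ := h1 x (hTT₀ hx)
    refine ⟨(ball_subset_ball (min_le_left _ _)).trans g1, fun r hr hr' => g2 r hr
      (hr'.trans (min_le_left _ _)), fun y hy hyx => g4 y (hTT₀ hy)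
      (hyx.trans (min_le_left _ _)), fun k t ht => ?_⟩
    have h2 := (mem_iInter.1 hx m).2 k t (ht.trans (min_le_right _ _))
    exact h2.trans (mul_le_mul_of_nonneg_right hm.le (abs_nonneg t))

end Vale.Agent.P073.H989
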