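import Vale.Agent.P073.H803.RD

/-!
# P073, block B09, [ST1]: the data of Round 1 from a given conical map

`exists_rd_from`: 803's `exists_rd` where the homeomorphism before Round 1 is a given conical map
`h₀` outside of the cells of the inner blocks; in particular on all cubes which are not solid.
-/

namespace Vale.Agent.P073.H989

open MeasureTheory Set Filter Topology Metric Vale.Agent.P073.St
open Vale.Agent.P073.SQ (ev)
open Vale.Agent.P073.AB Vale.Agent.P073.AB.P86 Vale.Agent.P073.AB.S308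
open Vale.Agent.P073.H73 (Mesh MinEdge segP onSeg ctr)
open Vale.Agent.P073.H687
open Vale.Agent.P073.H304 (af afi Blocks Link Zn R1Out K3C round1_all)
open Vale.Agent.P073.H622 (NetB thF kF CF κF LF bF af_LF exists_h0M_from CF_pos thF_pos κF_pos)
open Vale.Agent.P073.H696 (Boxes HF am blk blkS solid deep part1 Dom IsNear)
open Vale.Agent.P073.H726 (LBOn)
open Vale.Agent.P073.H803
open _root_.P073 (ConHomeo)
open _root_.P073.Net (dyc dyo len)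
open scoped ENNReal

variable {p D : ℝ} {J : ℝ → ℕ} {Δ Mg : ℝ → ℝ} {Ω Λ : Set V} {f : V → V} {F : V → Mat} {v : V}
  {I K : Set Idx} {x : Idx → V} {n N N' : Idx → ℕ} {k₁ : V → ℕ} {c₀ τ rσ : V → ℝ}
  {δ εs : Idx × Fin 3 → ℝ}

/-- **the data of Round 1 exist**, from a given conical map, for all tolerances -/
theorem exists_rd_from (hp : 1 ≤ p) (hR : R1All p D J Δ Mg) (hΩ : St.IsBoundedDomain Ω)
    (hΛ : St.IsBoundedDomain Λ) (hf : St.IsHomeo Ω Λ f) {a : V → ℕ} (ha : ∀ y, 4 ≤ a y)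
    {κ₀ : V → ℝ} (hN : ∀ y, RN p J Δ F a k₁ c₀ τ κ₀ y) {κ μ : V → ℝ}
    (hκ : ∀ y, 0 < κ y ∧ κ y ≤ κ₀ y) {ε M₀ : ℝ} {c : ℝ≥0∞} {τ' φ : V → ℝ} {nn : ℕ → ℕ}
    {s : V → ℕ} (hs : ∀ y, s y = a y + k₁ y + kF F k₁ y)
    (B : Boxes p ε M₀ c τ' φ κ μ s Ω Λ f F v nn K x) {r : V → ℝ} {εD : ℝ≥0∞}
    {tolD : Idx → ℝ≥0∞}
    (Dm : Dom Ω v (HF p Ω F) K (fun k => k.1 + a (x k)) (fun k => k.1 + s (x k)) r εD tolD I N')
    {rσ : V → ℝ} (hr : LBOn Ω rσ) (hδ : ∀ e, 0 < δ e) (hεs : ∀ s, 0 < εs s) :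
    ∃ (m : V → ℝ) (δ' : Idx × Fin 3 → ℝ), ContinuousOn m Ω ∧ (∀ y ∈ Ω, 0 < m y) ∧
      (∀ y ∈ Ω, m y ≤ rσ y) ∧ (∀ e, 0 < δ' e) ∧ (∀ e, δ' e ≤ δ e) ∧
    ∀ h₀ : ConHomeo Ω Λ, Near0 v I f F Ω m δ' h₀.toFun →
    ∃ X : RD p D J Δ Mg Ω Λ f F v I K x (fun k => k.1 + a (x k)) (fun k => k.1 + s (x k)) N'
      k₁ c₀ τ rσ δ εs,
      ∀ y ∈ Ω, (∀ k ∈ K, ∀ z ∈ blk k (k.1 + a (x k)), y ∉ interior (dyc v (k.1 + a (x k)) z)) →
        X.h.toFun y = h₀.toFun y := by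
  have ha' : ∀ k : Idx, k.1 < k.1 + a (x k) := fun k => by have := ha (x k); omega
  have hNn : ∀ k ∈ K, k.1 + s (x k) = k.1 + a (x k) + k₁ (x k) + kF F k₁ (x k) :=
    fun k _ => by rw [hs]; omega
  have hG : BlkG Ω v I K (fun k => k.1 + a (x k)) (fun k => k.1 + s (x k)) N'
      (fun k => k₁ (x k)) (fun k => blk k (k.1 + a (x k))) :=
    blkG_of_dom (n := fun k => k.1 + a (x k)) hΩ.1 Dm
      (fun k hk => ⟨(B.pt k hk).2.1, (ha' k).le⟩) B.disj B.fin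
      (fun k hk => ⟨by have := (hN (x k)).k3; omega, by rw [hNn k hk]; omega⟩)
  obtain ⟨σ, hσc, hσ0, hσk, m, δ', m1, m2, m3, m4, m5, hex⟩ := exists_h0M_from (τ := fun k => τ (x k))
    (c₀ := fun k => c₀ (x k)) (L := fun k => LF F (x k)) (b := fun k => bF f F (x k))
    (n := fun k => k.1 + a (x k)) (J := J) (Δ := Δ) hp hΩ hΛ hf B
    hG.part Dm.near k₁ (fun k _ => (hN (x k)).k3) (fun k _ => ha' k) (fun k _ => rfl) hNn
    (fun k _ => (hκ _).2.trans (hN (x k)).κF) (fun k hk y => af_LF (B.pt k hk).2.2.1 y)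
    (fun k _ => by
      show κ (x k) / 2 ^ k.1 ≤ 1 / 2 ^ (k.1 + a (x k))
      calc κ (x k) / 2 ^ k.1 ≤ 1 / 2 ^ a (x k) / 2 ^ k.1 := by
            gcongr
            exact (hκ _).2.trans (hN (x k)).κ1
        _ = _ := by rw [pow_add]; ring)
    (fun k _ => (hN (x k)).C1)
    (fun k _ => by
      show κ (x k) / 2 ^ (k.1 + s (x k)) ≤ thF F (x k) * τ (x k) / 2 / 2 ^ (k.1 + a (x k))
      have h2 := (hκ (x k)).2.trans (hN (x k)).κτ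
      have h3 := (hκ (x k)).1
      calc κ (x k) / 2 ^ (k.1 + s (x k)) ≤ κ (x k) / 2 ^ (k.1 + a (x k)) := by
            refine div_le_div_of_nonneg_left h3.le (by positivity) ?_
            refine pow_le_pow_right₀ (by norm_num) ?_
            rw [hs]
            omega
        _ ≤ _ := by gcongr)
    (fun k _ => (hN (x k)).J1) (fun k _ => (hN (x k)).c0) (fun k _ => (hN (x k)).t1)
    (fun k _ => (hN (x k)).t2) hr hδ
  refine ⟨m, δ', m1, m2, fun y hy => (m3 y hy).trans (hσ0 y hy).2, m4, m5, fun h₀ H₀ => ?_⟩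
  obtain ⟨h, NB, T, hk⟩ := hex h₀ H₀
  have lk := fun (G : BlkG Ω v I K (fun k => k.1 + a (x k)) (fun k => k.1 + s (x k)) N'
      (fun k => k₁ (x k)) (fun k => blk k (k.1 + a (x k)))) =>
    G.link T (x := x) (F := F) fun k hk y => af_LF (B.pt k hk).2.2.1 y
  obtain ⟨ε', hε1, hε2⟩ := (lk hG).dy.exists_tol hεs
  obtain ⟨h₁, g, hg⟩ := hR.2 Ω Λ hΩ hΛ v (hG.mg1 T).mesh h (hG.blocks T) ε' hε1
  exact ⟨⟨hG, h, σ, hσc, hσ0, hσk, NB, T, ε', hε1, hε2, h₁, g, hg, lk hG⟩, hk⟩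

/-- a cube which is not solid is off the cells of the inner blocks -/
theorem notMem_blk {v : V} {K : Set Idx} {n : Idx → ℕ} {I₁ : Set Idx} {q : Idx}
    (hq : q ∈ I₁ \ solid v K n I₁) {y : V} (hy : y ∈ dyc v q.1 q.2) :
    ∀ k ∈ K, ∀ z ∈ blk k (n k), y ∉ dyc v (n k) z := by
  intro k hk z hz hyz
  exact hq.2 ⟨hq.1, k, hk, y, hy, mem_biUnion hz hyz⟩

/-- the form with a predicate `Q` of the given map: `X.h = h₀` off the open cells of the inner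
blocks, and on all cubes which are not solid -/
theorem exists_rd_of (hp : 1 ≤ p) (hR : R1All p D J Δ Mg) (hΩ : St.IsBoundedDomain Ω)
    (hΛ : St.IsBoundedDomain Λ) (hf : St.IsHomeo Ω Λ f) {a : V → ℕ} (ha : ∀ y, 4 ≤ a y)
    {κ₀ : V → ℝ} (hN : ∀ y, RN p J Δ F a k₁ c₀ τ κ₀ y) {κ μ : V → ℝ}
    (hκ : ∀ y, 0 < κ y ∧ κ y ≤ κ₀ y) {ε M₀ : ℝ} {c : ℝ≥0∞} {τ' φ : V → ℝ} {nn : ℕ → ℕ}
    {s : V → ℕ} (hs : ∀ y, s y = a y + k₁ y + kF F k₁ y)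
    (B : Boxes p ε M₀ c τ' φ κ μ s Ω Λ f F v nn K x) {r : V → ℝ} {εD : ℝ≥0∞}
    {tolD : Idx → ℝ≥0∞}
    (Dm : Dom Ω v (HF p Ω F) K (fun k => k.1 + a (x k)) (fun k => k.1 + s (x k)) r εD tolD I N')
    {rσ : V → ℝ} (hr : LBOn Ω rσ) (hδ : ∀ e, 0 < δ e) (hεs : ∀ s, 0 < εs s)
    {Q : (V → V) → Prop}
    (hQ : ∀ (m : V → ℝ) (δ' : Idx × Fin 3 → ℝ), ContinuousOn m Ω → (∀ y ∈ Ω, 0 < m y) →
      (∀ e, 0 < δ' e) → ∃ h₀ : ConHomeo Ω Λ, Near0 v I f F Ω m δ' h₀.toFun ∧ Q h₀.toFun) :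
    ∃ (h₀ : ConHomeo Ω Λ) (X : RD p D J Δ Mg Ω Λ f F v I K x (fun k => k.1 + a (x k))
      (fun k => k.1 + s (x k)) N' k₁ c₀ τ rσ δ εs), Q h₀.toFun ∧
      (∀ y ∈ Ω, (∀ k ∈ K, ∀ z ∈ blk k (k.1 + a (x k)),
        y ∉ interior (dyc v (k.1 + a (x k)) z)) → X.h.toFun y = h₀.toFun y) ∧
      ∀ q ∈ part1 v K (fun k => k.1 + a (x k)) (fun k => k₁ (x k)) I \
          solid v K (fun k => k.1 + a (x k))
            (part1 v K (fun k => k.1 + a (x k)) (fun k => k₁ (x k)) I),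
        EqOn X.h.toFun h₀.toFun (dyc v q.1 q.2) := by
  obtain ⟨m, δ', m1, m2, -, m4, -, hex⟩ := exists_rd_from hp hR hΩ hΛ hf ha hN hκ hs B Dm hr hδ hεs
  obtain ⟨h₀, H₀, H₁⟩ := hQ m δ' m1 m2 m4
  obtain ⟨X, hX⟩ := hex h₀ H₀
  refine ⟨h₀, X, H₁, hX, fun q hq y hy => hX y ?_ fun k hk z hz hyz => ?_⟩
  · have hU := X.link.mem_U hq
    exact X.G.part1.sub q hq.1 hy
  · exact notMem_blk hq hy k hk z hz (interior_subset hyz)

end Vale.Agent.P073.H989
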