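import Vale.Agent.P073.H989.ChainB

/-!
# P073, [SOLVOL]: the sum over the solid cubes of a box, with constants of the cubes
-/

namespace Vale.Agent.P073.H989

open MeasureTheory Set Filter Topology Metric Vale.Agent.P073.St
open Vale.Agent.P073.AB (Idx cl)
open Vale.Agent.P073.H696 (HF am Boxes blk blkS deep)
open Vale.Agent.P073.H911
open P073.Net (dyc dyo)
open scoped ENNReal NNReal

/-- **[SOLVOL]** `E₀`: constant of the cubes in the inner cube of the box (without `M` layers of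
cells), `E₁`: constant of all solid cubes -/
theorem sol_sum_le {v : V} {S : Set Idx} {n : Idx → ℕ} {k : Idx} {a M : ℕ} {c E₀ E₁ : ℝ}
    {Eq : Idx → ℝ}
    (hS : ∀ q ∈ S, ∀ q' ∈ S, q ≠ q' → Disjoint (dyo v q.1 q.2) (dyo v q'.1 q'.2))
    (hn : n k = k.1 + a) (hc : 0 < c) (hc1 : c ≤ 1 / 16) (hE₀ : 0 ≤ E₀) (hE₁ : 0 ≤ E₁)
    (hsz : ∀ q ∈ S, dyc v q.1 q.2 ⊆ dyc v k.1 k.2 → 1 / 2 ^ q.1 ≤ c / 2 ^ n k)
    (h1 : ∀ q ∈ S, dyc v q.1 q.2 ⊆ dyc v k.1 k.2 → Eq q ≤ E₁)
    (h2 : ∀ q ∈ S, dyc v q.1 q.2 ⊆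
      closedBall (H73.ctr v k.1 k.2) ((1 / 2 - M / 2 ^ a) / 2 ^ k.1) → Eq q ≤ E₀) :
    ∑' q : {q : Idx // q ∈ S ∧ dyc v q.1 q.2 ⊆ dyc v k.1 k.2},
      ENNReal.ofReal (Eq q.1) * volume (dyc v q.1.1 q.1.2 \ deep v n (4 * c) k) ≤
    ENNReal.ofReal (E₀ * (18 / 2 ^ a + 24 * c) + E₁ * (6 * (M + 1) / 2 ^ a)) *
      volume (dyc v k.1 k.2) := by
  classical
  set R : ℝ := (1 / 2 - M / 2 ^ a) / 2 ^ k.1 with hR
  set T1 : Set Idx := {q | (q ∈ S ∧ dyc v q.1 q.2 ⊆ dyc v k.1 k.2) ∧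
    dyc v q.1 q.2 ⊆ closedBall (H73.ctr v k.1 k.2) R} with hT1
  set T2 : Set Idx := {q | (q ∈ S ∧ dyc v q.1 q.2 ⊆ dyc v k.1 k.2) ∧
    ¬ dyc v q.1 q.2 ⊆ closedBall (H73.ctr v k.1 k.2) R} with hT2
  set f : Idx → ℝ≥0∞ := fun q =>
    ENNReal.ofReal (Eq q) * volume (dyc v q.1 q.2 \ deep v n (4 * c) k) with hf
  have hsub : {q : Idx | q ∈ S ∧ dyc v q.1 q.2 ⊆ dyc v k.1 k.2} ⊆ T1 ∪ T2 := by
    rintro q hq
    by_cases h : dyc v q.1 q.2 ⊆ closedBall (H73.ctr v k.1 k.2) R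
    · exact Or.inl ⟨hq, h⟩
    · exact Or.inr ⟨hq, h⟩
  have hnk : k.1 ≤ n k := by omega
  have hm1 : MeasurableSet (dyc v k.1 k.2 \ deep v n (4 * c) k) :=
    (measurableSet_dyc _ _ _).diff (measurableSet_deep _ _ _ _)
  have hdd : ∀ q : Idx, dyo v q.1 q.2 ⊆ dyc v q.1 q.2 := fun q =>
    (dyo_sub_hc _ _ _).trans (hc_sub_dyc _ _ _)
  have ha : n k - k.1 = a := by omega
  have hs1 : ∑' q : T1, f q ≤ ENNReal.ofReal E₀ *
      (ENNReal.ofReal (18 / 2 ^ a + 24 * c) * volume (dyc v k.1 k.2)) := by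
    have h3 := tsum_dyc_le (v := v) (k := fun q : T1 => q.1)
      (S := dyc v k.1 k.2 \ deep v n (4 * c) k)
      (fun q q' hqq => hS q.1 q.2.1.1 q'.1 q'.2.1.1 fun h => hqq (Subtype.ext h))
      hm1.nullMeasurableSet (fun _ => 1)
    simp only [lintegral_const, Measure.restrict_apply MeasurableSet.univ, univ_inter,
      one_mul] at h3
    calc ∑' q : T1, f q
        ≤ ∑' q : T1, ENNReal.ofReal E₀ *
          volume (dyc v q.1.1 q.1.2 ∩ (dyc v k.1 k.2 \ deep v n (4 * c) k)) := by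
          refine ENNReal.tsum_le_tsum fun q => ?_
          simp only [hf]
          refine mul_le_mul' (ENNReal.ofReal_le_ofReal (h2 q.1 q.2.1.1 q.2.2))
            (measure_mono fun y hy => ⟨hy.1, q.2.1.2 hy.1, hy.2⟩)
      _ = ENNReal.ofReal E₀ * ∑' q : T1,
          volume (dyc v q.1.1 q.1.2 ∩ (dyc v k.1 k.2 \ deep v n (4 * c) k)) :=
          ENNReal.tsum_mul_left
      _ ≤ ENNReal.ofReal E₀ * volume (dyc v k.1 k.2 \ deep v n (4 * c) k) := by gcongr
      _ ≤ _ := by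
          gcongr
          refine (volume_sdiff_deep v n hnk (by linarith) (by linarith)).trans (le_of_eq ?_)
          rw [ha]
          congr 2
          ring
  -- the outer layers
  set t : ℝ := 2 * (M + 1) / 2 ^ a with ht
  have hvol : volume (dyc v k.1 k.2 \ ball (ctr v k.1 k.2) ((1 - t) * hs k.1)) ≤
      ENNReal.ofReal (6 * (M + 1) / 2 ^ a) * volume (dyc v k.1 k.2) := by
    rcases le_total t 1 with h3 | h3
    · have h4 := volume_sdiff_ball (ctr v k.1 k.2) (hs_pos k.1) (show 0 ≤ t by positivity) h3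
      rw [dyc_eq]
      refine h4.trans (le_of_eq ?_)
      congr 2
      rw [ht]
      ring
    · have h4 : (1 : ℝ) ≤ 6 * (M + 1) / 2 ^ a := by
        have e : (6 * (M + 1) : ℝ) / 2 ^ a = 3 * t := by rw [ht]; ring
        rw [e]
        linarith
      calc volume (dyc v k.1 k.2 \ ball (ctr v k.1 k.2) ((1 - t) * hs k.1))
          ≤ 1 * volume (dyc v k.1 k.2) := by
            rw [one_mul]
            exact measure_mono sdiff_subset
        _ ≤ _ := by
            gcongr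
            rw [← ENNReal.ofReal_one]
            exact ENNReal.ofReal_le_ofReal h4
  have hs2 : ∑' q : T2, f q ≤ ENNReal.ofReal E₁ *
      (ENNReal.ofReal (6 * (M + 1) / 2 ^ a) * volume (dyc v k.1 k.2)) := by
    calc ∑' q : T2, f q ≤ ∑' q : T2, ENNReal.ofReal E₁ * volume (dyc v q.1.1 q.1.2) := by
          refine ENNReal.tsum_le_tsum fun q => ?_
          simp only [hf]
          exact mul_le_mul' (ENNReal.ofReal_le_ofReal (h1 q.1 q.2.1.1 q.2.1.2))
            (measure_mono sdiff_subset)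
      _ = ENNReal.ofReal E₁ * ∑' q : T2, volume (dyc v q.1.1 q.1.2) := ENNReal.tsum_mul_left
      _ ≤ ENNReal.ofReal E₁ *
          volume (dyc v k.1 k.2 \ ball (ctr v k.1 k.2) ((1 - t) * hs k.1)) := by
          gcongr
          refine tsum_vol_le (fun q hq q' hq' => hS q hq.1.1 q' hq'.1.1)
            ((measurableSet_dyc _ _ _).diff measurableSet_ball) fun q hq => ?_
          obtain ⟨y₀, hy₀, hy₀R⟩ := Set.not_subset.1 hq.2
          refine fun y hy => ⟨hq.1.2 (hdd q hy), fun hyb => hy₀R ?_⟩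
          rw [mem_ball] at hyb
          rw [ctr_eq73, mem_closedBall]
          have h3 : dist y₀ y ≤ 1 / 2 ^ q.1 := by
            have := dyc_subset_closedBall (hdd q hy) hy₀
            rwa [mem_closedBall] at this
          have h4 := hsz q hq.1.1 hq.1.2
          have h5 : c / 2 ^ n k ≤ 1 / 2 ^ a / 2 ^ k.1 := by
            rw [hn, pow_add, div_div, mul_comm ((2 : ℝ) ^ a)]
            gcongr
            linarith
          have h6 : (1 - t) * hs k.1 + 1 / 2 ^ a / 2 ^ k.1 = R := by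
            rw [ht, hR]
            unfold hs
            ring
          have h7 : dist y₀ (ctr v k.1 k.2) ≤ dist y₀ y + dist y (ctr v k.1 k.2) :=
            dist_triangle _ _ _
          linarith
      _ ≤ _ := by gcongr
  calc ∑' q : {q : Idx // q ∈ S ∧ dyc v q.1 q.2 ⊆ dyc v k.1 k.2}, f q.1
      ≤ ∑' q : (T1 ∪ T2 : Set Idx), f q := ENNReal.tsum_mono_subtype f hsub
    _ ≤ ∑' q : T1, f q + ∑' q : T2, f q := ENNReal.tsum_union_le f T1 T2
    _ ≤ _ := (add_le_add hs1 hs2).trans (le_of_eq (by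
        rw [ENNReal.ofReal_add (p := E₀ * (18 / 2 ^ a + 24 * c)) (by positivity) (by positivity),
          ENNReal.ofReal_mul hE₀, ENNReal.ofReal_mul hE₁]
        ring))

end Vale.Agent.P073.H989
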