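import Vale.Agent.P073.H989.SqzDeriv
import Vale.Agent.P073.SQ.Spec

open Set Metric Topology Filter MeasureTheory
open scoped NNReal
open Vale.Agent.P073.St Vale.Agent.P073.SQ

namespace Vale.Agent.P073.H989

/-- The coordinate functional on `V`. -/
noncomputable abbrev lj (j : Fin 3) : V →L[ℝ] ℝ := ContinuousLinearMap.proj j

theorem hp_apply (j : Fin 3) (w : V) (i : Fin 3) :
    hp (lj j) (ev j) w i = if i = j then 0 else w i := by
  by_cases h : i = j
  · subst h; simp [hp, ev]
  · simp [hp, ev, h]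

theorem norm_ev (j : Fin 3) : ‖ev j‖ = 1 := by
  unfold ev; rw [Pi.norm_single]; simp

theorem norm_hp_le_iff {j : Fin 3} {w : V} {s : ℝ} (hs : 0 ≤ s) :
    ‖hp (lj j) (ev j) w‖ ≤ s ↔ ∀ i, i ≠ j → |w i| ≤ s := by
  rw [pi_norm_le_iff_of_nonneg hs]
  constructor
  · intro h i hi
    have := h i
    rwa [hp_apply, if_neg hi] at this
  · intro h i
    rw [hp_apply]
    split_ifs with hi
    · simpa using hs
    · exact h i hi

/-- The chain rule for Lipschitz maps of the target (output of `H726.Comp`). -/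
def LipChain (p : ℝ) (Ω : Set V) (f : V → V) (F : V → Mat) : Prop :=
  ∀ (T : V → V) (K : ℝ≥0), LipschitzWith K T → ∃ G : V → Mat,
    IsSobolev p Ω (fun x => T (f x)) G ∧ ∀ᵐ x ∂(volume : Measure V), x ∈ Ω → ∀ k,
      HasDerivAt (fun t : ℝ => f (x + t • ev k)) (fun i => F x i k) 0 ∧
      HasDerivAt (fun t : ℝ => T (f (x + t • ev k))) (fun i => G x i k) 0

theorem LipChain.scalar {p : ℝ} {Ω : Set V} {f : V → V} {F : V → Mat} (h : LipChain p Ω f F)
    {u : V → ℝ} {K : ℝ} (hu : ∀ y z, |u y - u z| ≤ K * ‖y - z‖) :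
    ∀ᵐ x ∂(volume : Measure V), x ∈ Ω → ∀ k, ∃ d : ℝ,
      HasDerivAt (fun t : ℝ => u (f (x + t • ev k))) d 0 := by
  have hT : LipschitzWith (Real.toNNReal K) (fun y : V => (fun _ => u y : V)) := by
    refine LipschitzWith.of_dist_le_mul fun y z => ?_
    rw [dist_pi_le_iff (by positivity)]
    intro _
    rw [Real.dist_eq, dist_eq_norm]
    refine (hu y z).trans ?_
    exact mul_le_mul_of_nonneg_right (Real.le_coe_toNNReal K) (norm_nonneg _)
  obtain ⟨G, _, hG⟩ := h _ _ hT
  filter_upwards [hG] with x hx hxΩ k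
  have h2 := hasDerivAt_pi.1 (hx hxΩ k).2 0
  exact ⟨_, h2⟩

/-- **Block M3**: composition of a Sobolev map with the squeezing map. -/
theorem sqz_sobolev {j : Fin 3} {a H θ L : ℝ} {m : ℕ} {b : ℕ → V → ℝ} {χ : V → ℝ}
    (P : IsPack (lj j) (ev j) a H m b) (C : IsCut (ev j) θ H L m χ)
    {p : ℝ} {Ω : Set V} {f : V → V} {F : V → Mat} (hLC : LipChain p Ω f F) :
    ∃ G : V → Mat, IsSobolev p Ω (fun x => sqz (lj j) (ev j) θ H m b χ (f x)) G ∧
      ∀ᵐ x ∂(volume : Measure V), x ∈ Ω →
        (∀ i, i ≠ j → ∀ k, G x i k = F x i k) ∧ (χ (f x) = 0 → G x = F x) ∧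
        (χ (f x) = 1 → (∀ i < m, ¬ inStripe (lj j) H b i (f x)) → G x = F x) ∧
        (χ (f x) = 1 → (∃ i < m, inStripe (lj j) H b i (f x)) → ∀ k,
          |G x j k| ≤ (1 - θ) * |F x j k|
            + θ * (‖hp (lj j) (ev j) (fun i => F x i k)‖ / a)) ∧
        ((∀ i < m, ¬ inStripe (lj j) H b i (f x)) → ∀ k,
          |G x j k - F x j k| ≤ L * (m * H) * ‖(fun i => F x i k : V)‖) ∧
        ∀ k, |G x j k - F x j k| ≤ L * (m * H) * ‖(fun i => F x i k : V)‖ + |F x j k|
            + ‖hp (lj j) (ev j) (fun i => F x i k)‖ / a := by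
  have ha := P.ha
  -- the squeezing map is Lipschitz
  have hT : LipschitzWith (Real.toNNReal (1 + kap (lj j) (ev j) a L H m * ‖ev j‖))
      (sqz (lj j) (ev j) θ H m b χ) := by
    refine LipschitzWith.of_dist_le_mul fun y z => ?_
    rw [dist_eq_norm, dist_eq_norm]
    refine (sqz_lip P C y z).trans ?_
    exact mul_le_mul_of_nonneg_right (Real.le_coe_toNNReal _) (norm_nonneg _)
  obtain ⟨G, hG, hGd⟩ := hLC _ _ hT
  have hχ := hLC.scalar C.cL
  have hblip : ∀ i < m, ∀ y z : V, |b i y - b i z| ≤ ((1 + ‖lj j‖ * ‖ev j‖) / a) * ‖y - z‖ := by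
    intro i hi y z
    refine (P.lip i hi y z).trans ?_
    rw [div_mul_eq_mul_div]
    exact div_le_div_of_nonneg_right (IsPack.norm_hp_le _) ha.le
  have hb : ∀ᵐ x ∂(volume : Measure V), ∀ i, i < m → x ∈ Ω → ∀ k, ∃ d : ℝ,
      HasDerivAt (fun t : ℝ => b i (f (x + t • ev k))) d 0 := by
    rw [ae_all_iff]
    intro i
    by_cases hi : i < m
    · filter_upwards [hLC.scalar (hblip i hi)] with x hx _
      exact hx
    · exact Eventually.of_forall fun x h => absurd h hi
  have hcl : ∀ᵐ x ∂(volume : Measure V), ∀ i, i < m → x ∈ Ω → ∀ k, ∃ d : ℝ,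
      HasDerivAt (fun t : ℝ => cl H ((lj j) (f (x + t • ev k)) - b i (f (x + t • ev k)))) d 0 := by
    rw [ae_all_iff]
    intro i
    by_cases hi : i < m
    · have hu : ∀ y z : V, |cl H ((lj j) y - b i y) - cl H ((lj j) z - b i z)| ≤
          (‖lj j‖ + (1 + ‖lj j‖ * ‖ev j‖) / a) * ‖y - z‖ := by
        intro y z
        have h1 : ∀ s t : ℝ, |cl H s - cl H t| ≤ |s - t| := by
          intro s t
          rcases le_total s t with h | h
          · rw [abs_sub_comm, abs_sub_comm s t, abs_of_nonneg (by linarith [cl_mono (H := H) h]),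
              abs_of_nonneg (by linarith)]
            exact cl_sub_le h
          · rw [abs_of_nonneg (by linarith [cl_mono (H := H) h]), abs_of_nonneg (by linarith)]
            exact cl_sub_le h
        refine (h1 _ _).trans ?_
        have e1 : (lj j) y - b i y - ((lj j) z - b i z)
            = ((lj j) y - (lj j) z) - (b i y - b i z) := by ring
        rw [e1, add_mul]
        refine (abs_sub _ _).trans (add_le_add ?_ (hblip i hi y z))
        rw [← map_sub]
        exact (lj j).le_opNorm _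
      filter_upwards [hLC.scalar hu] with x hx _
      exact hx
    · exact Eventually.of_forall fun x h => absurd h hi
  refine ⟨G, hG, ?_⟩
  filter_upwards [hGd, hχ, hb, hcl] with x h1 h2 h3 h4 hx
  have key := fun k => sqz_deriv_regions P C (q := fun t : ℝ => f (x + t • ev k)) (h1 hx k).1
    (h2 hx k) (fun i hi => h3 i hi hx k) (fun i hi => h4 i hi hx k) (h1 hx k).2
  have hq0 : ∀ k, (fun t : ℝ => f (x + t • ev k)) 0 = f x := fun k => by simp
  simp only [zero_smul, add_zero] at key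
  refine ⟨?_, ?_, ?_, ?_, ?_, ?_⟩
  · intro i hi k
    have := congrFun (key k).1 i
    rwa [hp_apply, hp_apply, if_neg hi, if_neg hi] at this
  · intro h0
    funext i k
    exact congrFun ((key k).2.1 h0) i
  · intro h0 h5
    funext i k
    exact congrFun ((key k).2.2.1 h0 h5) i
  · intro h0 h5 k
    exact (key k).2.2.2.1 h0 h5
  · intro h5 k
    exact (key k).2.2.2.2.1 h5
  · intro k
    exact (key k).2.2.2.2.2

end Vale.Agent.P073.H989
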