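import Mathlib

open MeasureTheory Set Metric
open scoped ENNReal

namespace Vale.Agent.P073.H989

variable {E : Type*} [NormedAddCommGroup E] [NormedSpace ℝ E]

/-- The part of `y` transversal to the direction `e`. -/
def hp (l : E →L[ℝ] ℝ) (e : E) (y : E) : E := y - l y • e

/-- Curves which are `a`-Lipschitz graphs over the `l` axis, with direction `e`. -/
def IsCurve (l : E →L[ℝ] ℝ) (e : E) (a : ℝ) (g : ℝ → E) : Prop :=
  (∀ t, l (g t) = t) ∧ ∀ s t, ‖g t - g s - (t - s) • e‖ ≤ a * |t - s|

variable {l : E →L[ℝ] ℝ} {e : E} {a : ℝ}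

theorem hp_sub (x y : E) : hp l e (x - y) = hp l e x - hp l e y := by
  simp only [hp, map_sub, sub_smul]; abel

theorem hp_add (x y : E) : hp l e (x + y) = hp l e x + hp l e y := by
  simp only [hp, map_add, add_smul]; abel

@[simp] theorem hp_zero : hp l e 0 = 0 := by simp [hp]

theorem hp_neg (x : E) : hp l e (-x) = - hp l e x := by
  simp only [hp, map_neg, neg_smul]; abel

theorem hp_smul (c : ℝ) (x : E) : hp l e (c • x) = c • hp l e x := by
  simp only [hp, map_smul, smul_eq_mul, smul_sub, smul_smul]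

theorem hp_e (he : l e = 1) : hp l e e = 0 := by simp [hp, he]

theorem hp_add_smul_e (he : l e = 1) (x : E) (t : ℝ) : hp l e (x + t • e) = hp l e x := by
  rw [hp_add, hp_smul, hp_e he]; simp

theorem norm_hp_sub_comm (x y : E) : ‖hp l e (x - y)‖ = ‖hp l e (y - x)‖ := by
  rw [← neg_sub, hp_neg, norm_neg]

theorem continuous_hp : Continuous (hp l e) := by
  unfold hp; fun_prop

theorem IsCurve.glue {g₀ g₁ : ℝ → E} (h0 : IsCurve l e a g₀) (h1 : IsCurve l e a g₁) {c : ℝ}
    (hc : g₀ c = g₁ c) : IsCurve l e a (fun t => if t ≤ c then g₀ t else g₁ t) := by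
  refine ⟨fun t => ?_, ?_⟩
  · by_cases h : t ≤ c
    · simp [h, h0.1]
    · simp [h, h1.1]
  · have key : ∀ s t : ℝ, s ≤ t → ‖(if t ≤ c then g₀ t else g₁ t) - (if s ≤ c then g₀ s else g₁ s)
        - (t - s) • e‖ ≤ a * |t - s| := by
      intro s t hst
      by_cases ht : t ≤ c
      · have hs : s ≤ c := hst.trans ht
        simpa [ht, hs] using h0.2 s t
      · by_cases hs : s ≤ c
        · simp only [ht, hs, if_true, if_false]
          have e1 : g₁ t - g₀ s - (t - s) • e
              = (g₁ t - g₁ c - (t - c) • e) + (g₀ c - g₀ s - (c - s) • e) := by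
            rw [hc, sub_smul, sub_smul, sub_smul]; abel
          rw [e1]
          have h2 := h1.2 c t
          have h3 := h0.2 s c
          have ht' : c < t := not_le.1 ht
          rw [abs_of_nonneg (by linarith)] at h2 h3 ⊢
          calc _ ≤ _ := norm_add_le _ _
            _ ≤ a * (t - c) + a * (c - s) := add_le_add h2 h3
            _ = a * (t - s) := by ring
        · simpa [ht, hs] using h1.2 s t
    intro s t
    rcases le_total s t with h | h
    · exact key s t h
    · have h5 := key t s h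
      have h6 : ∀ p q : E, p - q - (t - s) • e = -(q - p - (s - t) • e) := by
        intro p q
        rw [sub_smul, sub_smul]; abel
      show ‖(if t ≤ c then g₀ t else g₁ t) - (if s ≤ c then g₀ s else g₁ s)
        - (t - s) • e‖ ≤ a * |t - s|
      rw [h6, norm_neg, abs_sub_comm]
      exact h5

theorem isCurve_line {x v : E} (hv : l v = 1) (hva : ‖v - e‖ ≤ a) :
    IsCurve l e a (fun t => x + (t - l x) • v) := by
  refine ⟨fun t => ?_, fun s t => ?_⟩
  · simp [hv]
  · have : x + (t - l x) • v - (x + (s - l x) • v) - (t - s) • e = (t - s) • (v - e) := by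
      simp only [sub_smul, smul_sub]; abel
    rw [this, norm_smul, Real.norm_eq_abs, mul_comm]
    exact mul_le_mul_of_nonneg_right hva (abs_nonneg _)

theorem mono_aux (k : ℕ) (x : ℕ → E) (hx : ∀ i < k, l (x i) < l (x (i + 1))) :
    ∀ i ≤ k, l (x i) ≤ l (x k) := by
  induction k with
  | zero =>
    intro i hi
    obtain rfl : i = 0 := by omega
    exact le_rfl
  | succ k ih2 =>
    intro i hi
    rcases Nat.lt_or_ge k i with h | h
    · obtain rfl : i = k + 1 := by omega
      exact le_rfl
    · exact (ih2 (fun i hi => hx i (by omega)) i h).trans (hx k (by omega)).le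

theorem exists_curve (he : l e = 1) (ha : 0 ≤ a) (k : ℕ) (x : ℕ → E)
    (hx : ∀ i < k, l (x i) < l (x (i + 1)) ∧
      ‖hp l e (x (i + 1) - x i)‖ ≤ a * (l (x (i + 1)) - l (x i))) :
    ∃ g : ℝ → E, IsCurve l e a g ∧ ∀ i ≤ k, g (l (x i)) = x i := by
  induction k with
  | zero =>
    refine ⟨fun t => x 0 + (t - l (x 0)) • e, isCurve_line he (by simpa using ha), ?_⟩
    intro i hi
    obtain rfl : i = 0 := by omega
    simp
  | succ k ih =>
    obtain ⟨g, hg, hgx⟩ := ih (fun i hi => hx i (by omega))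
    obtain ⟨h1, h2⟩ := hx k (by omega)
    have hmono : ∀ i ≤ k, l (x i) ≤ l (x k) := mono_aux k x (fun i hi => (hx i (by omega)).1)
    set d : ℝ := l (x (k + 1)) - l (x k) with hd
    have hd0 : 0 < d := by linarith
    set v : E := d⁻¹ • (x (k + 1) - x k) with hv
    have hlv : l v = 1 := by
      rw [hv, map_smul, map_sub, smul_eq_mul, ← hd]; field_simp
    have hve : ‖v - e‖ ≤ a := by
      have : v - e = d⁻¹ • hp l e (x (k + 1) - x k) := by
        rw [hp, smul_sub, ← hv, map_sub, ← hd, smul_smul, inv_mul_cancel₀ hd0.ne', one_smul]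
      rw [this, norm_smul, Real.norm_eq_abs, abs_of_pos (inv_pos.2 hd0)]
      rw [inv_mul_le_iff₀ hd0, mul_comm]
      exact h2
    refine ⟨fun t => if t ≤ l (x k) then g t else x k + (t - l (x k)) • v,
      hg.glue (isCurve_line hlv hve) (by simp [hgx k le_rfl]), ?_⟩
    intro i hi
    rcases Nat.lt_or_ge k i with h | h
    · obtain rfl : i = k + 1 := by omega
      have : ¬ l (x (k + 1)) ≤ l (x k) := by linarith
      simp only [this, if_false]
      rw [← hd, hv, smul_smul, mul_inv_cancel₀ hd0.ne', one_smul]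
      abel
    · simp only [hmono i h, if_true]
      exact hgx i h

theorem chain_bound (he : l e = 1) (ha : 0 ≤ a) {O : Set E} {H ε : ℝ} (hH : 0 < H) (hε : 0 ≤ ε)
    (k : ℕ) (x : ℕ → E)
    (hx : ∀ i < k, l (x i) + H ≤ l (x (i + 1)) ∧
      ‖hp l e (x (i + 1) - x i)‖ ≤ a * (l (x (i + 1)) - l (x i)))
    (hO : ∀ i ≤ k, closedBall (x i) ((‖e‖ + a) * (H / 2)) ⊆ O)
    (hw : ∀ g : ℝ → E, IsCurve l e a g → volume {t : ℝ | g t ∈ O} ≤ ENNReal.ofReal ε) :
    (k + 1 : ℝ) * H ≤ ε := by
  obtain ⟨g, hg, hgx⟩ := exists_curve he ha k x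
    (fun i hi => ⟨by linarith [(hx i hi).1], (hx i hi).2⟩)
  have hmono : ∀ i ≤ k, ∀ j < i, l (x j) + H ≤ l (x i) := by
    intro i hi
    induction i with
    | zero => intro j hj; omega
    | succ i ih =>
      intro j hj
      rcases Nat.lt_or_ge j i with h | h
      · have := ih (by omega) j h
        have := (hx i (by omega)).1
        linarith
      · obtain rfl : j = i := by omega
        exact (hx j (by omega)).1
  have hsub : (⋃ i ∈ Finset.range (k + 1), Ico (l (x i) - H / 2) (l (x i) + H / 2))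
      ⊆ {t : ℝ | g t ∈ O} := by
    intro t ht
    simp only [Finset.mem_range, mem_iUnion, mem_Ico, exists_prop] at ht
    obtain ⟨i, hi, ht1, ht2⟩ := ht
    have hik : i ≤ k := by omega
    apply hO i hik
    rw [mem_closedBall, dist_eq_norm, ← hgx i hik]
    have h1 := hg.2 (l (x i)) t
    have habs : |t - l (x i)| ≤ H / 2 := by rw [abs_le]; constructor <;> linarith
    calc ‖g t - g (l (x i))‖
        = ‖(g t - g (l (x i)) - (t - l (x i)) • e) + (t - l (x i)) • e‖ := by congr 1; abel
      _ ≤ a * |t - l (x i)| + |t - l (x i)| * ‖e‖ := by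
          refine (norm_add_le _ _).trans (add_le_add h1 ?_)
          rw [norm_smul, Real.norm_eq_abs]
      _ = (‖e‖ + a) * |t - l (x i)| := by ring
      _ ≤ (‖e‖ + a) * (H / 2) :=
          mul_le_mul_of_nonneg_left habs (by positivity)
  have hdisj : (↑(Finset.range (k + 1)) : Set ℕ).PairwiseDisjoint
      (fun i => Ico (l (x i) - H / 2) (l (x i) + H / 2)) := by
    intro i hi j hj hij
    simp only [Finset.coe_range, mem_Iio] at hi hj
    rw [Function.onFun, Set.disjoint_left]
    intro t ht1 ht2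
    simp only [mem_Ico] at ht1 ht2
    rcases lt_or_gt_of_ne hij with h | h
    · have := hmono j (by omega) i h
      linarith [ht1.1, ht1.2, ht2.1, ht2.2]
    · have := hmono i (by omega) j h
      linarith [ht1.1, ht1.2, ht2.1, ht2.2]
  have hvol : volume (⋃ i ∈ Finset.range (k + 1), Ico (l (x i) - H / 2) (l (x i) + H / 2))
      = ENNReal.ofReal ((k + 1 : ℝ) * H) := by
    rw [measure_biUnion_finset hdisj (fun i _ => measurableSet_Ico)]
    simp only [Real.volume_Ico]
    have : ∀ i ∈ Finset.range (k + 1),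
        ENNReal.ofReal (l (x i) + H / 2 - (l (x i) - H / 2)) = ENNReal.ofReal H := by
      intro i _; congr 1; ring
    rw [Finset.sum_congr rfl this, Finset.sum_const, Finset.card_range, nsmul_eq_mul,
      ENNReal.ofReal_mul (by positivity)]
    congr 1
    rw [show (k + 1 : ℝ) = ((k + 1 : ℕ) : ℝ) by push_cast; ring, ENNReal.ofReal_natCast]
  have h1 : ENNReal.ofReal ((k + 1 : ℝ) * H) ≤ ENNReal.ofReal ε := by
    rw [← hvol]; exact (measure_mono hsub).trans (hw g hg)
  exact (ENNReal.ofReal_le_ofReal_iff hε).1 h1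

/-- Lower envelope of the cones with vertices in `S`. -/
noncomputable def low (l : E →L[ℝ] ℝ) (e : E) (a : ℝ) (S : Set E) (y : E) : ℝ :=
  sInf ((fun x => l x + ‖hp l e (y - x)‖ / a) '' S)

theorem continuous_pen (y : E) : Continuous (fun x : E => l x + ‖hp l e (y - x)‖ / a) := by
  have := continuous_hp (l := l) (e := e)
  fun_prop

theorem low_mem {S : Set E} (hS : IsCompact S) (hne : S.Nonempty) (y : E) :
    ∃ x ∈ S, low l e a S y = l x + ‖hp l e (y - x)‖ / a := by
  obtain ⟨x, hx, h⟩ := hS.exists_sInf_image_eq hne (continuous_pen (a := a) (l := l) (e := e)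
    y).continuousOn
  exact ⟨x, hx, h⟩

theorem low_le {S : Set E} (hS : IsCompact S) (y : E) {x : E} (hx : x ∈ S) :
    low l e a S y ≤ l x + ‖hp l e (y - x)‖ / a := by
  refine csInf_le ?_ (mem_image_of_mem _ hx)
  exact (hS.image (continuous_pen y)).bddBelow

theorem low_self_le {S : Set E} (hS : IsCompact S) {x : E} (hx : x ∈ S) :
    low l e a S x ≤ l x := by
  have := low_le (l := l) (e := e) (a := a) hS x hx
  simpa using this

theorem low_le_add {S : Set E} (ha : 0 < a) (hS : IsCompact S) (hne : S.Nonempty) (y z : E) :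
    low l e a S y ≤ low l e a S z + ‖hp l e (y - z)‖ / a := by
  obtain ⟨x, hx, h⟩ := low_mem (l := l) (e := e) (a := a) hS hne z
  rw [h]
  refine (low_le hS y hx).trans ?_
  have : ‖hp l e (y - x)‖ ≤ ‖hp l e (y - z)‖ + ‖hp l e (z - x)‖ := by
    have : y - x = (y - z) + (z - x) := by abel
    rw [this, hp_add]; exact norm_add_le _ _
  have h2 : ‖hp l e (y - x)‖ / a ≤ ‖hp l e (y - z)‖ / a + ‖hp l e (z - x)‖ / a := by
    rw [← add_div]; exact div_le_div_of_nonneg_right this ha.le
  linarith

theorem abs_low_sub_le {S : Set E} (ha : 0 < a) (hS : IsCompact S) (hne : S.Nonempty) (y z : E) :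
    |low l e a S y - low l e a S z| ≤ ‖hp l e (y - z)‖ / a := by
  rw [abs_le]
  have h1 := low_le_add (l := l) (e := e) ha hS hne y z
  have h2 := low_le_add (l := l) (e := e) ha hS hne z y
  rw [norm_hp_sub_comm z y] at h2
  constructor <;> linarith

theorem continuous_of_hpLip {f : E → ℝ} {C : ℝ} (h : ∀ y z, |f y - f z| ≤ ‖hp l e (y - z)‖ / C) :
    Continuous f := by
  rw [continuous_iff_continuousAt]
  intro y
  rw [ContinuousAt, tendsto_iff_dist_tendsto_zero]
  refine squeeze_zero (fun _ => dist_nonneg) (fun z => ?_)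
    (g := fun z => ‖hp l e (z - y)‖ / C) ?_
  · rw [Real.dist_eq]; exact h z y
  · have hc : Continuous (fun z => ‖hp l e (z - y)‖ / C) := by
      have := continuous_hp (l := l) (e := e)
      fun_prop
    have := hc.tendsto y
    simpa using this

/-- The part of `S` at height at least `H` above the lower envelope. -/
def nxt (l : E →L[ℝ] ℝ) (e : E) (a H : ℝ) (S : Set E) : Set E :=
  {y | y ∈ S ∧ low l e a S y + H ≤ l y}

theorem isCompact_nxt {H : ℝ} (ha : 0 < a) {S : Set E} (hS : IsCompact S) :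
    IsCompact (nxt l e a H S) := by
  rcases S.eq_empty_or_nonempty with rfl | hne
  · have : nxt l e a H ∅ = (∅ : Set E) := by ext; simp [nxt]
    rw [this]; exact isCompact_empty
  · refine hS.inter_right ?_
    have hc : Continuous (low l e a S) := continuous_of_hpLip (abs_low_sub_le ha hS hne)
    exact isClosed_le (hc.add continuous_const) l.continuous

theorem low_nxt {H : ℝ} (ha : 0 < a) {S : Set E} (hS : IsCompact S)
    (hne : (nxt l e a H S).Nonempty) (y : E) :
    low l e a S y + H ≤ low l e a (nxt l e a H S) y := by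
  obtain ⟨x, hx, h⟩ := low_mem (l := l) (e := e) (a := a) (isCompact_nxt ha hS) hne y
  rw [h]
  have h1 := low_le_add (l := l) (e := e) ha hS ⟨x, hx.1⟩ y x
  have h2 := hx.2
  linarith

/-- Iterates of `nxt`. -/
def lev (l : E →L[ℝ] ℝ) (e : E) (a H : ℝ) (S : Set E) : ℕ → Set E
  | 0 => S
  | i + 1 => nxt l e a H (lev l e a H S i)

theorem isCompact_lev {H : ℝ} (ha : 0 < a) {S : Set E} (hS : IsCompact S) (i : ℕ) :
    IsCompact (lev l e a H S i) := by
  induction i with
  | zero => exact hS
  | succ i ih => exact isCompact_nxt ha ih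

theorem lev_sub {H : ℝ} {S : Set E} (i : ℕ) : lev l e a H S i ⊆ S := by
  induction i with
  | zero => exact subset_rfl
  | succ i ih => exact fun y hy => ih hy.1

theorem lev_anti {H : ℝ} {S : Set E} {i j : ℕ} (hij : i ≤ j) :
    lev l e a H S j ⊆ lev l e a H S i := by
  induction j, hij using Nat.le_induction with
  | base => exact subset_rfl
  | succ j _ ih => exact fun y hy => ih hy.1

theorem exists_chain {H : ℝ} (ha : 0 < a) (hH : 0 < H) {S : Set E} (hS : IsCompact S) (k : ℕ) :
    ∀ z ∈ lev l e a H S k, ∃ x : ℕ → E, x k = z ∧ (∀ i ≤ k, x i ∈ S) ∧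
      ∀ i < k, l (x i) + H ≤ l (x (i + 1)) ∧
        ‖hp l e (x (i + 1) - x i)‖ ≤ a * (l (x (i + 1)) - l (x i)) := by
  induction k with
  | zero =>
    intro z hz
    refine ⟨fun _ => z, rfl, fun i _ => hz, fun i hi => by omega⟩
  | succ k ih =>
    intro z hz
    obtain ⟨w, hw, h⟩ := low_mem (l := l) (e := e) (a := a)
      (isCompact_lev (H := H) ha hS k) ⟨z, hz.1⟩ z
    have hz2 : l w + ‖hp l e (z - w)‖ / a + H ≤ l z := by
      rw [← h]; exact hz.2
    have hq : 0 ≤ ‖hp l e (z - w)‖ / a := by positivity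
    obtain ⟨x, hxk, hxS, hx⟩ := ih w hw
    refine ⟨Function.update x (k + 1) z, by simp, ?_, ?_⟩
    · intro i hi
      rcases Nat.lt_or_ge k i with h' | h'
      · obtain rfl : i = k + 1 := by omega
        simp only [Function.update_self]
        exact lev_sub _ hz
      · rw [Function.update_of_ne (by omega)]
        exact hxS i h'
    · intro i hi
      rcases Nat.lt_or_ge i k with h' | h'
      · rw [Function.update_of_ne (by omega), Function.update_of_ne (by omega)]
        exact hx i h'
      · obtain rfl : i = k := by omega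
        rw [Function.update_self, Function.update_of_ne (by omega), hxk]
        refine ⟨by linarith, ?_⟩
        have : ‖hp l e (z - w)‖ / a ≤ l z - l w := by linarith
        rw [div_le_iff₀ ha] at this
        linarith

/-- Stripes, first form: greedy construction. -/
theorem stripes_aux (he : l e = 1) (ha : 0 < a) {O S : Set E} (hS : IsCompact S) {H ε : ℝ}
    (hH : 0 < H) (hε : 0 ≤ ε) (hSO : ∀ x ∈ S, closedBall x ((‖e‖ + a) * (H / 2)) ⊆ O)
    (hw : ∀ g : ℝ → E, IsCurve l e a g → volume {t : ℝ | g t ∈ O} ≤ ENNReal.ofReal ε) :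
    ∃ (m : ℕ) (b : ℕ → E → ℝ), (m : ℝ) * H ≤ ε ∧
      (∀ i < m, ∀ y z, |b i y - b i z| ≤ ‖hp l e (y - z)‖ / a) ∧
      (∀ i, i + 1 < m → ∀ y, b i y + H ≤ b (i + 1) y) ∧
      ∀ y ∈ S, ∃ i < m, b i y ≤ l y ∧ l y < b i y + H := by
  have hbound : ∀ k, (lev l e a H S k).Nonempty → ((k : ℝ) + 1) * H ≤ ε := by
    rintro k ⟨z, hz⟩
    obtain ⟨x, _, hxS, hx⟩ := exists_chain ha hH hS k z hz
    exact chain_bound he ha.le hH hε k x hx (fun i hi => hSO _ (hxS i hi)) hw
  have hex : ∃ m, lev l e a H S m = ∅ := by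
    by_contra hcon
    push Not at hcon
    obtain ⟨k, hk⟩ := exists_nat_gt (ε / H)
    have h1 := hbound k (hcon k)
    rw [div_lt_iff₀ hH] at hk
    nlinarith
  classical
  set m := Nat.find hex with hm
  have hm0 : lev l e a H S m = ∅ := Nat.find_spec hex
  have hlt : ∀ i < m, (lev l e a H S i).Nonempty := by
    intro i hi
    rw [nonempty_iff_ne_empty]
    exact Nat.find_min hex hi
  refine ⟨m, fun i => low l e a (lev l e a H S i), ?_, ?_, ?_, ?_⟩
  · rcases Nat.eq_zero_or_pos m with h0 | h0
    · rw [h0]; simpa using hε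
    · have := hbound (m - 1) (hlt _ (by omega))
      have h2 : ((m - 1 : ℕ) : ℝ) + 1 = m := by
        rw [Nat.cast_sub h0]; simp
      rwa [h2] at this
  · intro i hi y z
    exact abs_low_sub_le ha (isCompact_lev ha hS i) (hlt i hi) y z
  · intro i hi y
    exact low_nxt ha (isCompact_lev ha hS i) (hlt (i + 1) hi) y
  · intro y hy
    by_contra hcon
    push Not at hcon
    have : ∀ i ≤ m, y ∈ lev l e a H S i := by
      intro i
      induction i with
      | zero => intro _; exact hy
      | succ i ih =>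
        intro hi
        have h1 := ih (by omega)
        exact ⟨h1, hcon i (by omega) (low_self_le (isCompact_lev ha hS i) h1)⟩
    have := this m le_rfl
    rw [hm0] at this
    exact this

/-- The union of the first `m` closed stripes. -/
def stripe (l : E →L[ℝ] ℝ) (H : ℝ) (m : ℕ) (b : ℕ → E → ℝ) : Set E :=
  {y | ∃ i < m, b i y ≤ l y ∧ l y ≤ b i y + H}

/-- Block M1. -/
theorem stripes [FiniteDimensional ℝ E] (he : l e = 1) (ha : 0 < a) {O G : Set E} (hO : IsOpen O)
    (hG : IsCompact G) (hGO : G ⊆ O) {ε η : ℝ} (hε : 0 ≤ ε) (hη : 0 < η)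
    (hw : ∀ g : ℝ → E, IsCurve l e a g → volume {t : ℝ | g t ∈ O} ≤ ENNReal.ofReal ε) :
    ∃ (H : ℝ) (m : ℕ) (b : ℕ → E → ℝ), 0 < H ∧ H ≤ η ∧ (m : ℝ) * H ≤ ε ∧
      (∀ i < m, ∀ y z, |b i y - b i z| ≤ ‖hp l e (y - z)‖ / a) ∧
      (∀ i, i + 1 < m → ∀ y, b i y + H ≤ b (i + 1) y) ∧
      G ⊆ interior (stripe l H m b) := by
  obtain ⟨δ, hδ, hδO⟩ := hG.exists_cthickening_subset_open hO hGO
  set S := cthickening (δ / 2) G with hSdef
  have hS : IsCompact S := by
    have : ProperSpace E := FiniteDimensional.proper ℝ E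
    exact hG.cthickening
  have hc : 0 < ‖e‖ + a := by positivity
  set H := min η (δ / (‖e‖ + a)) with hHdef
  have hH : 0 < H := lt_min hη (by positivity)
  have hH2 : (‖e‖ + a) * (H / 2) ≤ δ / 2 := by
    have : H ≤ δ / (‖e‖ + a) := min_le_right _ _
    rw [le_div_iff₀ hc] at this
    linarith
  obtain ⟨m, b, h1, h2, h3, h4⟩ := stripes_aux (O := O) (ε := ε) he ha hS hH hε (by
    intro x hx y hy
    apply hδO
    have hx' : x ∈ cthickening (δ / 2) G := hx
    rw [mem_closedBall] at hy
    rw [mem_cthickening_iff] at hx' ⊢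
    calc infEDist y G ≤ edist y x + infEDist x G := infEDist_le_edist_add_infEDist
      _ ≤ ENNReal.ofReal (δ / 2) + ENNReal.ofReal (δ / 2) := by
          refine add_le_add ?_ hx'
          rw [edist_dist]
          exact ENNReal.ofReal_le_ofReal (hy.trans hH2)
      _ = ENNReal.ofReal δ := by
          rw [← ENNReal.ofReal_add (by positivity) (by positivity)]; congr 1; ring) hw
  refine ⟨H, m, b, hH, min_le_left _ _, h1, h2, h3, ?_⟩
  have hsub : thickening (δ / 2) G ⊆ stripe l H m b := by
    intro y hy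
    obtain ⟨i, hi, h5, h6⟩ := h4 y (thickening_subset_cthickening _ _ hy)
    exact ⟨i, hi, h5, h6.le⟩
  exact (self_subset_thickening (by positivity) G).trans
    (interior_maximal hsub isOpen_thickening)

end Vale.Agent.P073.H989
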