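import Vale.Agent.P073.H989.Stripes
import Vale.Agent.P073.ConHomeo

open MeasureTheory Set Metric
open scoped ENNReal

namespace Vale.Agent.P073.H989

open _root_.P073

variable {E : Type*} [NormedAddCommGroup E] [NormedSpace ℝ E]
variable {l : E →L[ℝ] ℝ} {e : E} {a : ℝ}

theorem conicalOn_inf' {ι : Type*} {s : Finset ι} (hs : s.Nonempty) {f : ι → E → ℝ} {X : Set E}
    (h : ∀ i ∈ s, ConicalOn (f i) X) (hc : ∀ i ∈ s, ContinuousOn (f i) X) :
    ConicalOn (fun y => s.inf' hs (fun i => f i y)) X ∧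
      ContinuousOn (fun y => s.inf' hs (fun i => f i y)) X := by
  classical
  induction hs using Finset.Nonempty.cons_induction with
  | singleton i =>
    simpa using ⟨h i (by simp), hc i (by simp)⟩
  | cons i s hi hs ih =>
    obtain ⟨h1, h2⟩ := ih (fun j hj => h j (by simp [hj])) (fun j hj => hc j (by simp [hj]))
    have h3 := h i (by simp)
    have h4 : ContinuousOn (f i) X := hc i (by simp)
    have e1 : (fun y => (Finset.cons i s hi).inf' (Finset.cons_nonempty hi) (fun j => f j y))
        = fun y => min (f i y) (s.inf' hs (fun j => f j y)) := by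
      funext y
      rw [Finset.inf'_cons hs]
    rw [e1]
    exact ⟨h3.rmin h1 h4 h2, ContinuousOn.inf h4 h2⟩

/-- The norm of the transversal part is a conical function (true for the sup norm). -/
def ConNorm (l : E →L[ℝ] ℝ) (e : E) : Prop :=
  ∀ x : E, ConicalOn (fun y => ‖hp l e (y - x)‖) (univ : Set E)

theorem conicalOn_low (hN : ConNorm l e) {S : Set E} (hS : S.Finite) (hne : S.Nonempty) :
    ConicalOn (low l e a S) univ := by
  classical
  have hne' : hS.toFinset.Nonempty := by simpa using hne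
  have e1 : low l e a S = fun y => hS.toFinset.inf' hne' (fun x => l x + ‖hp l e (y - x)‖ / a) := by
    funext y
    rw [low, Finset.inf'_eq_csInf_image]
    simp
  rw [e1]
  refine (conicalOn_inf' hne' (fun x _ => ?_) (fun x _ => ?_)).1
  · have h1 := (hN x).const_smul a⁻¹
    have h2 := (conicalOn_const (l x) (IsOpen.conicalSet isOpen_univ (E := E))).add h1
    refine h2.congr (fun y _ => ?_)
    simp only [smul_eq_mul]
    ring
  · have := continuous_hp (l := l) (e := e)
    fun_prop

/-- Number of levels. -/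
theorem exists_levels (he : l e = 1) (ha : 0 < a) {O S : Set E} (hS : IsCompact S) {H ε : ℝ}
    (hH : 0 < H) (hε : 0 ≤ ε) (hSO : ∀ x ∈ S, closedBall x ((‖e‖ + a) * (H / 2)) ⊆ O)
    (hw : ∀ g : ℝ → E, IsCurve l e a g → volume {t : ℝ | g t ∈ O} ≤ ENNReal.ofReal ε) :
    ∃ m : ℕ, (m : ℝ) * H ≤ ε ∧ (∀ i < m, (lev l e a H S i).Nonempty) ∧ lev l e a H S m = ∅ := by
  have hbound : ∀ k, (lev l e a H S k).Nonempty → ((k : ℝ) + 1) * H ≤ ε := by
    rintro k ⟨z, hz⟩
    obtain ⟨x, _, hxS, hx⟩ := exists_chain ha hH hS k z hz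
    exact chain_bound he ha.le hH hε k x hx (fun i hi => hSO _ (hxS i hi)) hw
  have hex : ∃ m, lev l e a H S m = ∅ := by
    by_contra hcon
    push Not at hcon
    obtain ⟨k, hk⟩ := exists_nat_gt (ε / H)
    have h1 := hbound k (hcon k)
    rw [div_lt_iff₀ hH] at hk
    nlinarith
  classical
  set m := Nat.find hex with hm
  have hm0 : lev l e a H S m = ∅ := Nat.find_spec hex
  have hlt : ∀ i < m, (lev l e a H S i).Nonempty := by
    intro i hi
    rw [nonempty_iff_ne_empty]
    exact Nat.find_min hex hi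
  refine ⟨m, ?_, hlt, hm0⟩
  rcases Nat.eq_zero_or_pos m with h0 | h0
  · rw [h0]; simpa using hε
  · have := hbound (m - 1) (hlt _ (by omega))
    have h2 : ((m - 1 : ℕ) : ℝ) + 1 = m := by
      rw [Nat.cast_sub h0]; simp
    rwa [h2] at this

theorem exists_level_of_mem {H : ℝ} {S : Set E} {m : ℕ}
    (hm : lev l e a H S m = ∅) {y : E} (hy : y ∈ S) :
    ∃ i < m, y ∈ lev l e a H S i ∧ y ∉ lev l e a H S (i + 1) := by
  by_contra hcon
  push Not at hcon
  have : ∀ i ≤ m, y ∈ lev l e a H S i := by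
    intro i
    induction i with
    | zero => intro _; exact hy
    | succ i ih => intro hi; exact hcon i (by omega) (ih (by omega))
  have := this m le_rfl
  rw [hm] at this
  exact this

/-- Pushing up: consecutive graphs at distance at least `H`. -/
noncomputable def push (H : ℝ) (g : ℕ → E → ℝ) : ℕ → E → ℝ
  | 0 => g 0
  | i + 1 => fun y => max (g (i + 1) y) (push H g i y + H)

omit [NormedAddCommGroup E] [NormedSpace ℝ E] in
theorem push_sep (H : ℝ) (g : ℕ → E → ℝ) (i : ℕ) (y : E) :
    push H g i y + H ≤ push H g (i + 1) y := le_max_right _ _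

omit [NormedAddCommGroup E] [NormedSpace ℝ E] in
theorem le_push (H : ℝ) (g : ℕ → E → ℝ) (i : ℕ) (y : E) : g i y ≤ push H g i y := by
  cases i with
  | zero => exact le_rfl
  | succ i => exact le_max_left _ _

omit [NormedAddCommGroup E] [NormedSpace ℝ E] in
theorem push_cover {H : ℝ} {g : ℕ → E → ℝ} {y : E} {t : ℝ} {i : ℕ}
    (hmono : ∀ k ≤ i, g k y ≤ g i y) (h1 : g i y ≤ t) (h2 : t ≤ g i y + H) :
    ∃ k ≤ i, push H g k y ≤ t ∧ t ≤ push H g k y + H := by
  classical
  have hex : ∃ k, t ≤ push H g k y + H := ⟨i, h2.trans (by linarith [le_push H g i y])⟩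
  set k := Nat.find hex with hk
  have hk1 : t ≤ push H g k y + H := Nat.find_spec hex
  have hki : k ≤ i := Nat.find_min' hex (h2.trans (by linarith [le_push H g i y]))
  refine ⟨k, hki, ?_, hk1⟩
  rcases Nat.eq_zero_or_pos k with h0 | h0
  · rw [h0]
    exact (hmono 0 (by omega)).trans h1
  · obtain ⟨k', hk'⟩ : ∃ k', k = k' + 1 := ⟨k - 1, by omega⟩
    have h3 : ¬ t ≤ push H g k' y + H := Nat.find_min hex (by omega)
    rw [hk']
    exact max_le ((hmono _ (by omega)).trans h1) (not_le.1 h3).le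

theorem push_lip {H : ℝ} {g : ℕ → E → ℝ} {m : ℕ}
    (h : ∀ i < m, ∀ y z, |g i y - g i z| ≤ ‖hp l e (y - z)‖ / a) :
    ∀ i < m, ∀ y z, |push H g i y - push H g i z| ≤ ‖hp l e (y - z)‖ / a := by
  intro i
  induction i with
  | zero => intro hi y z; exact h 0 hi y z
  | succ i ih =>
    intro hi y z
    have h1 := h (i + 1) hi y z
    have h2 := ih (by omega) y z
    refine (abs_max_sub_max_le_max _ _ _ _).trans (max_le h1 ?_)
    have : push H g i y + H - (push H g i z + H) = push H g i y - push H g i z := by ring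
    rw [this]; exact h2

theorem push_conical {H : ℝ} {g : ℕ → E → ℝ} {m : ℕ} (h : ∀ i < m, ConicalOn (g i) univ)
    (hc : ∀ i < m, Continuous (g i)) :
    ∀ i < m, ConicalOn (push H g i) univ ∧ Continuous (push H g i) := by
  intro i
  induction i with
  | zero => intro hi; exact ⟨h 0 hi, hc 0 hi⟩
  | succ i ih =>
    intro hi
    obtain ⟨h1, h2⟩ := ih (by omega)
    have h3 := h (i + 1) hi
    have h4 := hc (i + 1) hi
    refine ⟨h3.rmax (h1.add (conicalOn_const H (IsOpen.conicalSet isOpen_univ (E := E))))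
      h4.continuousOn (h2.add continuous_const).continuousOn, h4.max (h2.add continuous_const)⟩

/-- **Conical stripes.** -/
theorem stripesPL [FiniteDimensional ℝ E] (hN : ConNorm l e) (he : l e = 1) (ha : 0 < a)
    {O G : Set E} (hO : IsOpen O)
    (hG : IsCompact G) (hGO : G ⊆ O) {ε η : ℝ} (hε : 0 ≤ ε) (hη : 0 < η)
    (hw : ∀ g : ℝ → E, IsCurve l e a g → volume {t : ℝ | g t ∈ O} ≤ ENNReal.ofReal ε) :
    ∃ (H : ℝ) (m : ℕ) (b : ℕ → E → ℝ), 0 < H ∧ H ≤ η ∧ (m : ℝ) * H ≤ 2 * ε ∧
      (∀ i < m, ∀ y z, |b i y - b i z| ≤ ‖hp l e (y - z)‖ / a) ∧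
      (∀ i < m, ConicalOn (b i) univ) ∧
      (∀ i, i + 1 < m → ∀ y, b i y + H ≤ b (i + 1) y) ∧
      G ⊆ interior (stripe l H m b) := by
  have : ProperSpace E := FiniteDimensional.proper ℝ E
  obtain ⟨δ, hδ, hδO⟩ := hG.exists_cthickening_subset_open hO hGO
  set S := cthickening (δ / 2) G with hSdef
  have hS : IsCompact S := hG.cthickening
  have hc : 0 < ‖e‖ + a := by positivity
  set H := min (η / 2) (δ / (‖e‖ + a)) with hHdef
  have hH : 0 < H := lt_min (by positivity) (by positivity)
  have hH2 : (‖e‖ + a) * (H / 2) ≤ δ / 2 := by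
    have : H ≤ δ / (‖e‖ + a) := min_le_right _ _
    rw [le_div_iff₀ hc] at this
    linarith
  -- finite net
  set Q : ℝ := (1 + ‖l‖ * ‖e‖) / a + ‖l‖ with hQdef
  have hQ : 0 < Q := by positivity
  set κ : ℝ := H / (2 * Q) with hκdef
  have hκ : 0 < κ := by positivity
  obtain ⟨N, hNS, hNfin, hNcov⟩ := hS.finite_cover_balls hκ
  have hNc : IsCompact N := hNfin.isCompact
  obtain ⟨m, h1, hne, hm⟩ := exists_levels (O := O) (ε := ε) he ha hNc hH hε (by
    intro x hx y hy
    apply hδO
    have hx' : x ∈ cthickening (δ / 2) G := hNS hx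
    rw [mem_closedBall] at hy
    rw [mem_cthickening_iff] at hx' ⊢
    calc infEDist y G ≤ edist y x + infEDist x G := infEDist_le_edist_add_infEDist
      _ ≤ ENNReal.ofReal (δ / 2) + ENNReal.ofReal (δ / 2) := by
          refine add_le_add ?_ hx'
          rw [edist_dist]
          exact ENNReal.ofReal_le_ofReal (hy.trans hH2)
      _ = ENNReal.ofReal δ := by
          rw [← ENNReal.ofReal_add (by positivity) (by positivity)]; congr 1; ring) hw
  set L : ℕ → Set E := lev l e a H N with hL
  set c : ℝ := H / 2 with hcdef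
  set g : ℕ → E → ℝ := fun i y => low l e a (L i) y - c with hg
  have hLc : ∀ i, IsCompact (L i) := fun i => isCompact_lev ha hNc i
  have hLf : ∀ i, (L i).Finite := fun i => hNfin.subset (lev_sub i)
  have hglip : ∀ i < m, ∀ y z, |g i y - g i z| ≤ ‖hp l e (y - z)‖ / a := by
    intro i hi y z
    have : g i y - g i z = low l e a (L i) y - low l e a (L i) z := by simp only [hg]; ring
    rw [this]
    exact abs_low_sub_le ha (hLc i) (hne i hi) y z
  have hgcon : ∀ i < m, ConicalOn (g i) univ := fun i hi =>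
    (conicalOn_low hN (hLf i) (hne i hi)).sub
      (conicalOn_const c (IsOpen.conicalSet isOpen_univ (E := E)))
  have hgc : ∀ i < m, Continuous (g i) := fun i hi => continuous_of_hpLip (hglip i hi)
  have hgmono1 : ∀ i, i + 1 < m → ∀ y, g i y ≤ g (i + 1) y := by
    intro i hi y
    have := low_nxt (l := l) (e := e) (a := a) (H := H) ha (hLc i) (hne (i + 1) hi) y
    simp only [hg]
    have h2 : low l e a (L i) y + H ≤ low l e a (L (i + 1)) y := this
    linarith
  have hgmono : ∀ k i, k ≤ i → i < m → ∀ y, g k y ≤ g i y := by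
    intro k i hki
    induction i, hki using Nat.le_induction with
    | base => intro _ y; exact le_rfl
    | succ i _ ih => intro hi y; exact (ih (by omega) y).trans (hgmono1 i hi y)
  refine ⟨2 * H, m, push (2 * H) g, by positivity, ?_, ?_, push_lip hglip,
    fun i hi => (push_conical hgcon hgc i hi).1, fun i _ y => push_sep _ _ _ _, ?_⟩
  · have : H ≤ η / 2 := min_le_left _ _
    linarith
  · linarith
  have hsub : thickening (δ / 2) G ⊆ stripe l (2 * H) m (push (2 * H) g) := by
    intro y hy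
    have hyS : y ∈ S := thickening_subset_cthickening _ _ hy
    obtain ⟨x, hxN, hxy⟩ : ∃ x ∈ N, dist y x < κ := by
      have := hNcov hyS
      simp only [mem_iUnion, mem_ball, exists_prop] at this
      exact this
    obtain ⟨i, hi, hi1, hi2⟩ := exists_level_of_mem hm hxN
    have hlow1 : low l e a (L i) x ≤ l x := low_self_le (hLc i) hi1
    have hlow2 : l x < low l e a (L i) x + H := by
      by_contra hcon
      exact hi2 ⟨hi1, not_lt.1 hcon⟩
    have hlip := abs_low_sub_le (l := l) (e := e) ha (hLc i) (hne i hi) y x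
    have hnorm : ‖y - x‖ < κ := by rwa [dist_eq_norm] at hxy
    have hhp : ‖hp l e (y - x)‖ ≤ (1 + ‖l‖ * ‖e‖) * ‖y - x‖ := by
      have h1 : |l (y - x)| ≤ ‖l‖ * ‖y - x‖ := l.le_opNorm (y - x)
      calc ‖hp l e (y - x)‖ ≤ ‖y - x‖ + ‖l (y - x) • e‖ := norm_sub_le _ _
        _ = ‖y - x‖ + |l (y - x)| * ‖e‖ := by rw [norm_smul, Real.norm_eq_abs]
        _ ≤ ‖y - x‖ + (‖l‖ * ‖y - x‖) * ‖e‖ := by gcongr
        _ = _ := by ring
    have hll : |l y - l x| ≤ ‖l‖ * ‖y - x‖ := by
      rw [← map_sub]; exact l.le_opNorm _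
    have hsum : |low l e a (L i) y - low l e a (L i) x| + |l y - l x| ≤ c := by
      have h5 : ‖hp l e (y - x)‖ / a ≤ (1 + ‖l‖ * ‖e‖) * ‖y - x‖ / a :=
        div_le_div_of_nonneg_right hhp ha.le
      have h6 : (1 + ‖l‖ * ‖e‖) * ‖y - x‖ / a + ‖l‖ * ‖y - x‖ = Q * ‖y - x‖ := by
        rw [hQdef]; ring
      have h7 : Q * ‖y - x‖ ≤ Q * κ := mul_le_mul_of_nonneg_left hnorm.le hQ.le
      have h8 : Q * κ = c := by rw [hκdef, hcdef]; field_simp
      linarith
    have hA := abs_le.1 (le_refl |low l e a (L i) y - low l e a (L i) x|)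
    have hB := abs_le.1 (le_refl |l y - l x|)
    have h9 : g i y ≤ l y := by
      simp only [hg]
      linarith [hA.1, hA.2, hB.1, hB.2]
    have h10 : l y ≤ g i y + 2 * H := by
      simp only [hg]
      have : c = H / 2 := rfl
      linarith [hA.1, hA.2, hB.1, hB.2]
    obtain ⟨k, hk, hk1, hk2⟩ := push_cover (H := 2 * H) (g := g) (y := y) (t := l y) (i := i)
      (fun k hk => hgmono k i hk hi y) h9 h10
    exact ⟨k, by omega, hk1, hk2⟩
  exact (self_subset_thickening (by positivity) G).trans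
    (interior_maximal hsub isOpen_thickening)

end Vale.Agent.P073.H989
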