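import Vale.Agent.P073.H83.Grid3
import Vale.Agent.P073.H622.PD5
import Vale.Agent.P073.H732.LocSum2

/-!
# P073, [THIN2]: the centres of the target grid, with an absolute distance to the layers

If the good cells whose images are near each other are near each other (`LocJ`, true for the
exponent two because of the set `T`), then the centres of the tiles may be chosen at distance
`r₁` to the images of the layers, where `r₁ * 2 ^ m₁` is an absolute number.
-/

namespace Vale.Agent.P073.H989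

open MeasureTheory Set Filter Topology Metric Vale.Agent.P073.St Vale.Agent.P073.AB
open Vale.Agent.P073.SQ (ev)
open Vale.Agent.P073.AB.P86
open _root_.P073.Net (dyc dyo IsTile SizeFn Adm)
open Vale.Agent.P073.H471 (wt Cw)
open Vale.Agent.P073.H73 (ctr)
open Vale.Agent.P073.H83
open scoped ENNReal

variable {w v : V} {θ M κ : ℝ} {m₁ n k mt m' : ℕ} {Ω Λ : Set V} {f : V → V}
  {J : Finset (Fin 3 → ℤ)} {A : (Fin 3 → ℤ) → V → V} {L : (Fin 3 → ℤ) → V →L[ℝ] V}

/-- volume of the neighbourhood of the image of a slab in a cube -/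
theorem volume_slab_nbhd (H : CellsG θ M κ m₁ n k Ω Λ f v J A L) {z : Fin 3 → ℤ} (hz : z ∈ J)
    (i : Fin 3) (a : V) {r r₁ : ℝ} (hr : 0 ≤ r) (hr₁ : 0 ≤ r₁) {α β : ℝ} (hαβ : α ≤ β) :
    volume {y | y ∈ closedBall a r ∧ ∃ x, ‖y - A z x‖ ≤ r₁ ∧ α ≤ x i ∧ x i ≤ β} ≤
      ENNReal.ofReal ((3 * M * (β - α) + 6 * r₁) * (2 * r) ^ 2) := by
  have hM : 0 < M := H.θ0.trans_le (H.M_pos hz)
  obtain ⟨N, hN1, hN2⟩ := H.exists_inv hz
  obtain ⟨l, hl⟩ := H.exists_axis hz hN2 i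
  set ν := (ContinuousLinearMap.proj (R := ℝ) (φ := fun _ : Fin 3 => ℝ) i).comp N with hν
  -- the largest coefficient
  obtain ⟨l₀, hl₀⟩ : ∃ l₀ : Fin 3, ∀ l, |ν (ev l)| ≤ |ν (ev l₀)| := by
    obtain ⟨l₀, -, h⟩ := Finset.exists_max_image (Finset.univ : Finset (Fin 3))
      (fun l => |ν (ev l)|) Finset.univ_nonempty
    exact ⟨l₀, fun l => h l (Finset.mem_univ _)⟩
  set c : ℝ := |ν (ev l₀)| with hc
  have hcM : 1 / (3 * M) ≤ c := hl.trans (hl₀ l)
  have hc0 : 0 < c := lt_of_lt_of_le (by positivity) hcM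
  have hνle : ∀ y : V, |ν y| ≤ 3 * c * ‖y‖ := by
    intro y
    rw [clm_apply_eq]
    calc |∑ j, y j * ν (ev j)| ≤ ∑ j, |y j * ν (ev j)| := Finset.abs_sum_le_sum_abs _ _
      _ ≤ ∑ _j : Fin 3, ‖y‖ * c := by
          refine Finset.sum_le_sum fun j _ => ?_
          rw [abs_mul]
          exact mul_le_mul (norm_le_pi_norm y j) (hl₀ j) (abs_nonneg _) (norm_nonneg _)
      _ = 3 * c * ‖y‖ := by
          rw [Finset.sum_const, Finset.card_univ, Fintype.card_fin, nsmul_eq_mul]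
          push_cast
          ring
  have h1 := volume_slab_le ν (c := c) hc0 le_rfl a hr
    (α := α + ν (A z 0) - 3 * c * r₁) (β := β + ν (A z 0) + 3 * c * r₁) (by
      have : 0 ≤ 3 * c * r₁ := by positivity
      linarith)
  refine (measure_mono ?_).trans (h1.trans (ENNReal.ofReal_le_ofReal ?_))
  · rintro y ⟨hy, x, hxy, hx1, hx2⟩
    have h2 : ν (A z x) = x i + ν (A z 0) := by
      have h3 := H.eq_add hz 0 x
      rw [zero_add] at h3
      rw [h3, map_add, hν]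
      simp only [ContinuousLinearMap.comp_apply, hN2, ContinuousLinearMap.proj_apply]
      ring
    have h3 : |ν y - ν (A z x)| ≤ 3 * c * r₁ := by
      rw [← map_sub]
      refine (hνle _).trans ?_
      gcongr
    rw [abs_le, h2] at h3
    exact ⟨hy, by linarith [h3.1], by linarith [h3.2]⟩
  · have e1 : (β + ν (A z 0) + 3 * c * r₁ - (α + ν (A z 0) - 3 * c * r₁)) / c =
        (β - α) / c + 6 * r₁ := by
      field_simp
      ring
    rw [e1]
    have e2 : (β - α) / c ≤ 3 * M * (β - α) := by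
      rw [div_le_iff₀ hc0]
      have h4 : 1 ≤ 3 * M * c := by
        rw [div_le_iff₀ (by positivity)] at hcM
        linarith
      have h5 : 0 ≤ β - α := by linarith
      nlinarith
    gcongr

/-- volume of one thin set -/
theorem volume_Th_le2 (H : CellsG θ M κ m₁ n k Ω Λ f v J A L) {z : Fin 3 → ℤ} (hz : z ∈ J)
    (a : V) {r r₁ : ℝ} (hr : 0 ≤ r) (hr₁ : 0 ≤ r₁) :
    volume (CellsG.Th v n k A r₁ z ∩ closedBall a r) ≤
      6 * ENNReal.ofReal ((6 * M / 2 ^ (n + k) + 6 * r₁) * (2 * r) ^ 2) := by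
  have hd : (0:ℝ) < 2 / 2 ^ (n + k) := by positivity
  set lo : Fin 3 → ℝ := fun i => v i + z i / 2 ^ n with hlo
  set hi : Fin 3 → ℝ := fun i => v i + (z i + 1) / 2 ^ n with hhi
  have hcov : CellsG.Th v n k A r₁ z ∩ closedBall a r ⊆
      (⋃ i ∈ (Finset.univ : Finset (Fin 3)), {y | y ∈ closedBall a r ∧ ∃ x, ‖y - A z x‖ ≤ r₁ ∧
        lo i ≤ x i ∧ x i ≤ lo i + 2 / 2 ^ (n + k)}) ∪
      (⋃ i ∈ (Finset.univ : Finset (Fin 3)), {y | y ∈ closedBall a r ∧ ∃ x, ‖y - A z x‖ ≤ r₁ ∧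
        hi i - 2 / 2 ^ (n + k) ≤ x i ∧ x i ≤ hi i}) := by
    rintro y ⟨⟨x, hx, hxR, hy⟩, hya⟩
    have h3 : ∃ i, x i < lo i + 2 / 2 ^ (n + k) ∨ hi i - 2 / 2 ^ (n + k) < x i := by
      by_contra hcon
      push Not at hcon
      exact hxR fun i => ⟨(hcon i).1, (hcon i).2⟩
    obtain ⟨i, h4⟩ := h3
    have h6 := hx i
    rcases h4 with h4 | h4
    · left
      exact mem_biUnion (Finset.mem_coe.2 (Finset.mem_univ i)) ⟨hya, x, hy.le, h6.1, h4.le⟩
    · right
      exact mem_biUnion (Finset.mem_coe.2 (Finset.mem_univ i)) ⟨hya, x, hy.le, h4.le, h6.2⟩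
  refine (measure_mono hcov).trans ((measure_union_le _ _).trans ?_)
  have hs : ∀ (α β : Fin 3 → ℝ), (∀ i, β i - α i = 2 / 2 ^ (n + k)) →
      volume (⋃ i ∈ (Finset.univ : Finset (Fin 3)), {y | y ∈ closedBall a r ∧
        ∃ x, ‖y - A z x‖ ≤ r₁ ∧ α i ≤ x i ∧ x i ≤ β i}) ≤
      3 * ENNReal.ofReal ((6 * M / 2 ^ (n + k) + 6 * r₁) * (2 * r) ^ 2) := by
    intro α β hαβ
    refine (measure_biUnion_finset_le _ _).trans ?_
    calc ∑ i, volume {y | y ∈ closedBall a r ∧ ∃ x, ‖y - A z x‖ ≤ r₁ ∧ α i ≤ x i ∧ x i ≤ β i}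
        ≤ ∑ _i : Fin 3, ENNReal.ofReal ((6 * M / 2 ^ (n + k) + 6 * r₁) * (2 * r) ^ 2) := by
          refine Finset.sum_le_sum fun i _ => ?_
          have h7 := volume_slab_nbhd H hz i a hr hr₁ (α := α i) (β := β i) (by
            have := hαβ i
            linarith)
          rw [hαβ i] at h7
          refine h7.trans (le_of_eq ?_)
          congr 1
          ring
      _ = _ := by
          rw [Finset.sum_const, Finset.card_univ, Fintype.card_fin, nsmul_eq_mul]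
          norm_num
  refine (add_le_add (hs _ _ fun i => by ring) (hs _ _ fun i => by ring)).trans (le_of_eq ?_)
  rw [← add_mul]; norm_num

/-- cells whose images are near each other are near each other -/
def LocJ (v : V) (n m₁ : ℕ) (J : Finset (Fin 3 → ℤ)) (A : (Fin 3 → ℤ) → V → V) : Prop :=
  ∀ z ∈ J, ∀ z' ∈ J, ∀ x ∈ dyc v n z, ∀ x' ∈ dyc v n z',
    ‖A z x - A z' x'‖ ≤ 2 / 2 ^ m₁ → ‖x - x'‖ ≤ 1 / 2 ^ n

/-- the relative volume of the thin sets in the middle cube of a tile -/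
theorem volume_thin_le2 (H : CellsG θ M κ m₁ n k Ω Λ f v J A L) (hloc : LocJ v n m₁ J A)
    (hm₁ : 2 ≤ m₁)
    {r₁ : ℝ} (hr₁ : 0 ≤ r₁) (hr₁' : r₁ ≤ 1 / 2 / 2 ^ m₁)
    (hthin : 144000 * (M / 2 ^ (n + k) + r₁) ≤ 1 / 2 ^ m₁) {m : ℕ} {zz : Fin 3 → ℤ}
    (ht : IsTile (grho w v n k m₁ mt m' J A Λ) w m zz) :
    volume ((⋃ z ∈ J, CellsG.Th v n k A r₁ z) ∩ closedBall (ctr w m zz) (1 / 2 / 2 ^ m / 2)) ≤
      volume (closedBall (ctr w m zz) (1 / 2 / 2 ^ m / 2)) / 2 := by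
  classical
  set a := ctr w m zz with ha
  set r : ℝ := 1 / 2 / 2 ^ m / 2 with hr
  have hr0 : 0 < r := by positivity
  by_cases hemp : ((⋃ z ∈ J, CellsG.Th v n k A r₁ z) ∩ closedBall a r) = ∅
  · rw [hemp, measure_empty]; exact bot_le
  obtain ⟨y, hy, hya⟩ := nonempty_iff_ne_empty.2 hemp
  obtain ⟨z₀, hz₀, x₀, hx₀, hx₀R, hy₀⟩ := mem_iUnion₂.1 hy
  have hsubt : closedBall a r ⊆ dyc w m zz := by
    rw [← closedBall_ctr]
    apply closedBall_subset_closedBall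
    rw [hr]
    have : (0:ℝ) < 1 / 2 / 2 ^ m := by positivity
    linarith
  have hm : m ≤ m₁ + 3 := gen_near_layer H hm₁ hz₀ hx₀ hx₀R hr₁' hy₀.le ht (hsubt hya)
  have hθ := H.θ0
  have hθM := H.M_pos hz₀
  have hM : 0 < M := hθ.trans_le hθM
  have hm1 : m₁ ≤ m := gen_le_of_tile ht
  have hs1 : (1:ℝ) / 2 ^ m ≤ 1 / 2 ^ m₁ := by
    rw [div_le_div_iff_of_pos_left one_pos (by positivity) (by positivity)]
    exact pow_le_pow_right₀ (by norm_num) hm1
  have hs3 : (1:ℝ) / 2 ^ m₁ / 8 ≤ 1 / 2 ^ m := by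
    rw [div_div, div_le_div_iff_of_pos_left one_pos (by positivity) (by positivity)]
    calc (2:ℝ) ^ m ≤ 2 ^ (m₁ + 3) := pow_le_pow_right₀ (by norm_num) hm
      _ = 2 ^ m₁ * 8 := by rw [pow_add]; norm_num
  have hrr : r = 1 / 2 ^ m / 4 := by rw [hr]; ring
  set J' := J.filter fun z => (A z '' dyc v n z ∩ closedBall a (r + r₁)).Nonempty with hJ'
  -- the number of the cells
  have hrad : r + r₁ ≤ 1 / 2 ^ m₁ := by
    have e1 : (1:ℝ) / 2 / 2 ^ m₁ = 1 / 2 ^ m₁ / 2 := by ring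
    have h0 : (0:ℝ) < 1 / 2 ^ m₁ := by positivity
    rw [e1] at hr₁'
    rw [hrr]
    linarith
  have hx₀' : ‖A z₀ x₀ - a‖ ≤ 1 / 2 ^ m₁ := by
    rw [mem_closedBall, dist_eq_norm] at hya
    have : A z₀ x₀ - a = (A z₀ x₀ - y) + (y - a) := by abel
    rw [this]
    refine (norm_add_le _ _).trans ?_
    rw [norm_sub_rev (A z₀ x₀) y]
    linarith
  have hcard : (J'.card : ℝ) ≤ 125 := by
    have h1 : J' ⊆ Fintype.piFinset fun i => Finset.Icc (z₀ i - 2) (z₀ i + 2) := by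
      intro z hz
      rw [hJ', Finset.mem_filter] at hz
      obtain ⟨hzJ, _, ⟨x, hx, rfl⟩, hxa⟩ := hz
      rw [mem_closedBall, dist_eq_norm] at hxa
      have h2 : ‖A z x - A z₀ x₀‖ ≤ 2 / 2 ^ m₁ := by
        have e1 : A z x - A z₀ x₀ = (A z x - a) - (A z₀ x₀ - a) := by abel
        rw [e1]
        refine (norm_sub_le _ _).trans ?_
        have e2 : (2:ℝ) / 2 ^ m₁ = 1 / 2 ^ m₁ + 1 / 2 ^ m₁ := by ring
        rw [e2]
        linarith
      have h3 := hloc z hzJ z₀ hz₀ x hx x₀ hx₀ h2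
      rw [Fintype.mem_piFinset]
      intro i
      have h4 := norm_le_pi_norm (x - x₀) i
      rw [Pi.sub_apply, Real.norm_eq_abs] at h4
      have h5 := abs_le.1 (h4.trans h3)
      have h6 := hx i
      have h7 := hx₀ i
      have hp : (0:ℝ) < 2 ^ n := by positivity
      have g1 : (z i : ℝ) / 2 ^ n ≤ (z₀ i + 2) / 2 ^ n := by
        have e : ((z₀ i : ℝ) + 2) / 2 ^ n = (z₀ i + 1) / 2 ^ n + 1 / 2 ^ n := by ring
        rw [e]
        linarith [h5.2, h6.1, h7.2]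
      have g2 : ((z₀ i : ℝ) - 2) / 2 ^ n ≤ z i / 2 ^ n := by
        have e : ((z₀ i : ℝ) - 2) / 2 ^ n = z₀ i / 2 ^ n - 1 / 2 ^ n - 1 / 2 ^ n := by ring
        have e' : ((z i : ℝ) + 1) / 2 ^ n = z i / 2 ^ n + 1 / 2 ^ n := by ring
        rw [e]
        rw [e'] at h6
        linarith [h5.1, h6.2, h7.1]
      rw [div_le_div_iff_of_pos_right hp] at g1 g2
      rw [Finset.mem_Icc]
      constructor
      · exact_mod_cast g2
      · exact_mod_cast g1
    have h2 := Finset.card_le_card h1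
    rw [Fintype.card_piFinset] at h2
    have h3 : ∀ i, (Finset.Icc (z₀ i - 2) (z₀ i + 2)).card = 5 := by
      intro i
      rw [Int.card_Icc]
      have : z₀ i + 2 + 1 - (z₀ i - 2) = 5 := by ring
      rw [this]
      rfl
    simp only [h3, Finset.prod_const, Finset.card_univ, Fintype.card_fin] at h2
    have h4 : J'.card ≤ 125 := by omega
    exact_mod_cast h4
  set D : ℝ := (6 * M / 2 ^ (n + k) + 6 * r₁) * (2 * r) ^ 2 with hD
  have hD0 : 0 ≤ D := by positivity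
  have hcov : (⋃ z ∈ J, CellsG.Th v n k A r₁ z) ∩ closedBall a r ⊆
      ⋃ z ∈ J', (CellsG.Th v n k A r₁ z ∩ closedBall a r) := by
    rintro y ⟨hy, hya⟩
    obtain ⟨z, hz, hyz⟩ := mem_iUnion₂.1 hy
    have hyz' := hyz
    obtain ⟨x, hx, -, hyx⟩ := hyz'
    refine mem_biUnion (x := z) ?_ ⟨hyz, hya⟩
    rw [Finset.mem_coe, hJ', Finset.mem_filter]
    refine ⟨hz, A z x, ⟨x, hx, rfl⟩, ?_⟩
    rw [mem_closedBall, dist_eq_norm] at hya ⊢
    have : A z x - a = (A z x - y) + (y - a) := by abel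
    rw [this]
    refine (norm_add_le _ _).trans ?_
    rw [norm_sub_rev (A z x) y]
    linarith
  calc volume ((⋃ z ∈ J, CellsG.Th v n k A r₁ z) ∩ closedBall a r)
      ≤ ∑ z ∈ J', volume (CellsG.Th v n k A r₁ z ∩ closedBall a r) :=
        (measure_mono hcov).trans (measure_biUnion_finset_le _ _)
    _ ≤ ∑ _z ∈ J', 6 * ENNReal.ofReal D := by
        refine Finset.sum_le_sum fun z hz => ?_
        rw [hJ', Finset.mem_filter] at hz
        exact volume_Th_le2 H hz.1 a hr0.le hr₁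
    _ = ENNReal.ofReal (J'.card * (6 * D)) := by
        have e6 : ENNReal.ofReal (6 * D) = 6 * ENNReal.ofReal D := by
          rw [ENNReal.ofReal_mul (by norm_num)]; norm_num
        rw [Finset.sum_const, nsmul_eq_mul, ENNReal.ofReal_mul (p := (J'.card : ℝ)) (by positivity),
          ENNReal.ofReal_natCast, e6]
    _ ≤ ENNReal.ofReal ((2 * r) ^ 3 / 2) := by
        apply ENNReal.ofReal_le_ofReal
        have h1 : (J'.card : ℝ) * (6 * D) ≤ 125 * (6 * D) := by gcongr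
        refine h1.trans ?_
        have h3 : 125 * (6 * D) = 144000 * (M / 2 ^ (n + k) + r₁) * ((2 * r) ^ 2 / 32) := by
          rw [hD]; ring
        rw [h3]
        calc 144000 * (M / 2 ^ (n + k) + r₁) * ((2 * r) ^ 2 / 32)
            ≤ 1 / 2 ^ m₁ * ((2 * r) ^ 2 / 32) := by gcongr
          _ ≤ (16 * (2 * r)) * ((2 * r) ^ 2 / 32) := by
              gcongr
              rw [hrr]; linarith
          _ = (2 * r) ^ 3 / 2 := by ring
    _ = volume (closedBall a r) / 2 := by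
        rw [Real.volume_pi_closedBall _ hr0.le, Fintype.card_fin,
          ENNReal.ofReal_div_of_pos (by norm_num)]
        norm_num

/-- **the centres**, from the relative volume of the thin sets -/
theorem exists_centres_of {r₁ : ℝ}
    (hvol : ∀ m zz, IsTile (grho w v n k m₁ mt m' J A Λ) w m zz →
      volume ((⋃ z ∈ J, CellsG.Th v n k A r₁ z) ∩ closedBall (ctr w m zz) (1 / 2 / 2 ^ m / 2)) ≤
      volume (closedBall (ctr w m zz) (1 / 2 / 2 ^ m / 2)) / 2)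
    {p : ℝ} {T : Type*} [Fintype T] {X : T → Type*}
    [∀ j, MeasurableSpace (X j)] (ν : ∀ j, Measure (X j)) [∀ j, SFinite (ν j)]
    {g : ∀ j, X j → V} (hg : ∀ j, AEMeasurable (g j) (ν j)) {N : Set V} (hN : volume N = 0) :
    ∃ c : ℕ → (Fin 3 → ℤ) → V,
      ∀ m zz, IsTile (grho w v n k m₁ mt m' J A Λ) w m zz →
        ‖c m zz - ctr w m zz‖ ≤ 1 / 4 / 2 ^ m ∧ c m zz ∉ N ∧
        (∀ z ∈ J, ∀ x ∈ dyc v n z, x ∉ boxR v n k z → r₁ ≤ ‖c m zz - A z x‖) ∧
        ∀ j, ∫⁻ x in g j ⁻¹' dyc w m zz, wt p (1 / 2 / 2 ^ m) (g j x - c m zz) ∂(ν j) ≤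
          4 * Fintype.card T * (Cw p * ν j (g j ⁻¹' dyc w m zz)) := by
  classical
  have key : ∀ m zz, ∃ c : V, IsTile (grho w v n k m₁ mt m' J A Λ) w m zz →
        ‖c - ctr w m zz‖ ≤ 1 / 4 / 2 ^ m ∧ c ∉ N ∧
        (∀ z ∈ J, ∀ x ∈ dyc v n z, x ∉ boxR v n k z → r₁ ≤ ‖c - A z x‖) ∧
        ∀ j, ∫⁻ x in g j ⁻¹' dyc w m zz, wt p (1 / 2 / 2 ^ m) (g j x - c) ∂(ν j) ≤
          4 * Fintype.card T * (Cw p * ν j (g j ⁻¹' dyc w m zz)) := by
    intro m zz
    by_cases ht : IsTile (grho w v n k m₁ mt m' J A Λ) w m zz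
    · obtain ⟨c, hc1, hc2, hc3, hc4⟩ := exists_center_fin (p := p) (s := 1 / 2 / 2 ^ m) ν hg
        (ctr w m zz) (by positivity) hN (hvol m zz ht)
      refine ⟨c, fun _ => ⟨?_, hc2, ?_, ?_⟩⟩
      · rw [mem_closedBall, dist_eq_norm] at hc1
        refine hc1.trans (le_of_eq ?_)
        ring
      · intro z hz x hx hxR
        by_contra hcon
        push Not at hcon
        exact hc3 (mem_iUnion₂.2 ⟨z, hz, x, hx, hxR, hcon⟩)
      · intro j
        have := hc4 j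
        rwa [closedBall_ctr] at this
    · exact ⟨0, fun h => absurd h ht⟩
  choose c hc using key
  exact ⟨c, hc⟩

end Vale.Agent.P073.H989
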