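import Vale.Agent.P073.H989.Thin2

/-!
# P073, [THIN2]: the twin of `exists_ctrs` (622, PD5) with an absolute distance to the layers

One more measure `ν'` with a map `g'` (the true map and its energy, for the exponent two) is
controlled in every tile, by the same centres.
-/

namespace Vale.Agent.P073.H989

open MeasureTheory Set Filter Topology Metric Vale.Agent.P073.St Vale.Agent.P073.AB
open _root_.P073.Net (dyc dyo IsTile SizeFn)
open Vale.Agent.P073.H73 (Bix ctr)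
open Vale.Agent.P073.H194 (fs Gs fs_in fs_out Gs_in Gs_out Oc isClosed_Oc wH zo so co OT cubes_OT
  GoodC isCompact_boxR)
open Vale.Agent.P073.H333 (lay gap core out base Mid)
open Vale.Agent.P073.H471 (wgt wt Cw Cw_ne_top measurable_wt)
open Vale.Agent.P073.H83 (CellsG gB gB_J grho tauC exists_centres sizeFn_grho cell_sub_boxR)
open Vale.Agent.P073.H622
open scoped ENNReal

/-- the constant -/
noncomputable def CC2 (p : ℝ) : ℝ≥0∞ := 9 ^ p * (1 + 8 * (8 * Cw p))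

theorem CC2_ne_top {p : ℝ} (hp : 0 ≤ p) (hp3 : p < 3) : CC2 p ≠ ⊤ := by
  unfold CC2
  refine ENNReal.mul_ne_top (ENNReal.rpow_ne_top_of_nonneg hp (by simp)) ?_
  refine ENNReal.add_ne_top.2 ⟨ENNReal.one_ne_top, ?_⟩
  exact ENNReal.mul_ne_top (by simp) (ENNReal.mul_ne_top (by simp) (Cw_ne_top hp3))

variable {p θ M κ : ℝ} {m₁ n k₁ k₀ mt m' : ℕ} {Ω Λ : Set V} {f : V → V} {v : V}
  {J : Finset (Fin 3 → ℤ)} {A : (Fin 3 → ℤ) → V → V} {L : (Fin 3 → ℤ) → V →L[ℝ] V}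
  {G : V → ℝ≥0∞}

/-- **[PD5]** the centres, from the relative volume of the thin sets, with a second measure -/
theorem exists_ctrs_of (H : CellsG θ M κ m₁ n k₁ Ω Λ f v J A L)
    (hF : H669.Fine Ω v n k₁ k₀ J) (hp : 0 ≤ p) {r₁ : ℝ} (mt m' : ℕ)
    (hvol : ∀ m zz, IsTile (grho 0 v n k₁ m₁ mt m' J A Λ) 0 m zz →
      volume ((⋃ z ∈ J, CellsG.Th v n k₁ A r₁ z) ∩
        closedBall (ctr 0 m zz) (1 / 2 / 2 ^ m / 2)) ≤
      volume (closedBall (ctr 0 m zz) (1 / 2 / 2 ^ m / 2)) / 2)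
    (hG : Measurable G) {N : Set V} (hN : volume N = 0)
    (ν' : Measure V) [SFinite ν'] {g' : V → V} (hg' : AEMeasurable g' ν') :
    ∃ c : ℕ → (Fin 3 → ℤ) → V, Mid (grho 0 v n k₁ m₁ mt m' J A Λ) c ∧
      (∀ m zz, IsTile (grho 0 v n k₁ m₁ mt m' J A Λ) 0 m zz → ∀ z ∈ J, ∀ x ∈ dyc v n z,
        x ∉ boxR v n k₁ z → r₁ ≤ ‖c m zz - A z x‖) ∧
      (∀ m zz, IsTile (grho 0 v n k₁ m₁ mt m' J A Λ) 0 m zz → c m zz ∉ N) ∧
      ∫⁻ x in ⋃ q ∈ base Ω v n k₁ k₀ J \ (lay v n k₁ k₀ J ∪ gap v n k₁ J), dyc v q.1 q.2,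
        wH p (zo (grho 0 v n k₁ m₁ mt m' J A Λ) (gB H mt))
          (so (grho 0 v n k₁ m₁ mt m' J A Λ) (gB H mt))
          (co (grho 0 v n k₁ m₁ mt m' J A Λ) (gB H mt) c) (fs v n k₁ J A f)
          (Gs p v n k₁ J A L (gB H mt) G) x ≤
        CC2 p * ((∫⁻ x in Ω \ ⋃ z ∈ J, dyc v n z, G x) + ENNReal.ofReal M ^ p *
          ∑ z ∈ J, volume (boxR v n k₁ z \ ⋃ b ∈ {b | b ∈ gB H mt ∧ b.1 = z}, b.cell A)) ∧
      (∀ m zz, IsTile (grho 0 v n k₁ m₁ mt m' J A Λ) 0 m zz →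
        ∫⁻ x in g' ⁻¹' dyc 0 m zz, wt p (1 / 2 / 2 ^ m) (g' x - c m zz) ∂ν' ≤
          8 * (Cw p * ν' (g' ⁻¹' dyc 0 m zz))) := by
  classical
  set ρ := grho 0 v n k₁ m₁ mt m' J A Λ with hρdef
  have hρ : SizeFn Λ ρ := sizeFn_grho 0 v n k₁ m₁ mt m' J A H.oΛ H.bΛ
  set U := Ud Ω v n k₁ k₀ J with hU
  set g := fs v n k₁ J A f with hg
  set GG := Gs p v n k₁ J A L (gB H mt) G with hGG
  have hgm : AEMeasurable g (volume.restrict U) := aemeasurable_fs H hF
  have hGm : AEMeasurable GG (volume.restrict U) := aemeasurable_Gs hG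
  set ν : Measure V := (volume.restrict U).withDensity GG with hν
  have hgν : AEMeasurable g ν := hgm.mono_ac (withDensity_absolutelyContinuous _ _)
  let ν2 : Bool → Measure V := fun b => match b with
    | true => ν
    | false => ν'
  let g2 : Bool → V → V := fun b => match b with
    | true => g
    | false => g'
  have : ∀ b, SFinite (ν2 b) := by
    rintro (_ | _)
    · exact (inferInstance : SFinite ν')
    · exact (inferInstance : SFinite ν)
  obtain ⟨c, hc⟩ := exists_centres_of (w := 0) (mt := mt) (m' := m') hvol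
    (p := p) (T := Bool) (X := fun _ => V) ν2 (g := g2) (by
      rintro (_ | _)
      · exact hg'
      · exact hgν)
    (N := N) hN
  refine ⟨c, fun m z ht => (hc m z ht).1, fun m zz ht => (hc m zz ht).2.2.1,
    fun m zz ht => (hc m zz ht).2.1, ?_, fun m zz ht => ?_⟩
  · have hW := cubes_OT hρ (gB H mt)
    have hcount : Countable (OT ρ (gB H mt)) := inferInstance
    have hK : ∀ i : OT ρ (gB H mt), ∫⁻ x in g ⁻¹' closedBall (zo ρ (gB H mt) i) (so ρ (gB H mt) i),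
        wt p (so ρ (gB H mt) i) (g x - co ρ (gB H mt) c i) ∂ν ≤
          (8 * Cw p) * ν (g ⁻¹' closedBall (zo ρ (gB H mt) i) (so ρ (gB H mt) i)) := by
      intro i
      have h1 := (hc i.1.1.1 i.1.1.2 i.1.2).2.2.2 true
      have h2 : closedBall (zo ρ (gB H mt) i) (so ρ (gB H mt) i) = dyc 0 i.1.1.1 i.1.1.2 :=
        H471.cB_eq i.1
      rw [h2]
      have h3 : 4 * (Fintype.card Bool : ℝ≥0∞) * (Cw p * ν (g ⁻¹' dyc 0 i.1.1.1 i.1.1.2)) =
          8 * Cw p * ν (g ⁻¹' dyc 0 i.1.1.1 i.1.1.2) := by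
        simp only [Fintype.card_bool, Nat.cast_ofNat]
        rw [show (4:ℝ≥0∞) * 2 = 8 by norm_num, mul_assoc]
      rw [← h3]
      exact h1
    have h4 := H471.lintegral_wgt_le' hW hp ν hgν hK
    have hwm : AEMeasurable (fun x => wgt (zo ρ (gB H mt)) (so ρ (gB H mt))
        (co ρ (gB H mt) c) (g x) ^ p) (volume.restrict U) :=
      ((measurable_wgt _ _ _).comp_aemeasurable hgm).pow_const p
    have h5 : ∫⁻ x, wgt (zo ρ (gB H mt)) (so ρ (gB H mt)) (co ρ (gB H mt) c) (g x) ^ p ∂ν =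
        ∫⁻ x in U, wH p (zo ρ (gB H mt)) (so ρ (gB H mt)) (co ρ (gB H mt) c) g GG x := by
      rw [hν, lintegral_withDensity_eq_lintegral_mul₀ hGm hwm]
      refine lintegral_congr fun x => ?_
      simp only [Pi.mul_apply, wH]
      rw [mul_comm]
    have h6 : ν univ = ∫⁻ x in U, GG x := by
      rw [hν, withDensity_apply _ MeasurableSet.univ, Measure.restrict_univ]
    rw [h5, h6] at h4
    refine h4.trans ?_
    unfold CC2
    gcongr
    exact lintegral_Gs_le H hF hp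
  · have h1 := (hc m zz ht).2.2.2 false
    have h3 : 4 * (Fintype.card Bool : ℝ≥0∞) * (Cw p * ν' (g' ⁻¹' dyc 0 m zz)) =
        8 * (Cw p * ν' (g' ⁻¹' dyc 0 m zz)) := by
      simp only [Fintype.card_bool, Nat.cast_ofNat]
      rw [show (4:ℝ≥0∞) * 2 = 8 by norm_num]
    rw [← h3]
    exact h1

end Vale.Agent.P073.H989
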