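import Vale.Agent.P073.H194.PartMesh
import Vale.Agent.P073.Net.NC
import Vale.Agent.P073.Net.NG1

/-!
# P073, block A15, [T5]: the tiling of the domain, cut near the protected cells

The cells are: the cubes of the partition which miss the protected cells, the pieces of the other
cubes cut by the preimages of the target grid, and the protected cells.
-/

namespace Vale.Agent.P073.H989

open MeasureTheory Set Filter Topology Metric Vale.Agent.P073.St
open Vale.Agent.P073.AB (Idx Part)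
open Vale.Agent.P073.H194 (poly_dyc interior_dyc box_half)
open P073.Net (dyc dyo)

/-- the data of the tiling -/
structure TD (Ω : Set V) where
  /-- origin of the domain grid -/
  v : V
  /-- partition -/
  I : Set Idx
  part : Part Ω v I
  /-- index set of the protected cells -/
  Δ : Type
  /-- affine maps -/
  A : Δ → V → V
  /-- linear parts -/
  L : Δ → V ≃L[ℝ] V
  aff : ∀ D x y, A D y - A D x = L D (y - x)
  /-- lower corners of the boxes -/
  lo : Δ → V
  /-- upper corners of the boxes -/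
  hi : Δ → V
  lt : ∀ D k, lo D k < hi D k
  sub : ∀ D, A D ⁻¹' Icc (lo D) (hi D) ⊆ Ω
  /-- generation of the cutting grid of the target, origin `0` -/
  m : ℕ
  grid : ∀ D z, dyc 0 m z ⊆ Icc (lo D) (hi D) ∨ Disjoint (dyo 0 m z) (Icc (lo D) (hi D))
  sep : ∀ q ∈ I, ∀ D D', (dyc v q.1 q.2 ∩ A D ⁻¹' Icc (lo D) (hi D)).Nonempty →
    (dyc v q.1 q.2 ∩ A D' ⁻¹' Icc (lo D') (hi D')).Nonempty → D = D'
  lf : ∀ K ⊆ Ω, IsCompact K → {D | (A D ⁻¹' Icc (lo D) (hi D) ∩ K).Nonempty}.Finite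

namespace TD

variable {Ω : Set V} (T : TD Ω)

/-- the protected cell -/
def R (D : T.Δ) : Set V := T.A D ⁻¹' Icc (T.lo D) (T.hi D)

theorem A_eq (D : T.Δ) (x : V) : T.A D x = T.A D 0 + T.L D x := by
  have h := T.aff D 0 x
  rw [sub_zero] at h
  rw [← h]
  abel

/-- the affine map as a homeomorphism -/
noncomputable def hom (D : T.Δ) : V ≃ₜ V where
  toFun := T.A D
  invFun := fun y => (T.L D).symm (y - T.A D 0)
  left_inv := fun x => by
    show (T.L D).symm (T.A D x - T.A D 0) = x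
    rw [T.aff, sub_zero, ContinuousLinearEquiv.symm_apply_apply]
  right_inv := fun y => by
    show T.A D ((T.L D).symm (y - T.A D 0)) = y
    rw [T.A_eq, ContinuousLinearEquiv.apply_symm_apply]
    abel
  continuous_toFun := by
    have : T.A D = fun x => T.A D 0 + T.L D x := funext (T.A_eq D)
    rw [this]
    fun_prop
  continuous_invFun := by fun_prop

theorem hom_apply (D : T.Δ) (x : V) : T.hom D x = T.A D x := rfl

theorem continuous_A (D : T.Δ) : Continuous (T.A D) := (T.hom D).continuous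

theorem isCompact_R (D : T.Δ) : IsCompact (T.R D) := by
  have : T.R D = (T.hom D).symm '' Icc (T.lo D) (T.hi D) := by
    rw [(T.hom D).symm.image_eq_preimage_symm]
    rfl
  rw [this]
  exact isCompact_Icc.image (T.hom D).symm.continuous

theorem interior_R (D : T.Δ) : interior (T.R D) = T.A D ⁻¹' interior (Icc (T.lo D) (T.hi D)) :=
  ((T.hom D).preimage_interior _).symm

theorem interior_box (D : T.Δ) :
    interior (Icc (T.lo D) (T.hi D)) = {y | ∀ k, T.lo D k < y k ∧ y k < T.hi D k} := by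
  have h1 : Icc (T.lo D) (T.hi D) = Set.pi univ fun k => Icc (T.lo D k) (T.hi D k) := by
    rw [pi_univ_Icc]
  rw [h1, interior_pi_set finite_univ]
  ext x
  simp only [Set.mem_pi, mem_univ, true_implies, interior_Icc]
  rfl

theorem interior_box_nonempty (D : T.Δ) : (interior (Icc (T.lo D) (T.hi D))).Nonempty := by
  rw [T.interior_box]
  refine ⟨fun k => (T.lo D k + T.hi D k) / 2, fun k => ?_⟩
  have := T.lt D k
  constructor <;> linarith

/-- the box is the closure of its interior -/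
theorem box_sub_closure (D : T.Δ) :
    Icc (T.lo D) (T.hi D) ⊆ closure (interior (Icc (T.lo D) (T.hi D))) := by
  rw [(convex_Icc (𝕜 := ℝ) (T.lo D) (T.hi D)).closure_interior_eq_closure_of_nonempty_interior
    (T.interior_box_nonempty D)]
  exact subset_closure

theorem R_sub_closure (D : T.Δ) : T.R D ⊆ closure (interior (T.R D)) := by
  intro x hx
  rw [T.interior_R]
  have h1 : closure (T.A D ⁻¹' interior (Icc (T.lo D) (T.hi D))) =
      T.A D ⁻¹' closure (interior (Icc (T.lo D) (T.hi D))) :=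
    ((T.hom D).preimage_closure _).symm
  rw [h1]
  exact T.box_sub_closure D hx

/-- half spaces pulled back by the affine map -/
theorem half_preimage (D : T.Δ) (a b : V) :
    ∃ (n : ℕ) (ν : Fin n → V →L[ℝ] ℝ) (t : Fin n → ℝ),
      T.A D ⁻¹' {x : V | ∀ k, a k ≤ x k ∧ x k ≤ b k} = {x | ∀ i, ν i x ≤ t i} := by
  obtain ⟨n, ν, t, h⟩ := box_half a b
  refine ⟨n, fun i => (ν i).comp (T.L D : V →L[ℝ] V), fun i => t i - ν i (T.A D 0), ?_⟩
  rw [h]
  ext x
  simp only [mem_preimage, mem_ofPred_eq]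
  refine forall_congr' fun i => ?_
  rw [T.A_eq D x, map_add]
  constructor
  · intro h
    show ν i (T.L D x) ≤ _
    linarith
  · intro h
    have h' : ν i (T.L D x) ≤ t i - ν i (T.A D 0) := h
    linarith

theorem half_inter {P Q : Set V}
    (hP : ∃ (n : ℕ) (ν : Fin n → V →L[ℝ] ℝ) (t : Fin n → ℝ), P = {x | ∀ i, ν i x ≤ t i})
    (hQ : ∃ (n : ℕ) (ν : Fin n → V →L[ℝ] ℝ) (t : Fin n → ℝ), Q = {x | ∀ i, ν i x ≤ t i}) :
    ∃ (n : ℕ) (ν : Fin n → V →L[ℝ] ℝ) (t : Fin n → ℝ), P ∩ Q = {x | ∀ i, ν i x ≤ t i} := by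
  obtain ⟨n, ν, t, rfl⟩ := hP
  obtain ⟨n', ν', t', rfl⟩ := hQ
  refine ⟨n + n', Fin.append ν ν', Fin.append t t', ?_⟩
  ext x
  constructor
  · rintro ⟨h1, h2⟩ i
    refine Fin.addCases (fun k => ?_) (fun k => ?_) i
    · rw [Fin.append_left, Fin.append_left]
      exact h1 k
    · rw [Fin.append_right, Fin.append_right]
      exact h2 k
  · intro h
    constructor
    · intro k
      have := h (Fin.castAdd n' k)
      rwa [Fin.append_left, Fin.append_left] at this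
    · intro k
      have := h (Fin.natAdd n k)
      rwa [Fin.append_right, Fin.append_right] at this

/-- the piece of the cube `q` -/
def piece (q : Idx) (D : T.Δ) (z : Fin 3 → ℤ) : Set V :=
  dyc T.v q.1 q.2 ∩ T.A D ⁻¹' dyc 0 T.m z

/-- the cubes which are kept -/
def Far (q : Idx) : Prop := q ∈ T.I ∧ ∀ D, Disjoint (dyc T.v q.1 q.2) (T.R D)

/-- the pieces -/
structure Cut (a : Idx × T.Δ × (Fin 3 → ℤ)) : Prop where
  mem : a.1 ∈ T.I
  meet : (dyc T.v a.1.1 a.1.2 ∩ T.R a.2.1).Nonempty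
  nsub : ¬ dyc T.v a.1.1 a.1.2 ⊆ T.R a.2.1
  nbox : ¬ dyc 0 T.m a.2.2 ⊆ Icc (T.lo a.2.1) (T.hi a.2.1)
  int : (interior (T.piece a.1 a.2.1 a.2.2)).Nonempty

/-- the index set of the cells -/
abbrev ι : Type :=
  {q : Idx // T.Far q} ⊕ {a : Idx × T.Δ × (Fin 3 → ℤ) // T.Cut a} ⊕ T.Δ

/-- the cells -/
def Q : T.ι → Set V
  | Sum.inl q => dyc T.v q.1.1 q.1.2
  | Sum.inr (Sum.inl a) => T.piece a.1.1 a.1.2.1 a.1.2.2
  | Sum.inr (Sum.inr D) => T.R D

theorem isClosed_dyc' (w : V) (n : ℕ) (z : Fin 3 → ℤ) : IsClosed (dyc w n z) :=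
  (AB.P86.isCompact_dyc w n z).isClosed

theorem interior_piece (q : Idx) (D : T.Δ) (z : Fin 3 → ℤ) :
    interior (T.piece q D z) = dyo T.v q.1 q.2 ∩ T.A D ⁻¹' dyo 0 T.m z := by
  unfold piece
  have h1 : interior (T.A D ⁻¹' dyc 0 T.m z) = T.A D ⁻¹' interior (dyc 0 T.m z) :=
    ((T.hom D).preimage_interior _).symm
  rw [interior_inter, interior_dyc, h1, interior_dyc]

theorem Cut.disj {a : Idx × T.Δ × (Fin 3 → ℤ)} (h : T.Cut a) :
    Disjoint (dyo 0 T.m a.2.2) (Icc (T.lo a.2.1) (T.hi a.2.1)) :=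
  (T.grid a.2.1 a.2.2).resolve_left h.nbox

/-- **Poly** -/
theorem poly (i : T.ι) : H73.Poly (T.Q i) := by
  rcases i with q | a | D
  · exact poly_dyc _ _ _
  · refine ⟨?_, a.2.int, ?_⟩
    · exact (AB.P86.isCompact_dyc _ _ _).inter_right
        ((isClosed_dyc' _ _ _).preimage (T.continuous_A _))
    · exact half_inter (poly_dyc _ _ _).half
        (T.half_preimage a.1.2.1 (fun k => (0 : V) k + a.1.2.2 k / 2 ^ T.m)
          (fun k => (0 : V) k + (a.1.2.2 k + 1) / 2 ^ T.m))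
  · refine ⟨T.isCompact_R D, ?_, ?_⟩
    · show (interior (T.R D)).Nonempty
      rw [T.interior_R]
      obtain ⟨y, hy⟩ := T.interior_box_nonempty D
      refine ⟨(T.hom D).symm y, ?_⟩
      show T.A D ((T.hom D).symm y) ∈ interior (Icc (T.lo D) (T.hi D))
      rw [← T.hom_apply, (T.hom D).apply_symm_apply]
      exact hy
    · obtain ⟨n, ν, t, h⟩ := T.half_preimage D (T.lo D) (T.hi D)
      refine ⟨n, ν, t, ?_⟩
      rw [← h]
      ext x
      simp only [Q, R, mem_preimage, mem_Icc, Pi.le_def, mem_ofPred_eq]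
      exact ⟨fun h k => ⟨h.1 k, h.2 k⟩, fun h => ⟨fun k => (h k).1, fun k => (h k).2⟩⟩

/-- **sub** -/
theorem Q_sub (i : T.ι) : T.Q i ⊆ Ω := by
  rcases i with q | a | D
  · exact T.part.sub _ q.2.1
  · exact inter_subset_left.trans (T.part.sub _ a.2.mem)
  · exact T.sub D

/-- a cube meets at most one protected cell; the open cube and the interior of the cell -/
theorem far_disj {q : Idx} (hq : T.Far q) (D : T.Δ) :
    Disjoint (dyo T.v q.1 q.2) (T.R D) :=
  (hq.2 D).mono_left (AB.P86.dyo_sub_dyc)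

theorem cut_disj {a : Idx × T.Δ × (Fin 3 → ℤ)} (h : T.Cut a) (D : T.Δ) :
    Disjoint (interior (T.piece a.1 a.2.1 a.2.2)) (T.R D) := by
  rw [Set.disjoint_left]
  intro x hx hxD
  rw [T.interior_piece] at hx
  have h1 : a.2.1 = D := T.sep _ h.mem _ _ h.meet ⟨x, AB.P86.dyo_sub_dyc hx.1, hxD⟩
  subst h1
  exact Set.disjoint_left.1 (Cut.disj T h) hx.2 hxD

theorem cut_disj' {a : Idx × T.Δ × (Fin 3 → ℤ)} (h : T.Cut a) (D : T.Δ) :
    Disjoint (interior (T.R D)) (T.piece a.1 a.2.1 a.2.2) := by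
  rw [Set.disjoint_left]
  intro x hx hxa
  have h1 : a.2.1 = D := T.sep _ h.mem _ _ h.meet ⟨x, hxa.1, interior_subset hx⟩
  subst h1
  rw [T.interior_R] at hx
  have h2 : Disjoint (closure (dyo 0 T.m a.2.2)) (interior (Icc (T.lo a.2.1) (T.hi a.2.1))) :=
    ((Cut.disj T h).mono_right interior_subset).closure_left isOpen_interior
  exact Set.disjoint_left.1 h2 (P073.Net.NG1.dyc_sub_closure _ _ _ hxa.2) hx

theorem dyo_disj {w : V} {n : ℕ} {z z' : Fin 3 → ℤ} (h : z ≠ z') :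
    Disjoint (dyo w n z) (dyc w n z') := by
  rw [Set.disjoint_left]
  intro x hx hx'
  have h1 := P073.Net.NC.fine_sub le_rfl hx hx'
  apply h
  funext k
  obtain ⟨h2, h3⟩ := h1 k
  have hp : (0:ℝ) < 2 ^ n := by positivity
  rw [div_le_div_iff_of_pos_right hp] at h2 h3
  have h4 : (z k : ℝ) = z' k := by linarith
  exact_mod_cast h4

/-- **disj** -/
theorem disj (i j : T.ι) (hij : i ≠ j) : Disjoint (interior (T.Q i)) (T.Q j) := by
  rcases i with q | a | D <;> rcases j with q' | a' | D'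
  · show Disjoint (interior (dyc _ _ _)) (dyc _ _ _)
    rw [interior_dyc]
    exact T.part.disj _ q.2.1 _ q'.2.1 fun h => hij (by rw [Subtype.ext h])
  · show Disjoint (interior (dyc _ _ _)) (T.piece _ _ _)
    rw [interior_dyc]
    have hne : q.1 ≠ a'.1.1 := by
      intro h
      have h1 := a'.2.meet
      rw [← h] at h1
      exact h1.ne_empty (Set.disjoint_iff_inter_eq_empty.1 (q.2.2 _))
    exact (T.part.disj _ q.2.1 _ a'.2.mem hne).mono_right inter_subset_left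
  · show Disjoint (interior (dyc _ _ _)) (T.R _)
    rw [interior_dyc]
    exact T.far_disj q.2 D'
  · show Disjoint (interior (T.piece _ _ _)) (dyc _ _ _)
    rw [T.interior_piece]
    have hne : a.1.1 ≠ q'.1 := by
      intro h
      have h1 := a.2.meet
      rw [h] at h1
      exact h1.ne_empty (Set.disjoint_iff_inter_eq_empty.1 (q'.2.2 _))
    exact (T.part.disj _ a.2.mem _ q'.2.1 hne).mono_left inter_subset_left
  · show Disjoint (interior (T.piece _ _ _)) (T.piece _ _ _)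
    rw [T.interior_piece]
    by_cases h1 : a.1.1 = a'.1.1
    · have h2 : a.1.2.1 = a'.1.2.1 := by
        refine T.sep _ a.2.mem _ _ a.2.meet ?_
        rw [h1]
        exact a'.2.meet
      have h3 : a.1.2.2 ≠ a'.1.2.2 := fun h3 =>
        hij (by
          have : a.1 = a'.1 := Prod.ext h1 (Prod.ext h2 h3)
          rw [Subtype.ext this])
      rw [Set.disjoint_left]
      intro x hx hx'
      have h4 := hx.2
      have h5 : T.A a'.1.2.1 x ∈ dyc 0 T.m a'.1.2.2 := hx'.2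
      rw [← h2] at h5
      exact Set.disjoint_left.1 (dyo_disj h3) h4 h5
    · exact (T.part.disj _ a.2.mem _ a'.2.mem h1).mono inter_subset_left inter_subset_left
  · exact T.cut_disj a.2 D'
  · show Disjoint (interior (T.R D)) (dyc _ _ _)
    exact ((q'.2.2 D).symm).mono_left interior_subset
  · exact T.cut_disj' a'.2 D
  · show Disjoint (interior (T.R D)) (T.R D')
    rw [Set.disjoint_left]
    intro x hx hx'
    obtain ⟨q, hq, hxq⟩ := T.part.cover x (T.sub D' hx')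
    have h1 := T.sep q hq D D' ⟨x, hxq, interior_subset hx⟩ ⟨x, hxq, hx'⟩
    exact hij (by rw [h1])

/-- finitely many cubes of one generation meet a bounded set -/
theorem finite_meet (n : ℕ) {K : Set V} (hK : Bornology.IsBounded K) :
    {z : Fin 3 → ℤ | (dyc 0 n z ∩ K).Nonempty}.Finite := by
  obtain ⟨r, hr⟩ := hK.subset_closedBall (0 : V)
  have hp : (0:ℝ) < 2 ^ n := by positivity
  set B : ℤ := ⌈2 ^ n * r⌉ + 2 with hB
  have hBr : (2:ℝ) ^ n * r + 2 ≤ B := by
    have := Int.le_ceil ((2:ℝ) ^ n * r)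
    rw [hB]
    push_cast
    linarith
  refine (Set.Finite.pi' fun _ : Fin 3 => Set.finite_Icc (-B) B).subset ?_
  rintro z ⟨y, hy, hyK⟩ k
  have h7 := hr hyK
  rw [mem_closedBall, dist_zero_right] at h7
  have h6 : |y k| ≤ r := (norm_le_pi_norm y k).trans h7
  rw [abs_le] at h6
  have h8 := hy k
  simp only [Pi.zero_apply, zero_add] at h8
  have h9 : (z k : ℝ) / 2 ^ n ≤ r := by linarith
  have h10 : -r ≤ ((z k : ℝ) + 1) / 2 ^ n := by linarith
  rw [div_le_iff₀ hp] at h9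
  rw [le_div_iff₀ hp] at h10
  have h11 : (z k : ℝ) ≤ B := by linarith
  have h12 : -(B : ℝ) ≤ z k := by linarith
  exact ⟨by exact_mod_cast h12, by exact_mod_cast h11⟩

/-- **cover** -/
theorem cover (x : V) (hx : x ∈ Ω) : ∃ i, x ∈ T.Q i := by
  obtain ⟨q, hq, hxq⟩ := T.part.cover x hx
  by_cases h1 : ∀ D, Disjoint (dyc T.v q.1 q.2) (T.R D)
  · exact ⟨Sum.inl ⟨q, hq, h1⟩, hxq⟩
  push Not at h1
  obtain ⟨D, hD⟩ := h1
  rw [Set.not_disjoint_iff_nonempty_inter] at hD
  by_cases hxD : x ∈ T.R D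
  · exact ⟨Sum.inr (Sum.inr D), hxD⟩
  have hns : ¬ dyc T.v q.1 q.2 ⊆ T.R D := fun h => hxD (h hxq)
  -- points of the open cube near `x`, off `R D`, in open cubes of the target grid
  obtain ⟨N, hN, hfin⟩ : ∃ N ∈ 𝓝 (T.A D x), {z : Fin 3 → ℤ | (dyc 0 T.m z ∩ N).Nonempty}.Finite :=
    ⟨closedBall (T.A D x) 1, closedBall_mem_nhds _ one_pos, finite_meet _ isBounded_closedBall⟩
  -- the open set of admissible points
  set G : Set V := dyo T.v q.1 q.2 ∩ (T.R D)ᶜ ∩ T.A D ⁻¹' (⋃ z, dyo 0 T.m z) with hG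
  have hdense : Dense (⋃ z, dyo (0:V) T.m z) := by
    intro y
    obtain ⟨z, hz⟩ := P073.Net.NC.exists_mem (0:V) T.m y
    exact closure_mono (subset_iUnion _ z) (P073.Net.NG1.dyc_sub_closure _ _ _ hz)
  have hdense' : Dense (T.A D ⁻¹' (⋃ z, dyo (0:V) T.m z)) := by
    have := hdense.preimage (T.hom D).isOpenMap
    exact this
  have hopen : IsOpen (dyo T.v q.1 q.2 ∩ (T.R D)ᶜ) := by
    refine IsOpen.inter ?_ (T.isCompact_R D).isClosed.isOpen_compl
    rw [← interior_dyc]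
    exact isOpen_interior
  have hxG : x ∈ closure G := by
    have h2 : x ∈ closure (dyo T.v q.1 q.2 ∩ (T.R D)ᶜ) := by
      have h3 : x ∈ closure (dyo T.v q.1 q.2) := P073.Net.NG1.dyc_sub_closure _ _ _ hxq
      have h4 := (T.isCompact_R D).isClosed.isOpen_compl.mem_nhds hxD
      rw [mem_closure_iff_nhds] at h3 ⊢
      intro W hW
      obtain ⟨y, ⟨hy1, hy2⟩, hy3⟩ := h3 (W ∩ (T.R D)ᶜ) (inter_mem hW h4)
      exact ⟨y, hy1, hy3, hy2⟩
    have h5 := hdense'.open_subset_closure_inter hopen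
    exact closure_minimal h5 isClosed_closure h2
  -- one of the target cubes
  have hNx : T.A D ⁻¹' N ∈ 𝓝 x := (T.continuous_A D).continuousAt.preimage_mem_nhds hN
  have hxc : x ∈ closure (⋃ z ∈ {z : Fin 3 → ℤ | (dyc 0 T.m z ∩ N).Nonempty},
      (dyo T.v q.1 q.2 ∩ (T.R D)ᶜ ∩ T.A D ⁻¹' dyo 0 T.m z)) := by
    rw [mem_closure_iff_nhds] at hxG ⊢
    intro W hW
    obtain ⟨y, ⟨hy1, hy2⟩, hy3⟩ := hxG (W ∩ T.A D ⁻¹' N) (inter_mem hW hNx)
    obtain ⟨z, hz⟩ := mem_iUnion.1 hy3.2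
    refine ⟨y, hy1, mem_biUnion (x := z) ?_ ⟨hy3.1, hz⟩⟩
    exact ⟨T.A D y, AB.P86.dyo_sub_dyc hz, hy2⟩
  rw [hfin.closure_biUnion] at hxc
  simp only [mem_iUnion] at hxc
  obtain ⟨z, -, hz⟩ := hxc
  have hne : (dyo T.v q.1 q.2 ∩ (T.R D)ᶜ ∩ T.A D ⁻¹' dyo 0 T.m z).Nonempty :=
    closure_nonempty_iff.1 ⟨x, hz⟩
  obtain ⟨y, ⟨hy1, hy2⟩, hy3⟩ := hne
  have hAx : T.A D x ∈ dyc 0 T.m z := by
    have h5 : closure (dyo T.v q.1 q.2 ∩ (T.R D)ᶜ ∩ T.A D ⁻¹' dyo 0 T.m z) ⊆
        T.A D ⁻¹' dyc 0 T.m z :=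
      closure_minimal (fun y hy => AB.P86.dyo_sub_dyc hy.2)
        ((isClosed_dyc' _ _ _).preimage (T.continuous_A D))
    exact h5 hz
  refine ⟨Sum.inr (Sum.inl ⟨(q, D, z), hq, hD, hns, fun h => ?_, ?_⟩), hxq, hAx⟩
  · exact hy2 (h (AB.P86.dyo_sub_dyc hy3))
  · rw [T.interior_piece]
    exact ⟨y, hy1, hy3⟩

/-- **fin** -/
theorem fin (K : Set V) (hK : K ⊆ Ω) (hKc : IsCompact K) : {i | (T.Q i ∩ K).Nonempty}.Finite := by
  have h1 := T.part.fin K hK hKc
  have h3 : ({i : T.ι | (T.Q i ∩ K).Nonempty} ∩ range Sum.inl).Finite := by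
    have h4 : {q : {q : Idx // T.Far q} | (dyc T.v q.1.1 q.1.2 ∩ K).Nonempty}.Finite := by
      refine Set.Finite.of_finite_image (f := Subtype.val) (h1.subset ?_)
        Subtype.val_injective.injOn
      rintro _ ⟨q, hq, rfl⟩
      exact ⟨q.2.1, hq⟩
    refine (h4.image Sum.inl).subset ?_
    rintro _ ⟨hi, q, rfl⟩
    exact ⟨q, hi, rfl⟩
  have h5 : ({i : T.ι | (T.Q i ∩ K).Nonempty} ∩ range (Sum.inr ∘ Sum.inl)).Finite := by
    have h6 : {a : Idx × T.Δ × (Fin 3 → ℤ) | T.Cut a ∧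
        (dyc T.v a.1.1 a.1.2 ∩ K).Nonempty}.Finite := by
      have h7 : (⋃ q ∈ {q | q ∈ T.I ∧ (dyc T.v q.1 q.2 ∩ K).Nonempty},
          ⋃ D ∈ {D | (T.R D ∩ dyc T.v q.1 q.2).Nonempty},
            (fun z => ((q, D, z) : Idx × T.Δ × (Fin 3 → ℤ))) ''
              {z : Fin 3 → ℤ | (dyc 0 T.m z ∩ T.A D '' dyc T.v q.1 q.2).Nonempty}).Finite := by
        refine h1.biUnion fun q hq => ?_
        refine (T.lf _ (T.part.sub _ hq.1) (AB.P86.isCompact_dyc _ _ _)).biUnion fun D _ => ?_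
        refine (finite_meet _ ?_).image _
        exact ((AB.P86.isCompact_dyc _ _ _).image (T.continuous_A D)).isBounded
      refine h7.subset ?_
      rintro ⟨q, D, z⟩ ⟨ha, hm⟩
      obtain ⟨x, hx⟩ := ha.int
      have hx' := interior_subset hx
      refine mem_biUnion (x := q) ⟨ha.mem, hm⟩ (mem_biUnion (x := D) ?_ ⟨z, ?_, rfl⟩)
      · show (T.R D ∩ dyc T.v q.1 q.2).Nonempty
        rw [inter_comm]
        exact ha.meet
      · exact ⟨T.A D x, hx'.2, mem_image_of_mem _ hx'.1⟩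
    have h8 : {a : {a : Idx × T.Δ × (Fin 3 → ℤ) // T.Cut a} |
        (dyc T.v a.1.1.1 a.1.1.2 ∩ K).Nonempty}.Finite := by
      refine Set.Finite.of_finite_image (f := Subtype.val) (h6.subset ?_)
        Subtype.val_injective.injOn
      rintro _ ⟨a, ha, rfl⟩
      exact ⟨a.2, ha⟩
    refine (h8.image (Sum.inr ∘ Sum.inl)).subset ?_
    rintro _ ⟨⟨x, hx, hxK⟩, a, rfl⟩
    exact ⟨a, ⟨x, hx.1, hxK⟩, rfl⟩
  have h9 : ({i : T.ι | (T.Q i ∩ K).Nonempty} ∩ range (Sum.inr ∘ Sum.inr)).Finite := by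
    refine ((T.lf K hK hKc).image (Sum.inr ∘ Sum.inr)).subset ?_
    rintro _ ⟨hi, D, rfl⟩
    exact ⟨D, hi, rfl⟩
  refine ((h3.union h5).union h9).subset ?_
  intro i hi
  rcases i with q | a | D
  · exact Or.inl (Or.inl ⟨hi, q, rfl⟩)
  · exact Or.inl (Or.inr ⟨hi, a, rfl⟩)
  · exact Or.inr ⟨hi, D, rfl⟩

end TD

end Vale.Agent.P073.H989
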