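import Vale.Agent.P073.H989.Tile5b
import Vale.Agent.P073.H73.PostSpec

/-!
# P073, block A15, [T5]: the tiling of the data `Pre`
-/

namespace Vale.Agent.P073.H989

open MeasureTheory Set Filter Topology Metric Vale.Agent.P073.St
open Vale.Agent.P073.AB (Idx Part)
open Vale.Agent.P073.H73 (Mesh Fat Aligned Bix Geo)
open Vale.Agent.P073.H687 (Tiling Two)
open P073.Net (dyc dyo IsTile SizeFn)

variable {Ω Λ : Set V}

theorem closure_interior_Icc {lo hi : V} (h : ∀ k, lo k < hi k) :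
    Icc lo hi ⊆ closure (interior (Icc lo hi)) := by
  have h1 : (interior (Icc lo hi)).Nonempty := by
    have h1 : Icc lo hi = Set.pi univ fun k => Icc (lo k) (hi k) := by
      rw [pi_univ_Icc]
    rw [h1, interior_pi_set finite_univ]
    refine ⟨fun k => (lo k + hi k) / 2, fun k _ => ?_⟩
    show (lo k + hi k) / 2 ∈ interior (Icc (lo k) (hi k))
    rw [interior_Icc]
    have := h k
    constructor <;> linarith
  rw [(convex_Icc (𝕜 := ℝ) lo hi).closure_interior_eq_closure_of_nonempty_interior h1]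
  exact subset_closure

section pre

variable (P : Geo Ω Λ)

theorem Pre_cell_sub {b : Bix} (hb : b ∈ P.B) {x : V} (hx : x ∈ b.cell P.A) :
    x ∈ Ω ∧ P.h.toFun x = P.A b.1 x :=
  P.hA b hb x ⟨x, hx, by rw [sub_self, norm_zero]; positivity⟩

/-- the linear part as an equivalence -/
noncomputable def preL (b : {b : Bix // b ∈ P.B}) : V ≃L[ℝ] V :=
  (LinearEquiv.ofInjectiveEndo (P.L b.1.1 : V →ₗ[ℝ] V)
    (P.inj _ (P.bJ _ b.2))).toContinuousLinearEquiv

theorem preL_apply (b : {b : Bix // b ∈ P.B}) (x : V) : preL P b x = P.L b.1.1 x := rfl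

/-- a cube of the grid `2 ^ -m` whose interior meets a box with corners in the coarser grid -/
theorem grid_box {lo hi : V} {mt m : ℕ} (hm : mt ≤ m) (hlo : ∀ k, ∃ a : ℤ, lo k = a / 2 ^ mt)
    (hhi : ∀ k, ∃ a : ℤ, hi k = a / 2 ^ mt) (z : Fin 3 → ℤ) :
    dyc 0 m z ⊆ Icc lo hi ∨ Disjoint (dyo 0 m z) (Icc lo hi) := by
  by_cases hd : Disjoint (dyo 0 m z) (Icc lo hi)
  · exact Or.inr hd
  left
  rw [Set.not_disjoint_iff] at hd
  obtain ⟨y, hy, hyb⟩ := hd
  have hp : (0:ℝ) < 2 ^ m := by positivity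
  have key : ∀ a : ℤ, (a : ℝ) / 2 ^ mt = ((a * 2 ^ (m - mt) : ℤ) : ℝ) / 2 ^ m := by
    intro a
    have h1 : (2:ℝ) ^ m = 2 ^ mt * 2 ^ (m - mt) := by
      rw [← pow_add]
      congr 1
      omega
    rw [h1]
    push_cast
    field_simp
  have hlow : ∀ k, lo k ≤ (z k : ℝ) / 2 ^ m := by
    intro k
    obtain ⟨a, ha⟩ := hlo k
    have h1 : lo k ≤ y k := hyb.1 k
    have h2 := (hy k).2
    rw [Pi.zero_apply, zero_add] at h2
    rw [ha, key] at h1 ⊢
    have h3 := lt_of_le_of_lt h1 h2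
    rw [div_lt_div_iff_of_pos_right hp] at h3
    have h4 : a * 2 ^ (m - mt) < z k + 1 := by exact_mod_cast h3
    rw [div_le_div_iff_of_pos_right hp]
    exact_mod_cast Int.lt_add_one_iff.1 h4
  have hhigh : ∀ k, ((z k : ℝ) + 1) / 2 ^ m ≤ hi k := by
    intro k
    obtain ⟨a, ha⟩ := hhi k
    have h1 : y k ≤ hi k := hyb.2 k
    have h2 := (hy k).1
    rw [Pi.zero_apply, zero_add] at h2
    rw [ha, key] at h1 ⊢
    have h3 := lt_of_lt_of_le h2 h1
    rw [div_lt_div_iff_of_pos_right hp] at h3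
    have h4 : z k < a * 2 ^ (m - mt) := by exact_mod_cast h3
    rw [div_le_div_iff_of_pos_right hp]
    have h5 : z k + 1 ≤ a * 2 ^ (m - mt) := h4
    exact_mod_cast h5
  intro x hx
  constructor <;> intro k
  · have h1 := (hx k).1
    rw [Pi.zero_apply, zero_add] at h1
    exact (hlow k).trans h1
  · have h1 := (hx k).2
    rw [Pi.zero_apply, zero_add] at h1
    exact h1.trans (hhigh k)

theorem pre_grid {b : Bix} (hb : b ∈ P.B) (z : Fin 3 → ℤ) :
    dyc 0 (P.nr + P.N) z ⊆ b.box ∨ Disjoint (dyo 0 (P.nr + P.N) z) b.box :=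
  grid_box (P.mle.trans (Nat.le_add_right _ _)) (P.blo b hb) (P.bhi b hb) z

/-- **(T5)** the tiling data -/
noncomputable def preTD : TD Ω where
  v := P.v
  I := P.I
  part := P.part
  Δ := {b : Bix // b ∈ P.B}
  A := fun b => P.A b.1.1
  L := preL P
  aff := fun b x y => P.aff _ x y
  lo := fun b => b.1.2.1
  hi := fun b => b.1.2.2
  lt := fun b => P.blt _ b.2
  sub := fun b x hx => (Pre_cell_sub P b.2 hx).1
  m := P.nr + P.N
  grid := fun b z => pre_grid P b.2 z
  sep := by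
    rintro q hq b b' ⟨x, hxq, hxb⟩ ⟨x', hx'q, hx'b⟩
    by_contra hne
    have h1 : q.1 = P.nr := P.unif _ b.2 q hq ⟨x, hxq, x, hxb, by
      rw [sub_self, norm_zero]; positivity⟩
    have h2 := P.sep _ b.2 _ b'.2 (fun h => hne (Subtype.ext h)) x hxb x' hx'b
    have h3 := P073.Net.NC.dist_le hxq hx'q
    rw [h1] at h3
    have hp : (0:ℝ) < 1 / 2 ^ P.nr := by positivity
    have h4 : (16:ℝ) / 2 ^ P.nr = 16 * (1 / 2 ^ P.nr) := by ring
    linarith
  lf := fun K _ _ => Set.toFinite _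

theorem preTD_R (b : {b : Bix // b ∈ P.B}) : (preTD P).R b = b.1.cell P.A := rfl

/-- **(T5)** the mesh of the tiling, with the protected cells aligned -/
theorem pre_aligned (hΩ : IsOpen Ω) {c r : (preTD P).tiling.κ → ℝ} (hr : ∀ k, 0 < r k)
    (hf : ∀ k, Fat (c k) (r k) ((preTD P).tiling.F k)) :
    Aligned 0 P.ρ ((preTD P).tiling.mesh hΩ c r hr hf) P.h.toFun (preTD P).prot :=
  (preTD P).aligned hΩ hr hf (fun b x hx => (Pre_cell_sub P b.2 hx).2)
    (fun b m z hz => P.btile _ b.2 m z hz)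
    (fun b m z hz h => by
      rw [P.bmt _ b.2 m z hz h]
      exact P.mle.trans (Nat.le_add_right _ _))
    (fun b => ⟨P.mt, fun m z hz h => P.bmt _ b.2 m z hz h⟩)

/-- the cubes which meet a protected cell have generation `nr` -/
theorem pre_gen {a : Idx × {b : Bix // b ∈ P.B} × (Fin 3 → ℤ)} (h : (preTD P).Cut a) :
    a.1.1 = P.nr := by
  obtain ⟨x, hxq, hxb⟩ := h.meet
  exact P.unif _ a.2.1.2 a.1 h.mem ⟨x, hxq, x, hxb, by
    rw [sub_self, norm_zero]; positivity⟩

end pre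

end Vale.Agent.P073.H989
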