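import Vale.Agent.P073.H989.Tile5c
import Vale.Agent.P073.H244.Shapes

/-!
# P073, block A15, [T5-FAT]: the shape constants of the faces of the cut cells
-/

namespace Vale.Agent.P073.H989

open MeasureTheory Set Filter Topology Metric Vale.Agent.P073.St
open Vale.Agent.P073.SQ (ev)
open Vale.Agent.P073.AB (Idx Part)
open Vale.Agent.P073.H73 (Mesh Fat Aligned Bix Geo)
open Vale.Agent.P073.H687 (Tiling Two)
open Vale.Agent.P073.H244 (cut cut_inter dyc_inter_preimage Dyd exists_fat_cut mv)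
open P073.Net (dyc dyo IsTile SizeFn)

variable {Ω Λ : Set V}

/-- the shape constant of the matrix `M` -/
noncomputable def cM (M : Fin 3 → Fin 3 → ℤ) : ℝ := (exists_fat_cut M 1).choose

theorem one_le_cM (M : Fin 3 → Fin 3 → ℤ) : 1 ≤ cM M := (exists_fat_cut M 1).choose_spec.1

/-- the integer matrix -/
noncomputable def mat (N : ℕ) (A : V → V) (i j : Fin 3) : ℤ := ⌊2 ^ N * (A (ev j) i - A 0 i)⌋

/-- the shape constant of the data -/
noncomputable def Cfat (N : ℕ) (J : Finset (Fin 3 → ℤ)) (A : (Fin 3 → ℤ) → V → V) : ℝ :=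
  1 + ∑ z ∈ J, cM (mat N (A z))

theorem one_le_Cfat (N : ℕ) (J : Finset (Fin 3 → ℤ)) (A : (Fin 3 → ℤ) → V → V) :
    1 ≤ Cfat N J A := by
  have : 0 ≤ ∑ z ∈ J, cM (mat N (A z)) :=
    Finset.sum_nonneg fun z _ => zero_le_one.trans (one_le_cM _)
  unfold Cfat
  linarith

theorem cM_le_Cfat (N : ℕ) (J : Finset (Fin 3 → ℤ)) (A : (Fin 3 → ℤ) → V → V) {z : Fin 3 → ℤ}
    (hz : z ∈ J) : cM (mat N (A z)) ≤ Cfat N J A := by
  have : cM (mat N (A z)) ≤ ∑ z ∈ J, cM (mat N (A z)) :=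
    Finset.single_le_sum (f := fun z => cM (mat N (A z)))
      (fun z _ => zero_le_one.trans (one_le_cM _)) hz
  unfold Cfat
  linarith

section pre

variable (P : Geo Ω Λ)

theorem pre_A_eq (z : Fin 3 → ℤ) (x : V) : P.A z x = P.A z 0 + P.L z x := by
  have h := P.aff z 0 x
  rw [sub_zero] at h
  rw [← h]
  abel

theorem mat_eq {z : Fin 3 → ℤ} (hz : z ∈ P.J) (i j : Fin 3) :
    (mat P.N (P.A z) i j : ℝ) = 2 ^ P.N * P.L z (ev j) i := by
  obtain ⟨a, ha⟩ := P.ratL z hz i j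
  have h1 : P.A z (ev j) i - P.A z 0 i = P.L z (ev j) i := by
    rw [pre_A_eq P z (ev j), Pi.add_apply]
    ring
  have h2 : (2:ℝ) ^ P.N * (P.A z (ev j) i - P.A z 0 i) = a := by
    rw [h1, ha]
    field_simp
  unfold mat
  rw [h2, Int.floor_intCast, ha]
  field_simp

theorem sum_ev (y : V) : y = ∑ l, y l • (ev l : V) := by
  funext i
  simp [ev, Finset.sum_apply, Pi.single_apply]

/-- the dyadic data of a good cell -/
theorem pre_dyd {z : Fin 3 → ℤ} (hz : z ∈ P.J) :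
    ∃ d, Dyd P.v 0 P.nr (P.nr + P.N) (P.A z) (mat P.N (P.A z)) d := by
  choose a ha using P.ratA z hz
  refine ⟨fun k => 2 ^ P.nr * a k, fun x y k => ?_, fun k => ?_⟩
  · have h1 : P.A z (x + y) k - P.A z x k = P.L z y k := by
      have h := congrFun (P.aff z x (x + y)) k
      rw [add_sub_cancel_left] at h
      exact h
    have h2 : P.L z y k = ∑ l, y l * P.L z (ev l) k := by
      conv_lhs => rw [sum_ev y]
      rw [map_sum, Finset.sum_apply]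
      exact Finset.sum_congr rfl fun l _ => by rw [map_smul, Pi.smul_apply, smul_eq_mul]
    rw [h1, h2, mv, Finset.mul_sum, Finset.mul_sum]
    refine Finset.sum_congr rfl fun l _ => ?_
    rw [mat_eq P hz]
    rw [pow_add]
    ring
  · rw [ha k, Pi.zero_apply, sub_zero, pow_add]
    push_cast
    field_simp

/-- the corners of the boxes are grid points -/
theorem pre_corner {b : Bix} (hb : b ∈ P.B) (k : Fin 3) :
    (∃ a : ℤ, b.2.1 k = a / 2 ^ (P.nr + P.N)) ∧ ∃ a : ℤ, b.2.2 k = a / 2 ^ (P.nr + P.N) := by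
  have key : ∀ a : ℤ, ∃ a' : ℤ, (a : ℝ) / 2 ^ P.mt = (a' : ℝ) / 2 ^ (P.nr + P.N) := by
    intro a
    have hm := P.mle
    refine ⟨a * 2 ^ (P.nr + P.N - P.mt), ?_⟩
    have h1 : (2:ℝ) ^ (P.nr + P.N) = 2 ^ P.mt * 2 ^ (P.nr + P.N - P.mt) := by
      rw [← pow_add]
      congr 1
      omega
    rw [h1]
    push_cast
    field_simp
  constructor
  · obtain ⟨a, ha⟩ := P.blo b hb k
    rw [ha]
    exact key a
  · obtain ⟨a, ha⟩ := P.bhi b hb k
    rw [ha]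
    exact key a

theorem fat_of_eq_cut {z : Fin 3 → ℤ} (hz : z ∈ P.J) {S : Set V} {a₁ a₂ b₁ b₂ : Fin 3 → ℤ}
    (hS : S = cut P.v 0 P.nr (P.nr + P.N) (P.A z) a₁ a₂ b₁ b₂) (h1 : ∀ k, a₂ k ≤ a₁ k + 1)
    (hf : ∃ c r, 0 < r ∧ Fat c r S) : Fat (Cfat P.N P.J P.A) (1 / 2 ^ P.nr) S := by
  subst hS
  obtain ⟨d, hd⟩ := pre_dyd P hz
  have h2 := (exists_fat_cut (mat P.N (P.A z)) 1).choose_spec.2 P.v 0 P.nr (P.nr + P.N) (P.A z) d hd
    a₁ a₂ b₁ b₂ (by simpa using h1) hf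
  exact H244.fat_mono h2 (by positivity) (cM_le_Cfat _ _ _ hz)

theorem inf_le_sup_add_one (z y : Fin 3 → ℤ) (k : Fin 3) :
    ((z + 1) ⊓ (y + 1)) k ≤ (z ⊔ y) k + 1 := by
  simp only [Pi.inf_apply, Pi.sup_apply, Pi.add_apply, Pi.one_apply]
  rcases le_total (z k) (y k) with h | h
  · rw [sup_eq_right.2 h]; exact inf_le_right
  · rw [sup_eq_left.2 h]; exact inf_le_left

/-- a cube of the partition which meets a piece has generation `nr` -/
theorem pre_near {a : Idx × {b : Bix // b ∈ P.B} × (Fin 3 → ℤ)} (h : (preTD P).Cut a) {q : Idx}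
    (hq : q ∈ P.I) (hm : (dyc P.v q.1 q.2 ∩ dyc P.v a.1.1 a.1.2).Nonempty) : q.1 = P.nr := by
  obtain ⟨y, hyq, hya⟩ := hm
  obtain ⟨x, hxa, hxb⟩ := h.meet
  have h1 := P073.Net.NC.dist_le hya hxa
  rw [pre_gen P h] at h1
  refine P.unif _ a.2.1.2 q hq ⟨y, hyq, x, hxb, h1.trans ?_⟩
  gcongr
  norm_num

/-- two cut cubes which meet belong to the same protected cell -/
theorem pre_same {a a' : Idx × {b : Bix // b ∈ P.B} × (Fin 3 → ℤ)} (h : (preTD P).Cut a)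
    (h' : (preTD P).Cut a') (hm : (dyc P.v a.1.1 a.1.2 ∩ dyc P.v a'.1.1 a'.1.2).Nonempty) :
    a.2.1 = a'.2.1 := by
  by_contra hne
  obtain ⟨y, hya, hya'⟩ := hm
  obtain ⟨x, hxa, hxb⟩ := h.meet
  obtain ⟨x', hxa', hxb'⟩ := h'.meet
  have h1 := P073.Net.NC.dist_le hxa hya
  have h2 := P073.Net.NC.dist_le hya' hxa'
  rw [pre_gen P h] at h1
  rw [pre_gen P h'] at h2
  have h3 := P.sep _ a.2.1.2 _ a'.2.1.2 (fun h => hne (Subtype.ext h)) x hxb x' hxb'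
  have h4 : ‖x - x'‖ ≤ ‖x - y‖ + ‖y - x'‖ := by
    have : x - x' = (x - y) + (y - x') := by abel
    rw [this]
    exact norm_add_le _ _
  have hp : (0:ℝ) < 1 / 2 ^ P.nr := by positivity
  have h5 : (16:ℝ) / 2 ^ P.nr = 16 * (1 / 2 ^ P.nr) := by ring
  linarith

/-- **(T5-FAT)**: the faces of the pieces -/
theorem fat_of_cut {a : Idx × {b : Bix // b ∈ P.B} × (Fin 3 → ℤ)} (ha : (preTD P).Cut a)
    {j : (preTD P).ι} (hj : j ≠ Sum.inr (Sum.inl ⟨a, ha⟩))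
    (h2 : Two ((preTD P).piece a.1 a.2.1 a.2.2 ∩ (preTD P).Q j))
    (hf : ∃ c r, 0 < r ∧ Fat c r ((preTD P).piece a.1 a.2.1 a.2.2 ∩ (preTD P).Q j)) :
    Fat (Cfat P.N P.J P.A) (1 / 2 ^ P.nr) ((preTD P).piece a.1 a.2.1 a.2.2 ∩ (preTD P).Q j) := by
  have hz : a.2.1.1.1 ∈ P.J := P.bJ _ a.2.1.2
  have hg : a.1.1 = P.nr := pre_gen P ha
  have e0 : (preTD P).piece a.1 a.2.1 a.2.2 =
      dyc P.v P.nr a.1.2 ∩ P.A a.2.1.1.1 ⁻¹' dyc 0 (P.nr + P.N) a.2.2 := by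
    show dyc P.v a.1.1 a.1.2 ∩ P.A a.2.1.1.1 ⁻¹' dyc 0 (P.nr + P.N) a.2.2 = _
    rw [hg]
  obtain ⟨x, hx, hxj⟩ := h2.nonempty
  rcases j with q | a' | D
  · -- an uncut cube
    have hq : q.1.1 = P.nr := pre_near P ha q.2.1 ⟨x, hxj, hx.1⟩
    refine fat_of_eq_cut P hz (a₁ := a.1.2 ⊔ q.1.2) (a₂ := (a.1.2 + 1) ⊓ (q.1.2 + 1))
      (b₁ := a.2.2 ⊔ a.2.2) (b₂ := (a.2.2 + 1) ⊓ (a.2.2 + 1)) ?_ (inf_le_sup_add_one _ _) hf
    rw [← cut_inter, ← dyc_inter_preimage, ← dyc_inter_preimage, e0]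
    show _ ∩ dyc P.v q.1.1 q.1.2 = _
    rw [hq]
    ext y
    simp only [mem_inter_iff]
    tauto
  · -- another piece
    have hsame : a.2.1 = a'.1.2.1 := pre_same P ha a'.2 ⟨x, hx.1, hxj.1⟩
    have hg' : a'.1.1.1 = P.nr := pre_gen P a'.2
    refine fat_of_eq_cut P hz (a₁ := a.1.2 ⊔ a'.1.1.2) (a₂ := (a.1.2 + 1) ⊓ (a'.1.1.2 + 1))
      (b₁ := a.2.2 ⊔ a'.1.2.2) (b₂ := (a.2.2 + 1) ⊓ (a'.1.2.2 + 1)) ?_ (inf_le_sup_add_one _ _) hf
    rw [← cut_inter, ← dyc_inter_preimage, ← dyc_inter_preimage, e0]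
    show _ ∩ (dyc P.v a'.1.1.1 a'.1.1.2 ∩ P.A a'.1.2.1.1.1 ⁻¹' dyc 0 (P.nr + P.N) a'.1.2.2) = _
    rw [hg', ← hsame]
  · -- the protected cell
    have hsame : a.2.1 = D :=
      (preTD P).sep _ ha.mem _ _ ha.meet ⟨x, hx.1, hxj⟩
    subst hsame
    choose lo hlo using fun k => (pre_corner P a.2.1.2 k).1
    choose hi hhi using fun k => (pre_corner P a.2.1.2 k).2
    refine fat_of_eq_cut P hz (a₁ := a.1.2 ⊔ a.1.2) (a₂ := (a.1.2 + 1) ⊓ (a.1.2 + 1))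
      (b₁ := a.2.2 ⊔ lo) (b₂ := (a.2.2 + 1) ⊓ hi) ?_ (inf_le_sup_add_one _ _) hf
    rw [← cut_inter, ← dyc_inter_preimage, e0]
    have e1 : cut P.v 0 P.nr (P.nr + P.N) (P.A a.2.1.1.1) a.1.2 (a.1.2 + 1) lo hi =
        dyc P.v P.nr a.1.2 ∩ (preTD P).R a.2.1 := by
      rw [preTD_R]
      ext y
      simp only [cut, dyc, Bix.cell, Bix.box, mem_inter_iff, mem_preimage, mem_Icc, Pi.le_def,
        mem_ofPred_eq, Pi.add_apply, Pi.one_apply, Int.cast_add, Int.cast_one, Pi.zero_apply,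
        zero_add, hlo, hhi]
      constructor
      · intro h
        exact ⟨fun k => (h k).1, fun k => (h k).2.1, fun k => (h k).2.2⟩
      · rintro ⟨h1, h2, h3⟩ k
        exact ⟨h1 k, h2 k, h3 k⟩
    rw [e1]
    show _ ∩ (preTD P).R a.2.1 = _
    ext y
    simp only [mem_inter_iff]
    tauto

/-- **(T5-FAT)**: all faces, except those between two uncut cubes -/
theorem pre_fat (k : (preTD P).tiling.κ)
    (hk : ¬ ∃ q q' : {q : Idx // (preTD P).Far q}, k.1 = (Sum.inl q, Sum.inl q')) :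
    Fat (Cfat P.N P.J P.A) (1 / 2 ^ P.nr) ((preTD P).tiling.F k) := by
  obtain ⟨c, hc, hfat⟩ := (preTD P).tiling.exists_fat_F k
  obtain ⟨⟨i, j⟩, hw, h2⟩ := k
  have hne : i ≠ j := fun h => (irrefl_of WellOrderingRel i) (by
    have := hw
    rwa [← h] at this)
  have h2' : Two ((preTD P).Q i ∩ (preTD P).Q j) := h2
  have hfat' : ∃ c r, 0 < r ∧ Fat c r ((preTD P).Q i ∩ (preTD P).Q j) := ⟨c, 1, one_pos, hfat⟩
  show Fat _ _ ((preTD P).Q i ∩ (preTD P).Q j)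
  rcases i with q | a | D
  · rcases j with q' | a' | D'
    · exact absurd ⟨q, q', rfl⟩ hk
    · rw [inter_comm] at h2' hfat' ⊢
      exact fat_of_cut P a'.2 (j := Sum.inl q) (by simp) h2' hfat'
    · obtain ⟨x, hx, hx'⟩ := h2'.nonempty
      exact absurd hx' (Set.disjoint_left.1 (q.2.2 D') hx)
  · exact fat_of_cut P a.2 hne.symm h2' hfat'
  · obtain ⟨a, rfl, -⟩ := (preTD P).piece_of_meet hne.symm h2'.nonempty
    rw [inter_comm] at h2' hfat' ⊢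
    exact fat_of_cut P a.2 (j := Sum.inr (Sum.inr D)) (by simp) h2' hfat'

end pre

end Vale.Agent.P073.H989
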